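/-
Row 210, layer WR (weighted resolvent), blocks WR0-WR4 (sub-architect helper898).
NEEDS: statements that WR0-WR4 consume from the layers TP, GCA, GCB, GCC, GCD, BE.
Each of them is a contract item of `docs/R210_wave2.md` (origin/helper928); the tag in the docstring names the provider.
All of them are now PROVED from `GC/Ifc.lean` (helper277) and `BE/Ifc.lean` (helper471): each is a short
wrapper.  WR workers may also use the `gc_*` and `be_*` lemmas directly (they are imported here).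
-/
import Claimed.Agent.R210.GC.Ifc
import Claimed.Agent.R210.BE.Ifc

set_option autoImplicit false
set_option linter.unusedSectionVars false

open Claims.C0366 Claims.C0366.WeakHessian
open Set Filter MeasureTheory
open scoped ENNReal NNReal Topology
open Claimed.Agent.R210.Defs Claimed.Agent.R210.Defs2 Claimed.Agent.R210.GC.Defs Claimed.Agent.R210.GC.WG
  Claimed.Agent.R210.GC.Bridge Claimed.Agent.R210.GC.Gam Claimed.Agent.R210.GC.Conv Claimed.Agent.R210.GC.Lap
  Claimed.Agent.R210.BE.Ifc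

namespace Claimed.Agent.R210.WR.Needs

variable {X : Type*} [MetricSpace X] [MeasurableSpace X] [BorelSpace X] [CompleteSpace X]
  [TopologicalSpace.SeparableSpace X] [ProperSpace X] {m : Measure X} {K N : ℝ}

/-! ### TP2 / GC-B : congruence under a.e. equality (equalities of FUNCTIONS) -/

/-- [TP2] -/
theorem wr_n_wg_congr {f g : X → ℝ} (h : f =ᵐ[m] g) : weakGradient m f = weakGradient m g :=
  gc_wg_congr h

/-- [TP2] -/
theorem wr_n_localSobolev_congr {f g : X → ℝ} (h : f =ᵐ[m] g) :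
    LocalSobolev m f ↔ LocalSobolev m g :=
  ⟨gc_ls_congr h, gc_ls_congr h.symm⟩

/-! ### GC-C : function classes -/

/-- [GC-C] -/
theorem wr_n_sobolev_add (hS : Std m K N) {f g : X → ℝ} (hf : Sobolev m f) (hg : Sobolev m g) :
    Sobolev m (fun x => f x + g x) :=
  gc_sob_add hS.finite hf hg

/-- [GC-C] -/
theorem wr_n_sobolev_sub (hS : Std m K N) {f g : X → ℝ} (hf : Sobolev m f) (hg : Sobolev m g) :
    Sobolev m (fun x => f x - g x) :=
  gc_sob_sub hS.finite hf hg

/-- [GC-C] -/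
theorem wr_n_sobolev_smul (hS : Std m K N) (c : ℝ) {f : X → ℝ} (hf : Sobolev m f) :
    Sobolev m (fun x => c * f x) :=
  gc_sob_const_mul hS.finite c hf

/-- [GC-C] Sobolev times bounded Lipschitz is Sobolev. -/
theorem wr_n_sobolev_mul_lipB (hS : Std m K N) {f g : X → ℝ} (hf : Sobolev m f) (hg : LipB g) :
    Sobolev m (fun x => f x * g x) :=
  gc_sob_mul_lipB hS.finite hf hg

/-- [GC-C] -/
theorem wr_n_lipB_local (hS : Std m K N) {f : X → ℝ} (hf : LipB f) : LocalSobolev m f :=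
  gc_ls_of_lipLoc hS.finite (gc_lipLoc_of_lip hf.1)

/-- [GC-C] -/
theorem wr_n_lipC_sobolev (hS : Std m K N) {f : X → ℝ} (hf : LipC f) : Sobolev m f :=
  gc_sob_of_lipC hS.finite hf

/-- [GC-C / RS1] `LipC` is dense in `L²(m)`. -/
theorem wr_n_lipC_dense (hS : Std m K N) {f : X → ℝ} (hf : MemLp f 2 m) {η : ℝ} (hη : 0 < η) :
    ∃ g : X → ℝ, LipC g ∧ eLpNorm (fun x => f x - g x) 2 m ≤ ENNReal.ofReal η := by
  obtain ⟨fs, hfs, hlim⟩ := gc_lipC_dense_L2 hS.finite hf
  have hpos : (0 : ℝ≥0∞) < ENNReal.ofReal η := ENNReal.ofReal_pos.2 hη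
  obtain ⟨n, hn⟩ := ((tendsto_order.1 hlim).2 _ hpos).exists
  refine ⟨fs n, hfs n, ?_⟩
  have : eLpNorm (fun x => f x - fs n x) 2 m = eLpNorm (fun x => fs n x - f x) 2 m :=
    eLpNorm_sub_comm f (fs n) 2 m
  rw [this]
  exact hn.le

/-- [GC-B/GC-C, TP3 chain rule] normal contractions operate. -/
theorem wr_n_contraction (hS : Std m K N) {u : X → ℝ} (hu : Sobolev m u) {ψ : ℝ → ℝ}
    (hψ : LipschitzWith 1 ψ) (hψ0 : ψ 0 = 0) :
    Sobolev m (fun x => ψ (u x)) ∧
      ∀ᵐ x ∂m, weakGradient m (fun y => ψ (u y)) x ≤ weakGradient m u x := by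
  refine ⟨gc_sob_comp_lip hS.finite hψ hψ0 hu, ?_⟩
  filter_upwards [gc_wg_comp_lip hS.finite hψ hu.2.1, gc_wg_nonneg (m := m) u] with x hx h0
  rw [hx]
  have h1 : |deriv ψ (u x)| ≤ 1 := by
    have := norm_deriv_le_of_lipschitz (x₀ := u x) hψ
    simpa using this
  calc |deriv ψ (u x)| * weakGradient m u x ≤ 1 * weakGradient m u x :=
        mul_le_mul_of_nonneg_right h1 h0
    _ = weakGradient m u x := one_mul _

/-! ### TP3, TP4, GC-A : the weak gradient -/

/-- [TP2] (true for every `f`: the minimal w.u.g. is a.e. nonnegative, the junk value is `0`). -/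
theorem wr_n_wg_nonneg (f : X → ℝ) : ∀ᵐ x ∂m, 0 ≤ weakGradient m f x :=
  gc_wg_nonneg f

/-- [TP3] -/
theorem wr_n_wg_smul (hS : Std m K N) (c : ℝ) {f : X → ℝ} (hf : LocalSobolev m f) :
    ∀ᵐ x ∂m, weakGradient m (fun y => c * f y) x = |c| * weakGradient m f x :=
  gc_wg_const_mul hS.finite c hf

/-- [TP4] -/
theorem wr_n_wg_le_lip (hS : Std m K N) {L : ℝ≥0} {f : X → ℝ} (hf : LipschitzWith L f) :
    ∀ᵐ x ∂m, weakGradient m f x ≤ L :=
  gc_wg_le_lip hS.finite hf

/-- [GC-A] pointwise parallelogram identity. -/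
theorem wr_n_par (hS : Std m K N) {f g : X → ℝ} (hf : LocalSobolev m f) (hg : LocalSobolev m g) :
    ∀ᵐ x ∂m, weakGradient m (fun y => f y + g y) x ^ 2 + weakGradient m (fun y => f y - g y) x ^ 2 =
      2 * weakGradient m f x ^ 2 + 2 * weakGradient m g x ^ 2 :=
  gc_parallelogram hS hf hg

/-! ### GC-B : pointwise calculus of `gamma` -/

/-- [GC-B] -/
theorem wr_n_gamma_aesm (hS : Std m K N) {f g : X → ℝ} (hf : LocalSobolev m f)
    (hg : LocalSobolev m g) : AEStronglyMeasurable (gamma m f g) m :=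
  gc_gamma_aesm f g

/-- [GC-B] -/
theorem wr_n_gamma_self (hS : Std m K N) {f : X → ℝ} (hf : LocalSobolev m f) :
    ∀ᵐ x ∂m, gamma m f f x = weakGradient m f x ^ 2 :=
  gc_gamma_self hS.finite hf

/-- [GC-B] -/
theorem wr_n_gamma_comm (hS : Std m K N) {f g : X → ℝ} (hf : LocalSobolev m f)
    (hg : LocalSobolev m g) : ∀ᵐ x ∂m, gamma m f g x = gamma m g f x :=
  gc_gamma_comm hS.finite hf hg

/-- [GC-B] -/
theorem wr_n_gamma_add_right (hS : Std m K N) {f g h : X → ℝ} (hf : LocalSobolev m f)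
    (hg : LocalSobolev m g) (hh : LocalSobolev m h) :
    ∀ᵐ x ∂m, gamma m f (fun y => g y + h y) x = gamma m f g x + gamma m f h x :=
  gc_gamma_add_right hS hf hg hh

/-- [GC-B] -/
theorem wr_n_gamma_smul_right (hS : Std m K N) (c : ℝ) {f g : X → ℝ} (hf : LocalSobolev m f)
    (hg : LocalSobolev m g) :
    ∀ᵐ x ∂m, gamma m f (fun y => c * g y) x = c * gamma m f g x :=
  gc_gamma_const_mul_right hS c hf hg

/-- [GC-B] Cauchy-Schwarz. -/
theorem wr_n_gamma_abs_le (hS : Std m K N) {f g : X → ℝ} (hf : LocalSobolev m f)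
    (hg : LocalSobolev m g) :
    ∀ᵐ x ∂m, |gamma m f g x| ≤ weakGradient m f x * weakGradient m g x :=
  gc_gamma_abs_le hS hf hg

/-- [GC-B] Leibniz rule, second slot, `v` Sobolev (possibly UNBOUNDED), `e` bounded Lipschitz. -/
theorem wr_n_gamma_leibniz (hS : Std m K N) {u v e : X → ℝ} (hu : LocalSobolev m u)
    (hv : LocalSobolev m v) (he : LipB e) :
    ∀ᵐ x ∂m, gamma m u (fun y => v y * e y) x = e x * gamma m u v x + v x * gamma m u e x := by
  have hel : gc_LipLoc e := gc_lipLoc_of_lip he.1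
  filter_upwards [gc_gamma_mul_right hS hv (gc_ls_of_lipLoc hS.finite hel)
    (gc_ls_mul_lipLoc hS.finite hv hel) hu] with x hx
  rw [hx]; ring

/-- [GC-B] chain rule for `exp (F / ε)`, `F` bounded Lipschitz, any real `ε`. -/
theorem wr_n_gamma_exp (hS : Std m K N) {u F : X → ℝ} (hu : LocalSobolev m u) (hF : LipB F)
    (ε : ℝ) :
    ∀ᵐ x ∂m, gamma m u (fun y => Real.exp (F y / ε)) x =
      Real.exp (F x / ε) / ε * gamma m u F x := by
  have hφ : ContDiff ℝ 1 (fun t : ℝ => Real.exp (t / ε)) :=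
    Real.contDiff_exp.comp (contDiff_id.div_const ε)
  have hFl : gc_LipLoc F := gc_lipLoc_of_lip hF.1
  have hd : ∀ t : ℝ, deriv (fun t : ℝ => Real.exp (t / ε)) t = Real.exp (t / ε) / ε := by
    intro t
    have h1 : HasDerivAt (fun t : ℝ => t / ε) (1 / ε) t := (hasDerivAt_id t).div_const ε
    have h2 := h1.exp
    rw [h2.deriv]; ring
  filter_upwards [gc_gamma_comp_right hS hφ hu (gc_ls_of_lipLoc hS.finite hFl)
    (gc_ls_of_lipLoc hS.finite (gc_lipLoc_comp (φ := fun t : ℝ => Real.exp (t / ε)) hφ hFl))] with x hx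
  rw [hx, hd]

/-! ### GC-C : closure and weak continuity -/

/-- [GC-C] `W^{1,2}` closure. -/
theorem wr_n_closure (hS : Std m K N) {fs : ℕ → X → ℝ} {f : X → ℝ} {C : ℝ}
    (hfs : ∀ n, Sobolev m (fs n)) (hE : ∀ n, energy m (fs n) ≤ C) (hf : MemLp f 2 m)
    (hlim : Tendsto (fun n => eLpNorm (fun x => fs n x - f x) 2 m) atTop (𝓝 0)) :
    Sobolev m f :=
  (gc_sob_closure hS (Eventually.of_forall hfs) hlim hf (Eventually.of_forall hE)).1

/-- [GC-C] weak continuity of the form against a bounded measurable weight. -/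
theorem wr_n_weak_cont (hS : Std m K N) {fs : ℕ → X → ℝ} {f v h : X → ℝ} {C B : ℝ}
    (hfs : ∀ n, Sobolev m (fs n)) (hE : ∀ n, energy m (fs n) ≤ C) (hf : MemLp f 2 m)
    (hlim : Tendsto (fun n => eLpNorm (fun x => fs n x - f x) 2 m) atTop (𝓝 0))
    (hv : Sobolev m v) (hh : AEStronglyMeasurable h m) (hB : ∀ᵐ x ∂m, |h x| ≤ B) :
    Tendsto (fun n => ∫ x, gamma m (fs n) v x * h x ∂m) atTop
      (𝓝 (∫ x, gamma m f v x * h x ∂m)) := by
  have := gc_weak_cont hS (Eventually.of_forall hfs) hlim hf (Eventually.of_forall hE) hv hh hB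
  simpa only [mul_comm] using this

/-! ### GC-D : Laplacian and the unweighted resolvent `resF` -/

/-- [GC-D] uniqueness of the Laplacian. -/
theorem wr_n_lap_unique (hS : Std m K N) {u L L' : X → ℝ} (h : IsLaplacian m u L)
    (h' : IsLaplacian m u L') : L =ᵐ[m] L' :=
  gc_isLaplacian_unique hS h h'

/-- [GC-D] -/
theorem wr_n_resF_spec (hS : Std m K N) {lam : ℝ} (hlam : 0 < lam) {g : X → ℝ} (hg : MemLp g 2 m) :
    IsLaplacian m (resF m lam g) (fun x => (resF m lam g x - g x) / lam) :=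
  gc_resF_isLaplacian hS hlam hg

/-- [GC-D] -/
theorem wr_n_resF_sub (hS : Std m K N) {lam : ℝ} (hlam : 0 < lam) {g g' : X → ℝ}
    (hg : MemLp g 2 m) (hg' : MemLp g' 2 m) :
    resF m lam (fun x => g x - g' x) =ᵐ[m] fun x => resF m lam g x - resF m lam g' x :=
  gc_resF_sub hS hlam hg hg'

/-- [GC-D] (from `hs_prox_energy`: `‖u‖² + λ E(u,u) = ⟨g,u⟩ ≤ ‖g‖²`). -/
theorem wr_n_resF_energy (hS : Std m K N) {lam : ℝ} (hlam : 0 < lam) {g : X → ℝ}
    (hg : MemLp g 2 m) : lam * energy m (resF m lam g) ≤ ∫ x, g x ^ 2 ∂m := by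
  have hu : Sobolev m (resF m lam g) := gc_resF_sob hS hlam g
  have hw := gc_resF_weak hS hlam hg hu
  have he : ∫ x, gamma m (resF m lam g) (resF m lam g) x ∂m = energy m (resF m lam g) :=
    gc_form_self hS.finite hu.2.1
  rw [he] at hw
  have i1 : Integrable (fun x => resF m lam g x * resF m lam g x) m := hu.1.integrable_mul hu.1
  have i2 : Integrable (fun x => g x * resF m lam g x) m := hg.integrable_mul hu.1
  have i3 : Integrable (fun x => g x ^ 2) m := hg.integrable_sq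
  have h1 : ∫ x, g x * resF m lam g x ∂m - ∫ x, resF m lam g x * resF m lam g x ∂m ≤
      ∫ x, g x ^ 2 ∂m := by
    rw [← integral_sub i2 i1]
    refine integral_mono (i2.sub i1) i3 (fun x => ?_)
    show g x * resF m lam g x - resF m lam g x * resF m lam g x ≤ g x ^ 2
    nlinarith [sq_nonneg (g x - 2 * resF m lam g x), sq_nonneg (g x)]
  linarith

/-! ### BE -/

/-- [BE5] gradient bound for the resolvent of a bounded function. -/
theorem wr_n_be5 (hS : Std m K N) : ∃ C : ℝ, 1 ≤ C ∧ ∀ (lam : ℝ), 0 < lam → lam ≤ 1 →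
    ∀ (g : X → ℝ) (B : ℝ), MemLp g 2 m → (∀ᵐ x ∂m, |g x| ≤ B) →
      ∀ᵐ x ∂m, weakGradient m (resF m lam g) x ≤ C * B / Real.sqrt lam := by
  have hK : 0 ≤ Real.sqrt (-K) := Real.sqrt_nonneg _
  refine ⟨2 + Real.sqrt (-K), by linarith, ?_⟩
  intro lam hlam hlam1 g B hg hB
  by_cases hB0 : 0 ≤ B
  · obtain ⟨g', hg', hgg⟩ := be_BE5_bdd hS hB0 hg hB hlam hlam1
    have h1 := gc_wg_le_lip (m := m) hS.finite hg'
    rw [gc_wg_congr hgg] at h1
    filter_upwards [h1] with x hx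
    refine hx.trans (le_of_eq ?_)
    exact Real.coe_toNNReal _ (by positivity)
  · filter_upwards [hB] with x hx
    exact absurd ((abs_nonneg _).trans hx) hB0

/-- [BE3] Sobolev-to-Lipschitz. -/
theorem wr_n_be3 (hS : Std m K N) {f : X → ℝ} (hf : LocalSobolev m f) {L : ℝ≥0}
    (hL : ∀ᵐ x ∂m, weakGradient m f x ≤ L) : ∃ f' : X → ℝ, LipschitzWith L f' ∧ f' =ᵐ[m] f :=
  be_BE3 hS hf hL

end Claimed.Agent.R210.WR.Needs
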