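/-
Row 210, layer WR, block WR0 (sub-architect helper898): the weight `wt F ε = e^{F/ε}` and the weighted
measure `mW m F ε = e^{F/ε} m`.  Pure Mathlib measure theory: nothing from the other layers is used.
Contract: `git show origin/helper928:docs/R210_partZ.md`, section WR.
-/
import Claimed.Agent.R210.Defs2

set_option autoImplicit false

open Claims.C0366 Claims.C0366.WeakHessian
open Set Filter MeasureTheory
open scoped ENNReal NNReal Topology RealInnerProductSpace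
open Claimed.Agent.R210.Defs Claimed.Agent.R210.Defs2

namespace Claimed.Agent.R210.WR.Wt

variable {X : Type*} [MetricSpace X] [MeasurableSpace X] [BorelSpace X] {m : Measure X}
  {F : X → ℝ} {ε : ℝ}

/-! ### the weight -/

theorem wr_wt_pos (F : X → ℝ) (ε : ℝ) (x : X) : 0 < wt F ε x := Real.exp_pos _

/-- `e^{F/ε} ≤ e^{B/ε}`. -/
theorem wr_wt_le {B : ℝ} (hB : ∀ x, |F x| ≤ B) (hε : 0 < ε) (x : X) :
    wt F ε x ≤ Real.exp (B / ε) := by
  unfold wt
  exact Real.exp_le_exp.2 (div_le_div_of_nonneg_right (abs_le.1 (hB x)).2 hε.le)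

/-- `e^{-B/ε} ≤ e^{F/ε}`. -/
theorem wr_wt_ge {B : ℝ} (hB : ∀ x, |F x| ≤ B) (hε : 0 < ε) (x : X) :
    Real.exp (-(B / ε)) ≤ wt F ε x := by
  unfold wt
  rw [← neg_div]
  exact Real.exp_le_exp.2 (div_le_div_of_nonneg_right (abs_le.1 (hB x)).1 hε.le)

/-- the weight of `-F` is the inverse weight. -/
theorem wr_wt_neg (F : X → ℝ) (ε : ℝ) (x : X) : wt (fun y => -F y) ε x = (wt F ε x)⁻¹ := by
  unfold wt
  rw [neg_div, Real.exp_neg]

theorem wr_wt_mul_neg (F : X → ℝ) (ε : ℝ) (x : X) : wt F ε x * wt (fun y => -F y) ε x = 1 := by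
  rw [wr_wt_neg]
  exact mul_inv_cancel₀ (Real.exp_pos _).ne'

theorem wr_lipB_continuous (hF : LipB F) : Continuous F := by
  obtain ⟨⟨L, hL⟩, -⟩ := hF
  exact hL.continuous

theorem wr_wt_continuous (hF : Continuous F) (ε : ℝ) : Continuous (wt F ε) := by
  unfold wt
  exact Real.continuous_exp.comp (hF.div_const ε)

theorem wr_wt_measurable (hF : Continuous F) (ε : ℝ) : Measurable (wt F ε) :=
  (wr_wt_continuous hF ε).measurable

theorem wr_neg_lipB (hF : LipB F) : LipB (fun x => -F x) := by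
  obtain ⟨⟨L, hL⟩, ⟨B, hB⟩⟩ := hF
  exact ⟨⟨L, hL.neg⟩, ⟨B, fun x => by rw [abs_neg]; exact hB x⟩⟩

theorem wr_exp_sub_le {a b c : ℝ} (ha : a ≤ c) (hb : b ≤ c) :
    |Real.exp a - Real.exp b| ≤ Real.exp c * |a - b| := by
  wlog hab : b ≤ a generalizing a b
  · have := this hb ha (le_of_not_ge hab)
    rwa [abs_sub_comm, abs_sub_comm a b]
  rw [abs_of_nonneg (sub_nonneg.2 (Real.exp_le_exp.2 hab)), abs_of_nonneg (sub_nonneg.2 hab)]
  have h1 : Real.exp b ≥ Real.exp a * (1 - (a - b)) := by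
    have h2 : (b - a) + 1 ≤ Real.exp (b - a) := Real.add_one_le_exp _
    have h3 : Real.exp b = Real.exp a * Real.exp (b - a) := by
      rw [← Real.exp_add]; congr 1; ring
    rw [h3]
    have : 1 - (a - b) ≤ Real.exp (b - a) := by linarith
    exact mul_le_mul_of_nonneg_left this (Real.exp_pos a).le
  have h4 : Real.exp a * (a - b) ≤ Real.exp c * (a - b) :=
    mul_le_mul_of_nonneg_right (Real.exp_le_exp.2 ha) (sub_nonneg.2 hab)
  nlinarith

/-- `exp` is Lipschitz on bounded intervals: `|e^a - e^b| ≤ e^{B/ε} |a - b|` for `a, b ≤ B/ε`. -/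
theorem wr_wt_lipB (hF : LipB F) (hε : 0 < ε) : LipB (wt F ε) := by
  obtain ⟨⟨L, hL⟩, ⟨B, hB⟩⟩ := hF
  refine ⟨⟨Real.toNNReal (Real.exp (B / ε) * (L / ε)), ?_⟩, ⟨Real.exp (B / ε), fun x => ?_⟩⟩
  · refine LipschitzWith.of_dist_le_mul fun x y => ?_
    have hnn : 0 ≤ Real.exp (B / ε) * (L / ε) :=
      mul_nonneg (Real.exp_pos _).le (div_nonneg L.coe_nonneg hε.le)
    rw [Real.coe_toNNReal _ hnn, Real.dist_eq]
    have hx : F x / ε ≤ B / ε := div_le_div_of_nonneg_right (abs_le.1 (hB x)).2 hε.le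
    have hy : F y / ε ≤ B / ε := div_le_div_of_nonneg_right (abs_le.1 (hB y)).2 hε.le
    have h1 := wr_exp_sub_le hx hy
    have h2 : |F x / ε - F y / ε| ≤ L / ε * dist x y := by
      rw [← sub_div, abs_div, abs_of_pos hε]
      have h3 : |F x - F y| ≤ L * dist x y := by
        have := hL.dist_le_mul x y
        rwa [Real.dist_eq] at this
      calc |F x - F y| / ε ≤ (L * dist x y) / ε := div_le_div_of_nonneg_right h3 hε.le
        _ = L / ε * dist x y := by ring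
    unfold wt
    calc |Real.exp (F x / ε) - Real.exp (F y / ε)| ≤ Real.exp (B / ε) * |F x / ε - F y / ε| := h1
      _ ≤ Real.exp (B / ε) * (L / ε * dist x y) :=
          mul_le_mul_of_nonneg_left h2 (Real.exp_pos _).le
      _ = Real.exp (B / ε) * (L / ε) * dist x y := by ring
  · rw [abs_of_pos (show 0 < wt F ε x from Real.exp_pos _)]
    exact wr_wt_le hB hε x

/-! ### the weighted measure -/

theorem wr_mW_le {B : ℝ} (hB : ∀ x, |F x| ≤ B) (hε : 0 < ε) :
    mW m F ε ≤ ENNReal.ofReal (Real.exp (B / ε)) • m := by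
  unfold mW
  rw [← withDensity_const]
  exact withDensity_mono (Filter.Eventually.of_forall
    (fun x => ENNReal.ofReal_le_ofReal (wr_wt_le hB hε x)))

theorem wr_le_mW {B : ℝ} (hB : ∀ x, |F x| ≤ B) (hε : 0 < ε) :
    ENNReal.ofReal (Real.exp (-(B / ε))) • m ≤ mW m F ε := by
  unfold mW
  rw [← withDensity_const]
  exact withDensity_mono (Filter.Eventually.of_forall
    (fun x => ENNReal.ofReal_le_ofReal (wr_wt_ge hB hε x)))

theorem wr_mW_ac (m : Measure X) (F : X → ℝ) (ε : ℝ) : mW m F ε ≪ m := by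
  exact withDensity_absolutelyContinuous _ _

theorem wr_ac_mW (m : Measure X) (hF : Continuous F) (ε : ℝ) : m ≪ mW m F ε := by
  refine withDensity_absolutelyContinuous' ?_ ?_
  · exact (wr_wt_measurable hF ε).ennreal_ofReal.aemeasurable
  · refine Filter.Eventually.of_forall (fun x => ?_)
    exact (ENNReal.ofReal_pos.mpr (wr_wt_pos F ε x)).ne'

/-- the two measures have the same null sets. -/
theorem wr_ae_mW (m : Measure X) (hF : Continuous F) (ε : ℝ) : ae (mW m F ε) = ae m := by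
  exact le_antisymm (wr_mW_ac m F ε).ae_le (wr_ac_mW m hF ε).ae_le

theorem wr_aesm_iff (hF : Continuous F) (ε : ℝ) {f : X → ℝ} :
    AEStronglyMeasurable f (mW m F ε) ↔ AEStronglyMeasurable f m := by
  exact ⟨fun h => h.mono_ac (wr_ac_mW m hF ε), fun h => h.mono_ac (wr_mW_ac m F ε)⟩

/-- `m ≤ e^{B/ε} m_ε`. -/
theorem wr_le_smul_mW {B : ℝ} (hB : ∀ x, |F x| ≤ B) (hε : 0 < ε) :
    m ≤ ENNReal.ofReal (Real.exp (B / ε)) • mW m F ε := by
  have h := wr_le_mW (m := m) hB hε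
  have h2 : ENNReal.ofReal (Real.exp (B / ε)) • (ENNReal.ofReal (Real.exp (-(B / ε))) • m)
      ≤ ENNReal.ofReal (Real.exp (B / ε)) • mW m F ε := by
    intro s
    simp only [Measure.smul_apply, smul_eq_mul]
    gcongr
    exact h s
  rw [smul_smul, ← ENNReal.ofReal_mul (Real.exp_pos _).le, ← Real.exp_add] at h2
  simpa using h2

theorem wr_sqrt_ofReal_exp (B ε : ℝ) :
    ENNReal.ofReal (Real.exp (B / ε)) ^ (1 / (2 : ℝ≥0∞)).toReal = ENNReal.ofReal (Real.exp (B / (2 * ε))) := by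
  have h2 : (1 / (2 : ℝ≥0∞)).toReal = 1 / 2 := by simp
  rw [h2, ENNReal.ofReal_rpow_of_nonneg (Real.exp_pos _).le (by norm_num), ← Real.exp_mul]
  congr 2
  rw [div_mul_div_comm, mul_one, mul_comm ε 2]

/-- **WR0**. -/
theorem wr_memLp_iff (hF : LipB F) (hε : 0 < ε) {f : X → ℝ} :
    MemLp f 2 (mW m F ε) ↔ MemLp f 2 m := by
  obtain ⟨B, hB⟩ := hF.2
  exact ⟨fun h => h.of_measure_le_smul ENNReal.ofReal_ne_top (wr_le_smul_mW hB hε),
    fun h => h.of_measure_le_smul ENNReal.ofReal_ne_top (wr_mW_le hB hε)⟩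

/-- **WR0**. -/
theorem wr_integral_mW (m : Measure X) (hF : Continuous F) (ε : ℝ) (f : X → ℝ) :
    ∫ x, f x ∂(mW m F ε) = ∫ x, f x * wt F ε x ∂m := by
  unfold mW
  rw [integral_withDensity_eq_integral_toReal_smul (wr_wt_measurable hF ε).ennreal_ofReal
    (Eventually.of_forall fun x => ENNReal.ofReal_lt_top)]
  refine integral_congr_ae (Eventually.of_forall fun x => ?_)
  simp only [ENNReal.toReal_ofReal (wr_wt_pos F ε x).le, smul_eq_mul, mul_comm]

theorem wr_integrable_mul_wt (hF : LipB F) (hε : 0 < ε) {f : X → ℝ} (hf : Integrable f m) :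
    Integrable (fun x => f x * wt F ε x) m := by
  obtain ⟨B, hB⟩ := hF.2
  refine hf.mul_bdd (c := Real.exp (B / ε))
    (wr_wt_continuous (wr_lipB_continuous hF) ε).aestronglyMeasurable (Eventually.of_forall fun x => ?_)
  rw [Real.norm_eq_abs, abs_of_pos (wr_wt_pos F ε x)]
  exact wr_wt_le hB hε x

theorem wr_integrable_mW_iff (hF : LipB F) (hε : 0 < ε) {f : X → ℝ} :
    Integrable f (mW m F ε) ↔ Integrable f m := by
  obtain ⟨B, hB⟩ := hF.2
  constructor
  · intro h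
    have h1 : Integrable f (ENNReal.ofReal (Real.exp (-(B / ε))) • m) := h.mono_measure (wr_le_mW hB hε)
    have h2 := h1.smul_measure (c := (ENNReal.ofReal (Real.exp (-(B / ε))))⁻¹)
      (ENNReal.inv_ne_top.2 (by simpa using Real.exp_pos (-(B / ε))))
    rwa [smul_smul, ENNReal.inv_mul_cancel (by simpa using Real.exp_pos (-(B / ε))) ENNReal.ofReal_ne_top,
      one_smul] at h2
  · intro h
    exact (h.smul_measure ENNReal.ofReal_ne_top).mono_measure (wr_mW_le hB hε)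

/-- comparison of the `L²` seminorms, one direction. -/
theorem wr_eLpNorm_mW_le {B : ℝ} (hB : ∀ x, |F x| ≤ B) (hε : 0 < ε) (f : X → ℝ) :
    eLpNorm f 2 (mW m F ε) ≤ ENNReal.ofReal (Real.exp (B / (2 * ε))) * eLpNorm f 2 m := by
  refine le_trans (eLpNorm_mono_measure f (wr_mW_le hB hε)) ?_
  rw [eLpNorm_smul_measure_of_ne_zero (ENNReal.ofReal_pos.mpr (Real.exp_pos _)).ne', wr_sqrt_ofReal_exp,
    smul_eq_mul]

/-- comparison of the `L²` seminorms, other direction. -/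
theorem wr_eLpNorm_le_mW {B : ℝ} (hB : ∀ x, |F x| ≤ B) (hε : 0 < ε) (f : X → ℝ) :
    eLpNorm f 2 m ≤ ENNReal.ofReal (Real.exp (B / (2 * ε))) * eLpNorm f 2 (mW m F ε) := by
  refine le_trans (eLpNorm_mono_measure f (wr_le_smul_mW hB hε)) ?_
  rw [eLpNorm_smul_measure_of_ne_zero (ENNReal.ofReal_pos.mpr (Real.exp_pos _)).ne', wr_sqrt_ofReal_exp,
    smul_eq_mul]

/-! ### the Hilbert space `L²(m_ε)` -/

/-- the class of `f ∈ L²(m)` in `L²(m_ε)`. -/
noncomputable def wr_toLp (hF : LipB F) (hε : 0 < ε) {f : X → ℝ} (hf : MemLp f 2 m) :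
    Lp ℝ 2 (mW m F ε) := ((wr_memLp_iff hF hε).2 hf).toLp f

theorem wr_coe_toLp (hF : LipB F) (hε : 0 < ε) {f : X → ℝ} (hf : MemLp f 2 m) :
    (wr_toLp hF hε hf : X → ℝ) =ᵐ[m] f := by
  have h := MemLp.coeFn_toLp ((wr_memLp_iff (m := m) hF hε).2 hf)
  rw [wr_ae_mW m (wr_lipB_continuous hF) ε] at h
  exact h

theorem wr_coe_memLp (hF : LipB F) (hε : 0 < ε) (u : Lp ℝ 2 (mW m F ε)) :
    MemLp (u : X → ℝ) 2 m := by
  exact (wr_memLp_iff hF hε).1 (Lp.memLp u)

theorem wr_toLp_coe (hF : LipB F) (hε : 0 < ε) (u : Lp ℝ 2 (mW m F ε)) :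
    wr_toLp hF hε (wr_coe_memLp hF hε u) = u := by
  unfold wr_toLp
  exact Lp.toLp_coeFn u _

/-- two elements of `L²(m_ε)` are equal iff they are `m`-a.e. equal. -/
theorem wr_ext_iff (hF : LipB F) (u v : Lp ℝ 2 (mW m F ε)) :
    u = v ↔ (u : X → ℝ) =ᵐ[m] (v : X → ℝ) := by
  rw [Lp.ext_iff, wr_ae_mW m (wr_lipB_continuous hF) ε]

theorem wr_toLp_congr (hF : LipB F) (hε : 0 < ε) {f g : X → ℝ} (hf : MemLp f 2 m)
    (hg : MemLp g 2 m) (h : f =ᵐ[m] g) : wr_toLp hF hε hf = wr_toLp hF hε hg := by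
  unfold wr_toLp
  refine MemLp.toLp_congr _ _ ?_
  rw [wr_ae_mW m (wr_lipB_continuous hF) ε]
  exact h

theorem wr_coe_add (hF : LipB F) (u v : Lp ℝ 2 (mW m F ε)) :
    ((u + v : Lp ℝ 2 (mW m F ε)) : X → ℝ) =ᵐ[m] fun x => u x + v x := by
  have h := Lp.coeFn_add u v
  rw [wr_ae_mW m (wr_lipB_continuous hF) ε] at h
  exact h

theorem wr_coe_sub (hF : LipB F) (u v : Lp ℝ 2 (mW m F ε)) :
    ((u - v : Lp ℝ 2 (mW m F ε)) : X → ℝ) =ᵐ[m] fun x => u x - v x := by
  have h := Lp.coeFn_sub u v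
  rw [wr_ae_mW m (wr_lipB_continuous hF) ε] at h
  exact h

theorem wr_coe_smul (hF : LipB F) (c : ℝ) (u : Lp ℝ 2 (mW m F ε)) :
    ((c • u : Lp ℝ 2 (mW m F ε)) : X → ℝ) =ᵐ[m] fun x => c * u x := by
  have h := Lp.coeFn_smul c u
  rw [wr_ae_mW m (wr_lipB_continuous hF) ε] at h
  exact h

theorem wr_coe_zero (hF : LipB F) :
    ((0 : Lp ℝ 2 (mW m F ε)) : X → ℝ) =ᵐ[m] fun _ => (0 : ℝ) := by
  have h := Lp.coeFn_zero ℝ 2 (mW m F ε)
  rw [wr_ae_mW m (wr_lipB_continuous hF) ε] at h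
  exact h

theorem wr_toLp_add (hF : LipB F) (hε : 0 < ε) {f g : X → ℝ} (hf : MemLp f 2 m)
    (hg : MemLp g 2 m) (hfg : MemLp (fun x => f x + g x) 2 m) :
    wr_toLp hF hε hfg = wr_toLp hF hε hf + wr_toLp hF hε hg := by
  unfold wr_toLp
  exact MemLp.toLp_add _ _

theorem wr_toLp_sub (hF : LipB F) (hε : 0 < ε) {f g : X → ℝ} (hf : MemLp f 2 m)
    (hg : MemLp g 2 m) (hfg : MemLp (fun x => f x - g x) 2 m) :
    wr_toLp hF hε hfg = wr_toLp hF hε hf - wr_toLp hF hε hg := by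
  unfold wr_toLp
  exact MemLp.toLp_sub _ _

theorem wr_toLp_smul (hF : LipB F) (hε : 0 < ε) (c : ℝ) {f : X → ℝ} (hf : MemLp f 2 m)
    (hcf : MemLp (fun x => c * f x) 2 m) :
    wr_toLp hF hε hcf = c • wr_toLp hF hε hf := by
  unfold wr_toLp
  exact MemLp.toLp_const_smul c _

/-- the inner product of `L²(m_ε)`. -/
theorem wr_inner (hF : LipB F) (u v : Lp ℝ 2 (mW m F ε)) :
    ⟪u, v⟫ = ∫ x, u x * v x * wt F ε x ∂m := by
  rw [L2.inner_def, wr_integral_mW m (wr_lipB_continuous hF) ε]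
  apply integral_congr_ae
  refine Eventually.of_forall (fun x => ?_)
  simp [mul_comm]

theorem wr_norm_sq (hF : LipB F) (u : Lp ℝ 2 (mW m F ε)) :
    ‖u‖ ^ 2 = ∫ x, u x ^ 2 * wt F ε x ∂m := by
  rw [← real_inner_self_eq_norm_sq, wr_inner hF]
  simp only [sq]

/-- convergence in `L²(m_ε)` is convergence in `L²(m)`. -/
theorem wr_tendsto_iff (hF : LipB F) (hε : 0 < ε) {ι : Type*} {l : Filter ι}
    {us : ι → Lp ℝ 2 (mW m F ε)} {u : Lp ℝ 2 (mW m F ε)} :
    Tendsto us l (𝓝 u) ↔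
      Tendsto (fun i => eLpNorm (fun x => us i x - u x) 2 m) l (𝓝 0) := by
  obtain ⟨B, hB⟩ := hF.2
  have hc : Continuous F := wr_lipB_continuous hF
  have key : Tendsto us l (𝓝 u) ↔
      Tendsto (fun i => eLpNorm (fun x => us i x - u x) 2 (mW m F ε)) l (𝓝 0) := by
    rw [Lp.tendsto_Lp_iff_tendsto_eLpNorm']
    rfl
  rw [key]
  have hC : ENNReal.ofReal (Real.exp (B / (2 * ε))) ≠ ∞ := ENNReal.ofReal_ne_top
  constructor
  · intro h
    have h2 := ENNReal.Tendsto.const_mul (a := ENNReal.ofReal (Real.exp (B / (2 * ε)))) h (Or.inr hC)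
    rw [mul_zero] at h2
    exact tendsto_of_tendsto_of_tendsto_of_le_of_le tendsto_const_nhds h2 (fun _ => zero_le)
      (fun i => wr_eLpNorm_le_mW hB hε _)
  · intro h
    have h2 := ENNReal.Tendsto.const_mul (a := ENNReal.ofReal (Real.exp (B / (2 * ε)))) h (Or.inr hC)
    rw [mul_zero] at h2
    exact tendsto_of_tendsto_of_tendsto_of_le_of_le tendsto_const_nhds h2 (fun _ => zero_le)
      (fun i => wr_eLpNorm_mW_le hB hε _)

/-- product of two `L²(m)` functions and the weight is integrable. -/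
theorem wr_integrable_mul_mul_wt (hF : LipB F) (hε : 0 < ε) {f g : X → ℝ} (hf : MemLp f 2 m)
    (hg : MemLp g 2 m) : Integrable (fun x => f x * g x * wt F ε x) m :=
  wr_integrable_mul_wt hF hε (hf.integrable_mul hg)

/-- unfolding of `resW` on `L²(m)`. -/
theorem wr_resW_eq (hF : LipB F) (hε : 0 < ε) (δ : ℝ) {f : X → ℝ} (hf : MemLp f 2 m) :
    resW m F ε δ f =
      ((HS.Defs.prox (QW m F ε) δ (wr_toLp hF hε hf) : Lp ℝ 2 (mW m F ε)) : X → ℝ) := by
  unfold resW wr_toLp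
  rw [dif_pos ((wr_memLp_iff hF hε).2 hf)]

end Claimed.Agent.R210.WR.Wt
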