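/-
Row 210, layer WR, blocks WR0-WR4 (sub-architect helper898): small calculus lemmas derived from `WR/Needs.lean`
(congruence under a.e. equality, integrability, the Leibniz rule with the weight).
-/
import Claimed.Agent.R210.WR.Needs
import Claimed.Agent.R210.WR.Wt

set_option autoImplicit false

open Claims.C0366 Claims.C0366.WeakHessian
open Set Filter MeasureTheory
open scoped ENNReal NNReal Topology
open Claimed.Agent.R210.Defs Claimed.Agent.R210.Defs2
open Claimed.Agent.R210.WR.Needs Claimed.Agent.R210.WR.Wt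

namespace Claimed.Agent.R210.WR.Calc

variable {X : Type*} [MetricSpace X] [MeasurableSpace X] [BorelSpace X] [CompleteSpace X]
  [TopologicalSpace.SeparableSpace X] [ProperSpace X] {m : Measure X} {K N : ℝ}

/-! ### congruence (equalities of functions / iff) -/

/-- from `wr_n_wg_congr`, `wr_n_localSobolev_congr`, `MemLp` congruence. -/
theorem wr_sobolev_congr {f g : X → ℝ} (h : f =ᵐ[m] g) : Sobolev m f ↔ Sobolev m g := by
  unfold Sobolev
  rw [memLp_congr_ae h, wr_n_localSobolev_congr h, wr_n_wg_congr h]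

/-- unfold `gamma`; `wr_n_wg_congr` for `f + g` and `f - g`. -/
theorem wr_gamma_congr {f f' g g' : X → ℝ} (hf : f =ᵐ[m] f') (hg : g =ᵐ[m] g') :
    gamma m f g = gamma m f' g' := by
  have h1 : weakGradient m (fun y => f y + g y) = weakGradient m (fun y => f' y + g' y) :=
    wr_n_wg_congr (hf.add hg)
  have h2 : weakGradient m (fun y => f y - g y) = weakGradient m (fun y => f' y - g' y) :=
    wr_n_wg_congr (hf.sub hg)
  funext x
  unfold gamma
  rw [h1, h2]

theorem wr_isLaplacian_congr {u u' L L' : X → ℝ} (hu : u =ᵐ[m] u') (hL : L =ᵐ[m] L') :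
    IsLaplacian m u L ↔ IsLaplacian m u' L' := by
  unfold IsLaplacian
  rw [wr_sobolev_congr hu, memLp_congr_ae hL]
  refine and_congr_right (fun _ => and_congr_right (fun _ => ?_))
  refine forall_congr' (fun v => forall_congr' (fun _ => ?_))
  rw [wr_gamma_congr hu (EventuallyEq.refl _ v)]
  have e : (∫ x, L x * v x ∂m) = ∫ x, L' x * v x ∂m := by
    refine integral_congr_ae ?_
    filter_upwards [hL] with x hx
    rw [hx]
  rw [e]

theorem wr_inLaplacianDomain_congr {u u' : X → ℝ} (hu : u =ᵐ[m] u') :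
    InLaplacianDomain m u ↔ InLaplacianDomain m u' := by
  unfold InLaplacianDomain
  exact exists_congr (fun L => wr_isLaplacian_congr hu (EventuallyEq.refl _ L))

/-- the predicates `IsLaplacian m u ·` and `IsLaplacian m u' ·` are EQUAL (funext, propext), so the
choices agree. -/
theorem wr_laplacian_congr {u u' : X → ℝ} (hu : u =ᵐ[m] u') : laplacian m u = laplacian m u' := by
  have hp : (fun L => IsLaplacian m u L) = (fun L => IsLaplacian m u' L) := by
    funext L
    exact propext (wr_isLaplacian_congr hu (EventuallyEq.refl _ L))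
  have key : ∀ P P' : (X → ℝ) → Prop, P = P' →
      (@dite _ (∃ L, P L) (Classical.propDecidable _) (fun h => Classical.choose h)
        (fun _ => (0 : X → ℝ))) =
      (@dite _ (∃ L, P' L) (Classical.propDecidable _) (fun h => Classical.choose h)
        (fun _ => (0 : X → ℝ))) := by
    intro P P' hPP
    subst hPP
    rfl
  exact key _ _ hp

theorem wr_opL_congr (F : X → ℝ) (ε : ℝ) {u u' : X → ℝ} (hu : u =ᵐ[m] u') :
    opL m F ε u = opL m F ε u' := by
  funext x
  unfold opL
  rw [wr_laplacian_congr hu, wr_gamma_congr (EventuallyEq.refl _ F) hu]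

theorem wr_laplacian_spec {u : X → ℝ} (h : InLaplacianDomain m u) :
    IsLaplacian m u (laplacian m u) := by
  have h' : ∃ L, IsLaplacian m u L := h
  unfold laplacian
  rw [dif_pos h']
  exact Classical.choose_spec h'

theorem wr_dom_sobolev {u : X → ℝ} (h : InLaplacianDomain m u) : Sobolev m u := by
  obtain ⟨L, hL⟩ := h
  exact hL.1

theorem wr_laplacian_memLp {u : X → ℝ} (h : InLaplacianDomain m u) :
    MemLp (laplacian m u) 2 m := by
  exact (wr_laplacian_spec h).2.1

/-- `L =ᵐ laplacian m u` for every admissible `L` (`wr_n_lap_unique`). -/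
theorem wr_laplacian_eq (hS : Std m K N) {u L : X → ℝ} (h : IsLaplacian m u L) :
    laplacian m u =ᵐ[m] L := by
  exact wr_n_lap_unique hS (wr_laplacian_spec ⟨L, h⟩) h

/-! ### integrability -/

theorem wr_sobolev_local {f : X → ℝ} (h : Sobolev m f) : LocalSobolev m f := h.2.1

theorem wr_sobolev_memLp {f : X → ℝ} (h : Sobolev m f) : MemLp f 2 m := h.1

theorem wr_wg_memLp {f : X → ℝ} (h : Sobolev m f) : MemLp (weakGradient m f) 2 m := h.2.2

theorem wr_wg_sq_integrable {f : X → ℝ} (h : Sobolev m f) :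
    Integrable (fun x => weakGradient m f x ^ 2) m :=
  (wr_wg_memLp h).integrable_sq

/-- `|Γ(f,g)| ≤ |Df||Dg|`, both in `L²`. -/
theorem wr_gamma_integrable (hS : Std m K N) {f g : X → ℝ} (hf : Sobolev m f) (hg : Sobolev m g) :
    Integrable (gamma m f g) m := by
  have h1 : Integrable (fun x => weakGradient m f x * weakGradient m g x) m :=
    MemLp.integrable_mul (p := 2) (q := 2) (wr_wg_memLp hf) (wr_wg_memLp hg)
  refine h1.mono' (wr_n_gamma_aesm hS (wr_sobolev_local hf) (wr_sobolev_local hg)) ?_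
  filter_upwards [wr_n_gamma_abs_le hS (wr_sobolev_local hf) (wr_sobolev_local hg)] with x hx
  rw [Real.norm_eq_abs]
  exact hx

/-- `|Γ(F,u)| ≤ L |Du|` a.e. -/
theorem wr_gamma_lip_abs_le (hS : Std m K N) {F u : X → ℝ} {L : ℝ≥0} (hF : LipB F)
    (hL : LipschitzWith L F) (hu : LocalSobolev m u) :
    ∀ᵐ x ∂m, |gamma m F u x| ≤ L * weakGradient m u x := by
  filter_upwards [wr_n_gamma_abs_le hS (wr_n_lipB_local hS hF) hu, wr_n_wg_le_lip hS hL,
    wr_n_wg_nonneg (m := m) u] with x h1 h2 h3
  exact h1.trans (mul_le_mul_of_nonneg_right h2 h3)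

theorem wr_gamma_lip_memLp (hS : Std m K N) {F u : X → ℝ} (hF : LipB F) (hu : Sobolev m u) :
    MemLp (gamma m F u) 2 m := by
  obtain ⟨L, hL⟩ := hF.1
  refine (wr_wg_memLp hu).of_le_mul (c := L)
    (wr_n_gamma_aesm hS (wr_n_lipB_local hS hF) (wr_sobolev_local hu)) ?_
  filter_upwards [wr_gamma_lip_abs_le hS hF hL (wr_sobolev_local hu)] with x hx
  rw [Real.norm_eq_abs, Real.norm_eq_abs]
  exact hx.trans (mul_le_mul_of_nonneg_left (le_abs_self _) L.2)

theorem wr_gamma_lip_memLp' (hS : Std m K N) {F u : X → ℝ} (hF : LipB F) (hu : Sobolev m u) :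
    MemLp (gamma m u F) 2 m := by
  refine (memLp_congr_ae ?_).1 (wr_gamma_lip_memLp hS hF hu)
  exact wr_n_gamma_comm hS (wr_n_lipB_local hS hF) (wr_sobolev_local hu)

/-- `L u = ε Δ u + Γ(F,u) ∈ L²`. -/
theorem wr_opL_memLp (hS : Std m K N) {F u : X → ℝ} (hF : LipB F) (ε : ℝ)
    (hu : InLaplacianDomain m u) : MemLp (opL m F ε u) 2 m :=
  ((wr_laplacian_memLp hu).const_mul ε).add (wr_gamma_lip_memLp hS hF (wr_dom_sobolev hu))

/-! ### bilinearity in the forms used below -/

/-- `-h` has the same local weak upper gradients as `h`. -/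
theorem wr_lwug_neg_iff (h D : X → ℝ) :
    IsLocalWeakUpperGradient m (fun y => -h y) D ↔ IsLocalWeakUpperGradient m h D := by
  have key : ∀ a b : ℝ, |-a - -b| = |a - b| := by
    intro a b
    rw [← abs_neg]
    congr 1
    ring
  unfold IsLocalWeakUpperGradient
  simp only [key]

theorem wr_localSobolev_neg {h : X → ℝ} (hh : LocalSobolev m h) :
    LocalSobolev m (fun y => -h y) := by
  obtain ⟨hL, D, hD, hmin⟩ := hh
  refine ⟨fun o R hR => (hL o R hR).neg, D, (wr_lwug_neg_iff h D).2 hD, fun D' hD' => ?_⟩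
  exact hmin D' ((wr_lwug_neg_iff h D').1 hD')

/-- everywhere, by definition of `gamma`. -/
theorem wr_gamma_neg_right_all (f g : X → ℝ) (x : X) :
    gamma m f (fun y => -g y) x = -gamma m f g x := by
  have e1 : (fun y => f y + -g y) = (fun y => f y - g y) := by
    funext y
    ring
  have e2 : (fun y => f y - -g y) = (fun y => f y + g y) := by
    funext y
    ring
  unfold gamma
  rw [e1, e2]
  ring

theorem wr_gamma_sub_right (hS : Std m K N) {f g h : X → ℝ} (hf : LocalSobolev m f)
    (hg : LocalSobolev m g) (hh : LocalSobolev m h) :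
    ∀ᵐ x ∂m, gamma m f (fun y => g y - h y) x = gamma m f g x - gamma m f h x := by
  have hh' : LocalSobolev m (fun y => -h y) := wr_localSobolev_neg hh
  have e : (fun y => g y - h y) = (fun y => g y + -h y) := by
    funext y
    ring
  filter_upwards [wr_n_gamma_add_right hS hf hg hh'] with x hx
  rw [e, hx, wr_gamma_neg_right_all]
  ring

theorem wr_gamma_neg_right (hS : Std m K N) {f g : X → ℝ} (hf : LocalSobolev m f)
    (hg : LocalSobolev m g) :
    ∀ᵐ x ∂m, gamma m f (fun y => -g y) x = -gamma m f g x := by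
  exact Eventually.of_forall (fun x => wr_gamma_neg_right_all f g x)

/-- `|D(f-g)|² = |Df|² - 2Γ(f,g) + |Dg|²` a.e. (definition of `gamma` and `wr_n_par`). -/
theorem wr_wg_sub_sq (hS : Std m K N) {f g : X → ℝ} (hf : LocalSobolev m f)
    (hg : LocalSobolev m g) :
    ∀ᵐ x ∂m, weakGradient m (fun y => f y - g y) x ^ 2 =
      weakGradient m f x ^ 2 - 2 * gamma m f g x + weakGradient m g x ^ 2 := by
  filter_upwards [wr_n_par hS hf hg] with x hx
  unfold gamma
  linarith

/-- Leibniz + chain rule with the weight: `Γ(u, v e) = e Γ(u,v) + (v e/ε) Γ(u,F)`, `e = e^{F/ε}`. -/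
theorem wr_gamma_mul_wt (hS : Std m K N) {u v F : X → ℝ} {ε : ℝ} (hε : 0 < ε)
    (hu : LocalSobolev m u) (hv : LocalSobolev m v) (hF : LipB F) :
    ∀ᵐ x ∂m, gamma m u (fun y => v y * wt F ε y) x =
      wt F ε x * gamma m u v x + v x * wt F ε x / ε * gamma m u F x := by
  have he : LipB (wt F ε) := wr_wt_lipB hF hε
  have h2 : ∀ᵐ x ∂m, gamma m u (wt F ε) x = Real.exp (F x / ε) / ε * gamma m u F x :=
    wr_n_gamma_exp hS hu hF ε
  filter_upwards [wr_n_gamma_leibniz hS hu hv he, h2] with x hx hx2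
  rw [hx, hx2]
  have e : wt F ε x = Real.exp (F x / ε) := rfl
  rw [e]
  ring

/-- the same with the inverse weight: `Γ(u, v/e) = Γ(u,v)/e - (v/(e ε)) Γ(u,F)`. -/
theorem wr_gamma_mul_wt_neg (hS : Std m K N) {u v F : X → ℝ} {ε : ℝ} (hε : 0 < ε)
    (hu : LocalSobolev m u) (hv : LocalSobolev m v) (hF : LipB F) :
    ∀ᵐ x ∂m, gamma m u (fun y => v y * wt (fun z => -F z) ε y) x * wt F ε x =
      gamma m u v x - v x / ε * gamma m u F x := by
  have hF' : LipB (fun z => -F z) := wr_neg_lipB hF
  filter_upwards [wr_gamma_mul_wt hS hε hu hv hF'] with x hx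
  rw [hx, wr_gamma_neg_right_all]
  have e : wt F ε x * wt (fun y => -F y) ε x = 1 := wr_wt_mul_neg F ε x
  obtain ⟨a, ha⟩ : ∃ a, a = wt F ε x := ⟨_, rfl⟩
  obtain ⟨b, hb⟩ : ∃ b, b = wt (fun y => -F y) ε x := ⟨_, rfl⟩
  rw [← ha, ← hb] at e
  rw [← ha, ← hb]
  have e2 : b * a = 1 := by rw [mul_comm]; exact e
  calc (b * gamma m u v x + v x * b / ε * -gamma m u F x) * a
      = (b * a) * gamma m u v x - v x / ε * gamma m u F x * (b * a) := by ring
    _ = gamma m u v x - v x / ε * gamma m u F x := by rw [e2]; ring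

theorem wr_sobolev_mul_wt (hS : Std m K N) {v F : X → ℝ} {ε : ℝ} (hε : 0 < ε) (hv : Sobolev m v)
    (hF : LipB F) : Sobolev m (fun y => v y * wt F ε y) := by
  exact wr_n_sobolev_mul_lipB hS hv (wr_wt_lipB hF hε)

end Claimed.Agent.R210.WR.Calc
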