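/-
Row 210 (S0432), layer WR, architect helper424.   File `G2` (WR5): the weak Γ2 inequality of `L = ε Δ + Γ(F,·)` on `TestC × LipC`,
  `ε∫(εK - G)Γ(g) h e ≤ -(ε²/2)∫Γ(Γg,h)e + ∫(Lg)(h Lg + εΓ(h,g))e`,
obtained as `ε²·(weak Bochner TF3, weight k = h e) - ε·(frozen Hessian bound, weight k = h e)`.   Pure algebra + integrability.
Notation in comments: `e = wt F ε`, `k` a `LipC` weight (`k = h e` in the end), `Γg = gamma m g g`, `Δg = laplacian m g`, `Lg = opL m F ε g = ε Δg + Γ(F,g)`.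
Toolbox: `GC/Ifc` (names `gc_*`: files GC/WG.lean, GC/Gam.lean, GC/Lap.lean), `TF/Ifc` (`tf_*`), `WR/Base` (`wr_*`, blocks WR0-WR4 of helper898).
All lemmas of these interfaces are black boxes (they may still carry `sorry`).
-/
import Claimed.Agent.R210.WR.Base
import Claimed.Agent.R210.GC.Ifc
import Claimed.Agent.R210.TF.Ifc

set_option autoImplicit false
set_option linter.unusedSectionVars false

open Claims.C0366 Claims.C0366.WeakHessian
open Claimed.Agent.R210.Defs Claimed.Agent.R210.Defs2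
open Claimed.Agent.R210.GC.Defs Claimed.Agent.R210.GC.WG Claimed.Agent.R210.GC.Gam Claimed.Agent.R210.GC.Conv
open Claimed.Agent.R210.GC.Lap Claimed.Agent.R210.TF.Ifc Claimed.Agent.R210.WR.Base
open Set Filter MeasureTheory
open scoped ENNReal NNReal Topology

namespace Claimed.Agent.R210.WR.G2

variable {X : Type*} [MetricSpace X] [MeasurableSpace X] [BorelSpace X] [CompleteSpace X]
  [TopologicalSpace.SeparableSpace X] [ProperSpace X] {m : Measure X} {K N : ℝ} {F G : X → ℝ} {ε : ℝ}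

/-! ### classes -/

/-- product of a `LipC` and a `LipB` function (`LipschitzWith` for products of bounded Lipschitz functions:
`|f x g x - f y g y| ≤ |f x||g x - g y| + |g y||f x - f y|`; support: `HasCompactSupport.mul_right`). -/
theorem wr_lipC_mul_lipB {f g : X → ℝ} (hf : LipC f) (hg : LipB g) : LipC (fun x => f x * g x) := by
  obtain ⟨Lf, hLf⟩ := hf.1
  obtain ⟨Bf, hBf⟩ := (gc_lipB_of_lipC hf).2
  obtain ⟨Lg, hLg⟩ := hg.1
  obtain ⟨Bg, hBg⟩ := hg.2
  refine ⟨⟨Bf.toNNReal * Lg + Bg.toNNReal * Lf, LipschitzWith.of_dist_le_mul fun x y => ?_⟩, hf.2.mul_right⟩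
  have h1 : |f x| ≤ Bf.toNNReal := (hBf x).trans (Real.le_coe_toNNReal _)
  have h2 : |g y| ≤ Bg.toNNReal := (hBg y).trans (Real.le_coe_toNNReal _)
  have h3 : |g x - g y| ≤ Lg * dist x y := by
    have := hLg.dist_le_mul x y
    rwa [Real.dist_eq] at this
  have h4 : |f x - f y| ≤ Lf * dist x y := by
    have := hLf.dist_le_mul x y
    rwa [Real.dist_eq] at this
  rw [Real.dist_eq]
  have e : f x * g x - f y * g y = f x * (g x - g y) + g y * (f x - f y) := by ring
  rw [e]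
  calc |f x * (g x - g y) + g y * (f x - f y)| ≤ |f x * (g x - g y)| + |g y * (f x - f y)| := abs_add_le _ _
    _ = |f x| * |g x - g y| + |g y| * |f x - f y| := by rw [abs_mul, abs_mul]
    _ ≤ Bf.toNNReal * (Lg * dist x y) + Bg.toNNReal * (Lf * dist x y) :=
        add_le_add (mul_le_mul h1 h3 (abs_nonneg _) (NNReal.coe_nonneg _))
          (mul_le_mul h2 h4 (abs_nonneg _) (NNReal.coe_nonneg _))
    _ = ((Bf.toNNReal * Lg + Bg.toNNReal * Lf : ℝ≥0) : ℝ) * dist x y := by push_cast; ring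

/-- `h e` is `LipC`. -/
theorem wr_lipC_mul_wt (hF : LipB F) (hε : 0 < ε) {h : X → ℝ} (hh : LipC h) :
    LipC (fun x => h x * wt F ε x) :=
  wr_lipC_mul_lipB hh (wr_wt_lipB hF hε)

theorem wr_lipC_aebdd {k : X → ℝ} (hk : LipC k) : ∃ B, AEBdd m k B := by
  obtain ⟨B, hB⟩ := (gc_lipB_of_lipC hk).2
  exact ⟨B, Filter.Eventually.of_forall hB⟩

theorem wr_lipC_aesm {k : X → ℝ} (hk : LipC k) : AEStronglyMeasurable k m := by
  obtain ⟨L, hL⟩ := hk.1
  exact hL.continuous.aestronglyMeasurable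

/-- a `LipC` function is in `L²` (it is Sobolev: `gc_sob_of_lipC`). -/
theorem wr_lipC_memLp (hS : Std m K N) {k : X → ℝ} (hk : LipC k) : MemLp k 2 m :=
  (gc_sob_of_lipC hS.finite hk).1

/-! ### integrability of the nine integrands (`g` test function, `k ∈ LipC`) -/

/-- `Γ(Γg,k) ∈ L¹` (`tf_gamma_sobolev`, `gc_sob_of_lipC`, `gc_gamma_integrable`). -/
theorem wr_g2_int1 (hS : Std m K N) {g k : X → ℝ} (hg : IsTestFunction m g) (hk : LipC k) :
    Integrable (gamma m (gamma m g g) k) m :=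
  gc_gamma_integrable hS (tf_gamma_sobolev hS hg) (gc_sob_of_lipC hS.finite hk)

/-- `k Δg ∈ L²`. -/
theorem wr_g2_mul_lap_memLp {g k : X → ℝ} (hk : LipC k) :
    MemLp (fun x => k x * laplacian m g x) 2 m := by
  obtain ⟨B, hB⟩ := (gc_lipB_of_lipC hk).2
  have hΔ : MemLp (laplacian m g) 2 m := gc_laplacian_memLp g
  refine hΔ.of_le_mul (c := B) ((wr_lipC_aesm hk).mul hΔ.aestronglyMeasurable)
    (Filter.Eventually.of_forall fun x => ?_)
  rw [norm_mul, Real.norm_eq_abs]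
  exact mul_le_mul_of_nonneg_right (hB x) (norm_nonneg _)

/-- `Γ(k,g) ∈ L²`. -/
theorem wr_g2_gamma_memLp (hS : Std m K N) {g k : X → ℝ} (hg : IsTestFunction m g) (hk : LipC k) :
    MemLp (gamma m k g) 2 m := by
  obtain ⟨L, hL⟩ := hg.2.2.1
  exact gc_gamma_memLp_two hS (gc_sob_of_lipC hS.finite hk) (wr_dom_sobolev hg.1).2.1
    (gc_wg_le_lip hS.finite hL)

/-- `Δg (k Δg + Γ(k,g)) ∈ L¹`: `Δg ∈ L²`, `k Δg ∈ L²` (bounded times `L²`), `Γ(k,g) ∈ L²` (`gc_gamma_memLp_two`: `k` Sobolev, `|Dg| ≤ Lip g`). -/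
theorem wr_g2_int2 (hS : Std m K N) {g k : X → ℝ} (hg : IsTestFunction m g) (hk : LipC k) :
    Integrable (fun x => laplacian m g x * (k x * laplacian m g x + gamma m k g x)) m :=
  (gc_laplacian_memLp g).integrable_mul ((wr_g2_mul_lap_memLp hk).add (wr_g2_gamma_memLp hS hg hk))

/-- `(Γ(k,g) + k Δg) Γ(F,g) ∈ L¹`: both factors are in `L²` (`wr_gamma_lip_memLp` for `Γ(F,g)`). -/
theorem wr_g2_int3 (hS : Std m K N) (hF : LipB F) {g k : X → ℝ} (hg : IsTestFunction m g) (hk : LipC k) :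
    Integrable (fun x => (gamma m k g x + k x * laplacian m g x) * gamma m F g x) m :=
  ((wr_g2_gamma_memLp hS hg hk).add (wr_g2_mul_lap_memLp hk)).integrable_mul
    (wr_gamma_lip_memLp hS hF (wr_dom_sobolev hg.1))

/-- `k Γ(F,Γg) ∈ L¹`: `k ∈ L²`, `Γ(F,Γg) ∈ L²` (`wr_gamma_lip_memLp` with the Sobolev function `Γg`). -/
theorem wr_g2_int4 (hS : Std m K N) (hF : LipB F) {g k : X → ℝ} (hg : IsTestFunction m g) (hk : LipC k) :
    Integrable (fun x => k x * gamma m F (gamma m g g) x) m :=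
  (wr_lipC_memLp hS hk).integrable_mul (wr_gamma_lip_memLp hS hF (tf_gamma_sobolev hS hg))

/-- `k G Γg ∈ L¹` (`gc_mul_gamma_integrable` with the bounded weight `k G`). -/
theorem wr_g2_int5 (hS : Std m K N) (hG : BoundedFunction G) (hGc : Continuous G) {g k : X → ℝ}
    (hg : IsTestFunction m g) (hk : LipC k) :
    Integrable (fun x => k x * G x * gamma m g g x) m := by
  obtain ⟨B, hB⟩ := (gc_lipB_of_lipC hk).2
  obtain ⟨C, hC⟩ := hG
  have hsob : Sobolev m g := wr_dom_sobolev hg.1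
  refine gc_mul_gamma_integrable (h := fun x => k x * G x) (B := B * C) hS hsob hsob
    ((wr_lipC_aesm hk).mul hGc.aestronglyMeasurable) (Filter.Eventually.of_forall fun x => ?_)
  rw [abs_mul]
  exact mul_le_mul (hB x) (hC x) (abs_nonneg _) ((abs_nonneg _).trans (hB x))

/-- `Γg k ∈ L¹`. -/
theorem wr_g2_int6 (hS : Std m K N) {g k : X → ℝ} (hg : IsTestFunction m g) (hk : LipC k) :
    Integrable (fun x => gamma m g g x * k x) m := by
  obtain ⟨B, hB⟩ := wr_lipC_aebdd (m := m) hk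
  have hsob : Sobolev m g := wr_dom_sobolev hg.1
  have := gc_mul_gamma_integrable hS hsob hsob (wr_lipC_aesm hk) hB
  simpa only [mul_comm] using this

/-! ### the two inequalities with a general weight `k ∈ LipC`, `k ≥ 0` -/

/-- (B') Bochner after one integration by parts.
`tf_bochner_weight` (weight `k`, Sobolev by `gc_sob_of_lipC`) gives `K∫Γg k ≤ -½∫Γ(Γg,k) - ∫Γ(g,Δg) k`.
`gc_ibp` with `v = Δg · k` (Sobolev: `gc_sob_mul_lipB`, `Δg` Sobolev by `hg.2.2.2`): `∫Γ(g, Δg k) = -∫Δg (Δg k)`.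
`gc_gamma_mul_right`: `Γ(g, Δg k) = Δg Γ(g,k) + k Γ(g,Δg)` a.e.; `gc_gamma_comm`: `Γ(g,k) = Γ(k,g)`.
So `-∫Γ(g,Δg)k = ∫Δg(k Δg + Γ(k,g))`. -/
theorem wr_g2_bochner (hS : Std m K N) {g k : X → ℝ} (hg : IsTestFunction m g) (hk : LipC k)
    (k0 : ∀ x, 0 ≤ k x) :
    K * ∫ x, gamma m g g x * k x ∂m ≤
      -(1 / 2) * ∫ x, gamma m (gamma m g g) k x ∂m
        + ∫ x, laplacian m g x * (k x * laplacian m g x + gamma m k g x) ∂m := by
  have hkS : Sobolev m k := gc_sob_of_lipC hS.finite hk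
  obtain ⟨B, hB⟩ := wr_lipC_aebdd (m := m) hk
  have h1 := tf_bochner_weight hS hg hkS hB (Filter.Eventually.of_forall k0)
  have hgS : Sobolev m g := hg.1.choose_spec.1
  have hΔS : Sobolev m (laplacian m g) := hg.2.2.2
  have hv : Sobolev m (fun x => laplacian m g x * k x) :=
    gc_sob_mul_lipB hS.finite hΔS (gc_lipB_of_lipC hk)
  have h2 := gc_ibp hg.1 hv
  have h3 := gc_gamma_mul_right hS (gc_ls_of_sob hΔS) (gc_ls_of_sob hkS) (gc_ls_of_sob hv)
    (gc_ls_of_sob hgS)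
  have h4 := gc_gamma_comm hS.finite (gc_ls_of_sob hgS) (gc_ls_of_sob hkS)
  obtain ⟨L, _, hL⟩ := tf_test_wg_bdd hS hg
  have hΓkg : MemLp (gamma m k g) 2 m := gc_gamma_memLp_two hS hkS (gc_ls_of_sob hgS) hL
  have hiB : Integrable (fun x => laplacian m g x * gamma m k g x) m := hΔS.1.integrable_mul hΓkg
  have hiC : Integrable (fun x => gamma m g (laplacian m g) x * k x) m :=
    (tf_test_gamma_lap_memLp hS hg).integrable_mul (wr_lipC_memLp hS hk)
  have hiA : Integrable (fun x => laplacian m g x * (laplacian m g x * k x)) m :=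
    hΔS.1.integrable_mul hv.1
  have h5 : ∫ x, gamma m g (fun y => laplacian m g y * k y) x ∂m
      = ∫ x, laplacian m g x * gamma m k g x ∂m + ∫ x, gamma m g (laplacian m g) x * k x ∂m := by
    rw [← integral_add hiB hiC]
    refine integral_congr_ae ?_
    filter_upwards [h3, h4] with x hx3 hx4
    rw [hx3, hx4]
    ring
  have h6 : ∫ x, laplacian m g x * (k x * laplacian m g x + gamma m k g x) ∂m
      = ∫ x, laplacian m g x * (laplacian m g x * k x) ∂m + ∫ x, laplacian m g x * gamma m k g x ∂m := by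
    rw [← integral_add hiA hiB]
    refine integral_congr_ae (Filter.Eventually.of_forall fun x => ?_)
    simp only
    ring
  rw [h6]
  rw [h5] at h2
  linarith

/-- (H') the frozen hypothesis, with `Γ(F, Γg/2) = ½ Γ(F,Γg)` a.e. (`gc_gamma_const_mul_right` with `c = 1/2`; the function
`fun y => gamma m g g y / 2` is `fun y => (1/2) * gamma m g g y`). -/
theorem wr_g2_hess (hS : Std m K N) (hF : LipB F) (hH : WeakHessianUpperBound m F G) {g k : X → ℝ}
    (hg : TestC m g) (hk : LipC k) (k0 : ∀ x, 0 ≤ k x) :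
    -(∫ x, (gamma m k g x + k x * laplacian m g x) * gamma m F g x ∂m)
        - 1 / 2 * ∫ x, k x * gamma m F (gamma m g g) x ∂m ≤
      ∫ x, k x * G x * gamma m g g x ∂m := by
  have h1 := hH g hg.1 hg.2 k hk.1 hk.2 k0
  unfold weakHessian at h1
  have hFls : LocalSobolev m F := gc_ls_of_lipLoc hS.finite (gc_lipLoc_of_lip hF.1)
  have hGls : LocalSobolev m (gamma m g g) := (tf_gamma_sobolev hS hg.1).2.1
  have e0 : (fun y => gamma m g g y / 2) = fun y => 1 / 2 * gamma m g g y := by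
    funext y
    ring
  have e1 : ∫ x, k x * gamma m F (fun y => gamma m g g y / 2) x ∂m
      = 1 / 2 * ∫ x, k x * gamma m F (gamma m g g) x ∂m := by
    rw [e0, ← integral_const_mul]
    refine integral_congr_ae ?_
    filter_upwards [gc_gamma_const_mul_right hS (1 / 2) hFls hGls] with x hx
    rw [hx]
    ring
  rw [e1] at h1
  exact h1

/-- `ε² (B') - ε (H')`: arithmetic of real numbers. -/
theorem wr_g2_comb (hS : Std m K N) (hF : LipB F) (hH : WeakHessianUpperBound m F G) (hε : 0 < ε) {g k : X → ℝ}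
    (hg : TestC m g) (hk : LipC k) (k0 : ∀ x, 0 ≤ k x) :
    ε ^ 2 * K * ∫ x, gamma m g g x * k x ∂m - ε * ∫ x, k x * G x * gamma m g g x ∂m ≤
      (-(ε ^ 2 / 2) * ∫ x, gamma m (gamma m g g) k x ∂m + ε / 2 * ∫ x, k x * gamma m F (gamma m g g) x ∂m)
      + (ε ^ 2 * ∫ x, laplacian m g x * (k x * laplacian m g x + gamma m k g x) ∂m
        + ε * ∫ x, (gamma m k g x + k x * laplacian m g x) * gamma m F g x ∂m) := by
  have hB := wr_g2_bochner hS hg.1 hk k0
  have hHs := wr_g2_hess hS hF hH hg hk k0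
  have h1 := mul_le_mul_of_nonneg_left hB (sq_nonneg ε)
  have h2 := mul_le_mul_of_nonneg_left hHs hε.le
  nlinarith [h1, h2]

/-! ### substitution `k = h e` -/

/-- left hand side: `ε∫(εK - G)Γg h e = ε²K∫Γg (h e) - ε∫(h e) G Γg`  (`integral_sub`, `integral_const_mul`; `wr_g2_int5`, `wr_g2_int6` for `k = h e`). -/
theorem wr_g2_lhs (hS : Std m K N) (hF : LipB F) (hG : BoundedFunction G) (hGc : Continuous G) (hε : 0 < ε)
    {g h : X → ℝ} (hg : IsTestFunction m g) (hh : LipC h) :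
    ε * ∫ x, (ε * K - G x) * gamma m g g x * h x * wt F ε x ∂m =
      ε ^ 2 * K * ∫ x, gamma m g g x * (h x * wt F ε x) ∂m
        - ε * ∫ x, h x * wt F ε x * G x * gamma m g g x ∂m := by
  have hk : LipC (fun x => h x * wt F ε x) := wr_lipC_mul_wt hF hε hh
  have i5 := wr_g2_int5 hS hG hGc hg hk
  have i6 := wr_g2_int6 hS hg hk
  have e1 : (∫ x, (ε * K - G x) * gamma m g g x * h x * wt F ε x ∂m)
      = ∫ x, ((ε * K) * (gamma m g g x * (h x * wt F ε x)) - h x * wt F ε x * G x * gamma m g g x) ∂m := by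
    refine integral_congr_ae (Filter.Eventually.of_forall fun x => ?_)
    simp only
    ring
  rw [e1, integral_sub (i6.const_mul _) i5, integral_const_mul]
  ring

/-- the terms with `Γ(F,Γg)` cancel: `Γ(Γg, h e) = e Γ(Γg,h) + (h e/ε) Γ(Γg,F)` (`wr_gamma_mul_wt`), `Γ(Γg,F) = Γ(F,Γg)` (`gc_gamma_comm`). -/
theorem wr_g2_rhs1 (hS : Std m K N) (hF : LipB F) (hε : 0 < ε) {g h : X → ℝ} (hg : IsTestFunction m g)
    (hh : LipC h) :
    -(ε ^ 2 / 2) * ∫ x, gamma m (gamma m g g) (fun y => h y * wt F ε y) x ∂m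
        + ε / 2 * ∫ x, h x * wt F ε x * gamma m F (gamma m g g) x ∂m =
      -(ε ^ 2 / 2) * ∫ x, gamma m (gamma m g g) h x * wt F ε x ∂m := by
  have hΓ : Sobolev m (gamma m g g) := tf_gamma_sobolev hS hg
  have hhS : Sobolev m h := gc_sob_of_lipC hS.finite hh
  have hFls : LocalSobolev m F := gc_ls_of_lipLoc hS.finite (gc_lipLoc_of_lip hF.1)
  have I1 : Integrable (fun x => gamma m (gamma m g g) h x * wt F ε x) m :=
    wr_fm_integrable hS hF hε hΓ hhS
  have I4 : Integrable (fun x => h x * wt F ε x * gamma m F (gamma m g g) x) m :=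
    wr_g2_int4 hS hF hg (wr_lipC_mul_wt hF hε hh)
  have hkey : ∫ x, gamma m (gamma m g g) (fun y => h y * wt F ε y) x ∂m
      = ∫ x, gamma m (gamma m g g) h x * wt F ε x ∂m
        + 1 / ε * ∫ x, h x * wt F ε x * gamma m F (gamma m g g) x ∂m := by
    rw [← integral_const_mul, ← integral_add I1 (I4.const_mul _)]
    refine integral_congr_ae ?_
    filter_upwards [wr_gamma_mul_wt hS hε (gc_ls_of_sob hΓ) (gc_ls_of_sob hhS) hF,
      gc_gamma_comm hS.finite (gc_ls_of_sob hΓ) hFls] with x h1 h2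
    rw [h1, h2]
    ring
  rw [hkey]
  field_simp
  ring

/-- completion of the square.  With `a = Δg`, `c = Γ(F,g)`, `b = Γ(h,g)`: `Γ(h e, g) = e b + (h e/ε) c` a.e. (`wr_gamma_mul_wt` + `gc_gamma_comm`) and
`ε² a (h e a + e b + (h e/ε) c) + ε (e b + (h e/ε) c + h e a) c = (ε a + c)(h (ε a + c) + ε b) e`. -/
theorem wr_g2_rhs2 (hS : Std m K N) (hF : LipB F) (hε : 0 < ε) {g h : X → ℝ} (hg : IsTestFunction m g)
    (hh : LipC h) :
    ε ^ 2 * ∫ x, laplacian m g x *
          (h x * wt F ε x * laplacian m g x + gamma m (fun y => h y * wt F ε y) g x) ∂m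
        + ε * ∫ x, (gamma m (fun y => h y * wt F ε y) g x + h x * wt F ε x * laplacian m g x)
            * gamma m F g x ∂m =
      ∫ x, opL m F ε g x * (h x * opL m F ε g x + ε * gamma m h g x) * wt F ε x ∂m := by
  have hk : LipC (fun x => h x * wt F ε x) := wr_lipC_mul_wt hF hε hh
  have I2 := wr_g2_int2 hS hg hk
  have I3 := wr_g2_int3 hS hF hg hk
  have lg : LocalSobolev m g := (wr_dom_sobolev hg.1).2.1
  have lh : LocalSobolev m h := (gc_sob_of_lipC hS.finite hh).2.1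
  have lk : LocalSobolev m (fun x => h x * wt F ε x) := (gc_sob_of_lipC hS.finite hk).2.1
  have lF : LocalSobolev m F := gc_ls_of_lipLoc hS.finite (gc_lipLoc_of_lip hF.1)
  rw [← integral_const_mul, ← integral_const_mul, ← integral_add (I2.const_mul _) (I3.const_mul _)]
  refine integral_congr_ae ?_
  filter_upwards [gc_gamma_comm hS.finite lk lg, wr_gamma_mul_wt hS hε lg lh hF, gc_gamma_comm hS.finite lg lh,
    gc_gamma_comm hS.finite lg lF] with x h1 h2 h3 h4
  rw [h1, h2, h3, h4]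
  unfold opL
  field_simp
  ring

/-- **WR5**. -/
theorem wr_gamma2 (hS : Std m K N) (hF : LipB F) (hG : BoundedFunction G) (hGc : Continuous G)
    (hH : WeakHessianUpperBound m F G) (hε : 0 < ε) {g h : X → ℝ} (hg : TestC m g) (hh : LipC h)
    (h0 : ∀ x, 0 ≤ h x) :
    ε * ∫ x, (ε * K - G x) * gamma m g g x * h x * wt F ε x ∂m ≤
      -(ε ^ 2 / 2) * ∫ x, gamma m (gamma m g g) h x * wt F ε x ∂m +
        ∫ x, opL m F ε g x * (h x * opL m F ε g x + ε * gamma m h g x) * wt F ε x ∂m := by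
  have hk : LipC (fun x => h x * wt F ε x) := wr_lipC_mul_wt hF hε hh
  have k0 : ∀ x, 0 ≤ h x * wt F ε x := fun x => mul_nonneg (h0 x) (wr_wt_pos F ε x).le
  have hc := wr_g2_comb hS hF hH hε hg hk k0
  rw [wr_g2_lhs hS hF hG hGc hε hg.1 hh, ← wr_g2_rhs1 hS hF hε hg.1 hh, ← wr_g2_rhs2 hS hF hε hg.1 hh]
  exact hc

end Claimed.Agent.R210.WR.G2
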