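/-
Row 210 (S0432), layer WR, architect helper424.   File `Ext` (WR6): extension of the Γ2 inequality WR5 to `g ∈ D(Δ)` and to weights `η` which are
bounded Lipschitz, `≥ 0`, in `D(Δ)`, with `|Lη| ≤ M'` a.e.:
  `0 ≤ wr_Phi η g := (ε/2)∫|Dg|²(Lη)e + ∫η(Lg)²e + ε∫Γ(η,g)(Lg)e - ε∫(εK - G)|Dg|² η e`.
Step 1 (`g ∈ TestC`): WR5 with `h = χ η`, `χ ∈ LipC`, `0 ≤ χ ≤ 1`, `χ = 1` on `{g ≠ 0}`; locality; `wr_ibp` with the test function `Γg`.
Step 2: density of `TestC` in `D(Δ)` for the graph norm (`tf_density`); every term is continuous.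
Notation in comments: `e = wt F ε`, `Γg = gamma m g g`, `|Dg| = weakGradient m g`, `Lg = opL m F ε g`.
Toolbox: `GC/Ifc` (`gc_*`), `TF/Ifc` (`tf_*`), `WR/Base` (`wr_*`), `WR/G2`.  All black boxes.
-/
import Claimed.Agent.R210.WR.G2

set_option autoImplicit false
set_option linter.unusedSectionVars false

open Claims.C0366 Claims.C0366.WeakHessian
open Claimed.Agent.R210.Defs Claimed.Agent.R210.Defs2
open Claimed.Agent.R210.GC.Defs Claimed.Agent.R210.GC.WG Claimed.Agent.R210.GC.Gam Claimed.Agent.R210.GC.Conv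
open Claimed.Agent.R210.GC.Lap Claimed.Agent.R210.TF.Ifc Claimed.Agent.R210.WR.Base Claimed.Agent.R210.WR.G2
open Set Filter MeasureTheory
open scoped ENNReal NNReal Topology

namespace Claimed.Agent.R210.WR.Ext

variable {X : Type*} [MetricSpace X] [MeasurableSpace X] [BorelSpace X] [CompleteSpace X]
  [TopologicalSpace.SeparableSpace X] [ProperSpace X] {m : Measure X} {K N : ℝ} {F G : X → ℝ} {ε : ℝ}

/-- the functional of WR6 (right hand side minus left hand side). -/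
noncomputable def wr_Phi (m : Measure X) (K : ℝ) (F G : X → ℝ) (ε : ℝ) (η g : X → ℝ) : ℝ :=
  ε / 2 * ∫ x, weakGradient m g x ^ 2 * opL m F ε η x * wt F ε x ∂m
    + ∫ x, η x * opL m F ε g x ^ 2 * wt F ε x ∂m
    + ε * ∫ x, gamma m η g x * opL m F ε g x * wt F ε x ∂m
    - ε * ∫ x, (ε * K - G x) * weakGradient m g x ^ 2 * η x * wt F ε x ∂m

/-! ### Step 1: `g ∈ TestC` -/

/-- cut-off: `χ x = max 0 (1 - Metric.infDist x (tsupport g))` (if `g = 0` identically take `χ = 0`).  `1`-Lipschitz; its support is contained in the closed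
`1`-neighbourhood (`Metric.cthickening 1`) of the compact set `tsupport g`, which is compact since `X` is proper. -/
theorem wr_exists_cutoff {g : X → ℝ} (hg : HasCompactSupport g) :
    ∃ χ : X → ℝ, LipC χ ∧ (∀ x, 0 ≤ χ x) ∧ (∀ x, χ x ≤ 1) ∧ ∀ x, g x ≠ 0 → χ x = 1 := by
  classical
  by_cases hne : (tsupport g).Nonempty
  · refine ⟨fun x => max 0 (1 - Metric.infDist x (tsupport g)), ⟨⟨1, ?_⟩, ?_⟩, fun x => le_max_left _ _,
      fun x => max_le zero_le_one (by linarith [Metric.infDist_nonneg (x := x) (s := tsupport g)]), ?_⟩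
    · have h1 : LipschitzWith 1 (fun x => 1 - Metric.infDist x (tsupport g)) := by
        have := (LipschitzWith.const (α := X) (1 : ℝ)).sub (Metric.lipschitz_infDist_pt (tsupport g))
        simpa using this
      simpa using (LipschitzWith.const (α := X) (0 : ℝ)).max h1
    · have hc : IsCompact (Metric.cthickening 1 (tsupport g)) := hg.cthickening
      refine HasCompactSupport.intro hc ?_
      intro x hx
      have hx' : ¬ Metric.infDist x (tsupport g) ≤ 1 := by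
        intro hle
        apply hx
        rw [Metric.mem_cthickening_iff]
        rw [Metric.infDist] at hle
        have hfin : Metric.infEDist x (tsupport g) ≠ ⊤ := Metric.infEDist_ne_top hne
        exact (ENNReal.le_ofReal_iff_toReal_le hfin zero_le_one).2 hle
      have : 1 - Metric.infDist x (tsupport g) ≤ 0 := by linarith [not_le.1 hx']
      exact max_eq_left this
    · intro x hx
      have hxm : x ∈ tsupport g := subset_tsupport g hx
      have : Metric.infDist x (tsupport g) = 0 := Metric.infDist_zero_of_mem hxm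
      simp [this]
  · refine ⟨fun _ => 0, ⟨⟨0, LipschitzWith.const 0⟩, HasCompactSupport.zero⟩, fun _ => le_rfl,
      fun _ => zero_le_one, ?_⟩
    intro x hx
    exact absurd ⟨x, subset_tsupport g hx⟩ hne

/-- locality: a.e. point is either in `{χ = 1}`, where `|Dχ| = 0`, or in `{g = 0}`, where `|Dg| = 0`, `Γg = 0`, `|DΓg| = 0`.
(`gc_wg_zero_on_level` for `χ` (level `1`), `g` (level `0`), `Γg` (level `0`); `gc_gamma_self`.) -/
theorem wr_ext_loc (hS : Std m K N) {g χ : X → ℝ} (hg : IsTestFunction m g) (hχ : LipC χ)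
    (h1 : ∀ x, g x ≠ 0 → χ x = 1) :
    ∀ᵐ x ∂m, (χ x = 1 ∧ weakGradient m χ x = 0) ∨
      (weakGradient m g x = 0 ∧ gamma m g g x = 0 ∧ weakGradient m (gamma m g g) x = 0) := by
  have hgl : LocalSobolev m g := gc_ls_of_sob (tf_test_sobolev hg)
  have hχl : LocalSobolev m χ := gc_ls_of_sob (gc_sob_of_lipC hS.finite hχ)
  have hΓl : LocalSobolev m (gamma m g g) := gc_ls_of_sob (tf_gamma_sobolev hS hg)
  filter_upwards [gc_wg_zero_on_level hS.finite hχl 1, gc_wg_zero_on_level hS.finite hgl 0,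
    gc_wg_zero_on_level hS.finite hΓl 0, gc_gamma_self hS.finite hgl] with x a1 a2 a3 a4
  by_cases hx : g x = 0
  · right
    have b1 := a2 hx
    have b2 : gamma m g g x = 0 := by rw [a4, b1]; ring
    exact ⟨b1, b2, a3 b2⟩
  · left
    exact ⟨h1 x hx, a1 (h1 x hx)⟩

/-- `∫Γ(Γg, χη)e = ∫Γ(Γg,η)e`.  A.e.: `Γ(Γg,χη) = χΓ(Γg,η) + ηΓ(Γg,χ)` (`gc_gamma_mul_right`), `|Γ(a,b)| ≤ |Da||Db|` (`gc_gamma_abs_le`), `wr_ext_loc`. -/
theorem wr_ext_t1 (hS : Std m K N) (F : X → ℝ) (ε : ℝ) {g χ η : X → ℝ} (hg : IsTestFunction m g) (hχ : LipC χ)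
    (h1 : ∀ x, g x ≠ 0 → χ x = 1) (hη : LipB η) :
    ∫ x, gamma m (gamma m g g) (fun y => χ y * η y) x * wt F ε x ∂m =
      ∫ x, gamma m (gamma m g g) η x * wt F ε x ∂m := by
  have lχ : LocalSobolev m χ := gc_ls_of_sob (gc_sob_of_lipC hS.finite hχ)
  have lη : LocalSobolev m η := gc_ls_of_lipLoc hS.finite (gc_lipLoc_of_lip hη.1)
  have lχη : LocalSobolev m (fun x => χ x * η x) :=
    gc_ls_of_sob (gc_sob_of_lipC hS.finite (wr_lipC_mul_lipB hχ hη))
  have lΓ : LocalSobolev m (gamma m g g) := gc_ls_of_sob (tf_gamma_sobolev hS hg)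
  refine integral_congr_ae ?_
  filter_upwards [gc_gamma_mul_right hS lχ lη lχη lΓ, wr_ext_loc hS hg hχ h1, gc_gamma_abs_le hS lΓ lη,
    gc_gamma_abs_le hS lΓ lχ] with x hmul hloc ha hb
  show gamma m (gamma m g g) (fun y => χ y * η y) x * wt F ε x = gamma m (gamma m g g) η x * wt F ε x
  rw [hmul]
  rcases hloc with ⟨hc1, hc2⟩ | ⟨_, _, hc3⟩
  · rw [hc2, mul_zero] at hb
    have hb0 : gamma m (gamma m g g) χ x = 0 := abs_eq_zero.1 (le_antisymm hb (abs_nonneg _))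
    rw [hb0, hc1]
    ring
  · rw [hc3, zero_mul] at ha hb
    have ha0 : gamma m (gamma m g g) η x = 0 := abs_eq_zero.1 (le_antisymm ha (abs_nonneg _))
    have hb0 : gamma m (gamma m g g) χ x = 0 := abs_eq_zero.1 (le_antisymm hb (abs_nonneg _))
    rw [ha0, hb0]
    ring

/-- `-(ε²/2)∫Γ(Γg,η)e = (ε/2)∫|Dg|²(Lη)e`: `wr_ibp` with `u = η`, `v = Γg` (Sobolev by `tf_gamma_sobolev`), `gc_gamma_comm`, `gc_gamma_self`. -/
theorem wr_ext_t1' (hS : Std m K N) (hF : LipB F) (hε : 0 < ε) {g η : X → ℝ} (hg : IsTestFunction m g)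
    (hη : LipB η) (hηd : InLaplacianDomain m η) :
    -(ε ^ 2 / 2) * ∫ x, gamma m (gamma m g g) η x * wt F ε x ∂m =
      ε / 2 * ∫ x, weakGradient m g x ^ 2 * opL m F ε η x * wt F ε x ∂m := by
  have hΓ : Sobolev m (gamma m g g) := tf_gamma_sobolev hS hg
  have h1 := wr_ibp hS hF hε hηd hΓ
  have lg : LocalSobolev m g := gc_ls_of_sob (wr_dom_sobolev hg.1)
  have c1 : wr_fm m F ε η (gamma m g g) = ∫ x, gamma m (gamma m g g) η x * wt F ε x ∂m := by
    show ∫ x, gamma m η (gamma m g g) x * wt F ε x ∂m = _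
    refine integral_congr_ae ?_
    filter_upwards [gc_gamma_comm hS.finite (gc_ls_of_sob (wr_dom_sobolev hηd)) (gc_ls_of_sob hΓ)] with x hx
    rw [hx]
  have c2 : ∫ x, opL m F ε η x * gamma m g g x * wt F ε x ∂m =
      ∫ x, weakGradient m g x ^ 2 * opL m F ε η x * wt F ε x ∂m := by
    refine integral_congr_ae ?_
    filter_upwards [gc_gamma_self hS.finite lg] with x hx
    rw [hx]; ring
  rw [c1, c2] at h1
  have : ε ^ 2 / 2 * ∫ x, gamma m (gamma m g g) η x * wt F ε x ∂m =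
      ε / 2 * (ε * ∫ x, gamma m (gamma m g g) η x * wt F ε x ∂m) := by ring
  rw [neg_mul, this, h1]; ring

/-- integrability of `η (Lg)² e` (`η` bounded continuous, `Lg ∈ L²`: `wr_opL_memLp`, `wr_integrable_mul_mul_wt`). -/
theorem wr_ext_int_a (hS : Std m K N) (hF : LipB F) (hε : 0 < ε) {g η : X → ℝ} (hg : InLaplacianDomain m g)
    (hη : LipB η) : Integrable (fun x => η x * opL m F ε g x ^ 2 * wt F ε x) m := by
  have hL : MemLp (opL m F ε g) 2 m := wr_opL_memLp hS hF ε hg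
  obtain ⟨B, hB⟩ := hη.2
  have hηc : Continuous η := wr_lipB_continuous hη
  have h1 : MemLp (fun x => η x * opL m F ε g x) 2 m := by
    refine MemLp.of_le_mul (c := |B|) hL (hηc.aestronglyMeasurable.mul hL.1) (Eventually.of_forall fun x => ?_)
    rw [norm_mul]
    exact mul_le_mul_of_nonneg_right ((hB x).trans (le_abs_self B)) (norm_nonneg _)
  refine (wr_integrable_mul_mul_wt hF hε h1 hL).congr (Eventually.of_forall fun x => ?_)
  show η x * opL m F ε g x * opL m F ε g x * wt F ε x = η x * opL m F ε g x ^ 2 * wt F ε x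
  ring

/-- integrability of `Γ(η,g)(Lg)e` (`wr_gamma_lip_memLp`, `wr_opL_memLp`, `wr_integrable_mul_mul_wt`). -/
theorem wr_ext_int_b (hS : Std m K N) (hF : LipB F) (hε : 0 < ε) {g η : X → ℝ} (hg : InLaplacianDomain m g)
    (hη : LipB η) : Integrable (fun x => gamma m η g x * opL m F ε g x * wt F ε x) m :=
  wr_integrable_mul_mul_wt hF hε (wr_gamma_lip_memLp hS hη (wr_dom_sobolev hg)) (wr_opL_memLp hS hF ε hg)

/-- `∫Lg(χη Lg + εΓ(χη,g))e ≤ ∫η(Lg)²e + ε∫Γ(η,g)(Lg)e`.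
A.e.: `χη(Lg)² ≤ η(Lg)²` (`0 ≤ χ ≤ 1`, `η ≥ 0`) and `Γ(χη,g) = χΓ(η,g) + ηΓ(χ,g) = Γ(η,g)` (`gc_gamma_mul_left`, `gc_gamma_abs_le`, `wr_ext_loc`).
Then `integral_mono_ae`, `integral_add`, `integral_const_mul` with `wr_ext_int_a`, `wr_ext_int_b` (also for the weight `χη`, which is `LipB`). -/
theorem wr_ext_t2 (hS : Std m K N) (hF : LipB F) (hε : 0 < ε) {g χ η : X → ℝ} (hg : IsTestFunction m g)
    (hχ : LipC χ) (hχ0 : ∀ x, 0 ≤ χ x) (hχ1 : ∀ x, χ x ≤ 1) (h1 : ∀ x, g x ≠ 0 → χ x = 1) (hη : LipB η)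
    (hη0 : ∀ x, 0 ≤ η x) :
    ∫ x, opL m F ε g x * (χ x * η x * opL m F ε g x + ε * gamma m (fun y => χ y * η y) g x) * wt F ε x ∂m ≤
      ∫ x, η x * opL m F ε g x ^ 2 * wt F ε x ∂m + ε * ∫ x, gamma m η g x * opL m F ε g x * wt F ε x ∂m := by
  have hgd : InLaplacianDomain m g := hg.1
  have hgl : LocalSobolev m g := gc_ls_of_sob (wr_dom_sobolev hgd)
  have hχl : LocalSobolev m χ := gc_ls_of_sob (gc_sob_of_lipC hS.finite hχ)
  have hηl : LocalSobolev m η := gc_ls_of_lipLoc hS.finite (gc_lipLoc_of_lip hη.1)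
  have hχηC : LipC (fun x => χ x * η x) := wr_lipC_mul_lipB hχ hη
  have hχηl : LocalSobolev m (fun x => χ x * η x) := gc_ls_of_sob (gc_sob_of_lipC hS.finite hχηC)
  have hae : ∀ᵐ x ∂m, gamma m (fun y => χ y * η y) g x = gamma m η g x := by
    filter_upwards [gc_gamma_mul_left hS hχl hηl hχηl hgl, gc_gamma_abs_le hS hχl hgl,
      gc_gamma_abs_le hS hηl hgl, wr_ext_loc hS hg hχ h1] with x e1 e2 e3 e4
    rw [e1]
    rcases e4 with ⟨c1, c2⟩ | ⟨c1, -, -⟩
    · rw [c2, zero_mul] at e2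
      have : gamma m χ g x = 0 := abs_eq_zero.1 (le_antisymm e2 (abs_nonneg _))
      rw [this, c1]
      ring
    · rw [c1, mul_zero] at e2 e3
      have h2 : gamma m χ g x = 0 := abs_eq_zero.1 (le_antisymm e2 (abs_nonneg _))
      have h3 : gamma m η g x = 0 := abs_eq_zero.1 (le_antisymm e3 (abs_nonneg _))
      rw [h2, h3]
      ring
  have ia := wr_ext_int_a hS hF hε hgd hη
  have ia' := wr_ext_int_a hS hF hε hgd (gc_lipB_of_lipC hχηC)
  have ib := wr_ext_int_b hS hF hε hgd hη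
  have hL : (fun x => opL m F ε g x * (χ x * η x * opL m F ε g x +
      ε * gamma m (fun y => χ y * η y) g x) * wt F ε x) =ᵐ[m]
      fun x => χ x * η x * opL m F ε g x ^ 2 * wt F ε x +
        ε * (gamma m η g x * opL m F ε g x * wt F ε x) := by
    filter_upwards [hae] with x hx
    rw [hx]
    ring
  rw [integral_congr_ae hL, ← integral_const_mul, ← integral_add ia (ib.const_mul ε)]
  refine integral_mono (ia'.add (ib.const_mul ε)) (ia.add (ib.const_mul ε)) fun x => ?_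
  have hw := (wr_wt_pos F ε x).le
  have h5 : χ x * η x ≤ η x := by nlinarith [hχ1 x, hη0 x]
  have h6 : χ x * η x * opL m F ε g x ^ 2 * wt F ε x ≤ η x * opL m F ε g x ^ 2 * wt F ε x :=
    mul_le_mul_of_nonneg_right (mul_le_mul_of_nonneg_right h5 (sq_nonneg _)) hw
  simp only
  linarith

/-- `∫(εK - G)Γg (χη) e = ∫(εK - G)|Dg|² η e` (`integral_congr_ae`, `wr_ext_loc`, `gc_gamma_self`). -/
theorem wr_ext_t3 (hS : Std m K N) (F G : X → ℝ) (ε : ℝ) {g χ η : X → ℝ} (hg : IsTestFunction m g) (hχ : LipC χ)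
    (h1 : ∀ x, g x ≠ 0 → χ x = 1) :
    ∫ x, (ε * K - G x) * gamma m g g x * (χ x * η x) * wt F ε x ∂m =
      ∫ x, (ε * K - G x) * weakGradient m g x ^ 2 * η x * wt F ε x ∂m := by
  have hgl : LocalSobolev m g := gc_ls_of_sob (tf_test_sobolev hg)
  refine integral_congr_ae ?_
  filter_upwards [wr_ext_loc hS hg hχ h1, gc_gamma_self hS.finite hgl] with x a1 a2
  rcases a1 with ⟨b1, -⟩ | ⟨b1, b2, -⟩
  · simp only [a2, b1, one_mul]
  · simp only [b1, b2]
    ring

/-- **WR6 for `g ∈ TestC`**. -/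
theorem wr_ext_testC (hS : Std m K N) (hF : LipB F) (hG : BoundedFunction G) (hGc : Continuous G)
    (hH : WeakHessianUpperBound m F G) (hε : 0 < ε) {η g : X → ℝ} (hη : LipB η) (hη0 : ∀ x, 0 ≤ η x)
    (hηd : InLaplacianDomain m η) (hg : TestC m g) : 0 ≤ wr_Phi m K F G ε η g := by
  obtain ⟨χ, hχ, hχ0, hχ1, h1⟩ := wr_exists_cutoff hg.2
  have hh : LipC (fun x => χ x * η x) := wr_lipC_mul_lipB hχ hη
  have h0 : ∀ x, 0 ≤ χ x * η x := fun x => mul_nonneg (hχ0 x) (hη0 x)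
  have key := wr_gamma2 hS hF hG hGc hH hε hg hh h0
  rw [wr_ext_t3 hS F G ε hg.1 hχ h1, wr_ext_t1 hS F ε hg.1 hχ h1 hη, wr_ext_t1' hS hF hε hg.1 hη hηd] at key
  have h2 := wr_ext_t2 hS hF hε hg.1 hχ hχ0 hχ1 h1 hη hη0
  unfold wr_Phi
  linarith

/-! ### Step 2: continuity for the graph norm -/

/-- inner product of two `L²` classes as an integral. -/
theorem wr_inner_toLp {f g : X → ℝ} (hf : MemLp f 2 m) (hg : MemLp g 2 m) :
    inner ℝ (hf.toLp f) (hg.toLp g) = ∫ x, f x * g x ∂m := by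
  rw [L2.inner_def]
  refine integral_congr_ae ?_
  filter_upwards [hf.coeFn_toLp, hg.coeFn_toLp] with x h1 h2
  simp [h1, h2, mul_comm]

/-- squared norm of an `L²` class as an integral. -/
theorem wr_norm_toLp_sq {f : X → ℝ} (hf : MemLp f 2 m) :
    ‖hf.toLp f‖ ^ 2 = ∫ x, f x ^ 2 ∂m := by
  rw [← real_inner_self_eq_norm_sq, wr_inner_toLp hf hf]
  simp only [pow_two]

/-- convergence in `L²` from convergence of the squared integrals. -/
theorem wr_tendsto_toLp {a : ℕ → X → ℝ} {a₀ : X → ℝ} (ha : ∀ n, MemLp (a n) 2 m)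
    (ha₀ : MemLp a₀ 2 m) (hla : Tendsto (fun n => ∫ x, (a n x - a₀ x) ^ 2 ∂m) atTop (𝓝 0)) :
    Tendsto (fun n => (ha n).toLp (a n)) atTop (𝓝 (ha₀.toLp a₀)) := by
  rw [tendsto_iff_norm_sub_tendsto_zero]
  have h1 : ∀ n, ‖(ha n).toLp (a n) - ha₀.toLp a₀‖ = Real.sqrt (∫ x, (a n x - a₀ x) ^ 2 ∂m) := by
    intro n
    rw [← MemLp.toLp_sub (ha n) ha₀, ← Real.sqrt_sq (norm_nonneg _), wr_norm_toLp_sq]
    rfl
  simp only [h1]
  simpa using hla.sqrt

/-- general lemma (pure measure theory): `a n → a₀`, `b n → b₀` in `L²`, `w` bounded ⟹ `∫ a n b n w → ∫ a₀ b₀ w`.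
`|∫(a n b n - a₀ b₀)w| ≤ B (‖a n - a₀‖ ‖b n‖ + ‖a₀‖ ‖b n - b₀‖)`, `‖b n‖ ≤ ‖b₀‖ + ‖b n - b₀‖` (Cauchy-Schwarz, e.g. `tf_int_mul_le` in TF/L2Lim.lean
or `integral_mul_le_Lp_mul_Lq`, or work in `Lp ℝ 2 m` with `inner`). -/
theorem wr_tendsto_int_mul_mul {a b : ℕ → X → ℝ} {a₀ b₀ w : X → ℝ} {B : ℝ}
    (ha : ∀ n, MemLp (a n) 2 m) (hb : ∀ n, MemLp (b n) 2 m) (ha₀ : MemLp a₀ 2 m) (hb₀ : MemLp b₀ 2 m)
    (hw : AEStronglyMeasurable w m) (hB : AEBdd m w B)
    (hla : Tendsto (fun n => ∫ x, (a n x - a₀ x) ^ 2 ∂m) atTop (𝓝 0))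
    (hlb : Tendsto (fun n => ∫ x, (b n x - b₀ x) ^ 2 ∂m) atTop (𝓝 0)) :
    Tendsto (fun n => ∫ x, a n x * b n x * w x ∂m) atTop (𝓝 (∫ x, a₀ x * b₀ x * w x ∂m)) := by
  have hmul : ∀ {f : X → ℝ}, MemLp f 2 m → MemLp (fun x => f x * w x) 2 m := by
    intro f hf
    refine MemLp.of_le_mul (c := B) hf (hf.aestronglyMeasurable.mul hw) ?_
    filter_upwards [hB] with x hx
    rw [norm_mul, mul_comm]
    exact mul_le_mul_of_nonneg_right hx (norm_nonneg _)
  have hbw : ∀ n, MemLp (fun x => b n x * w x) 2 m := fun n => hmul (hb n)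
  have hbw₀ : MemLp (fun x => b₀ x * w x) 2 m := hmul hb₀
  have hlbw : Tendsto (fun n => ∫ x, (b n x * w x - b₀ x * w x) ^ 2 ∂m) atTop (𝓝 0) := by
    have hup : Tendsto (fun n => B ^ 2 * ∫ x, (b n x - b₀ x) ^ 2 ∂m) atTop (𝓝 0) := by
      simpa using hlb.const_mul (B ^ 2)
    refine tendsto_of_tendsto_of_tendsto_of_le_of_le tendsto_const_nhds hup
      (fun n => integral_nonneg fun x => sq_nonneg _) (fun n => ?_)
    show ∫ x, (b n x * w x - b₀ x * w x) ^ 2 ∂m ≤ B ^ 2 * ∫ x, (b n x - b₀ x) ^ 2 ∂m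
    rw [← integral_const_mul]
    refine integral_mono_ae ((hbw n).sub hbw₀).integrable_sq
      (((hb n).sub hb₀).integrable_sq.const_mul _) ?_
    filter_upwards [hB] with x hx
    have h1 : w x ^ 2 ≤ B ^ 2 := sq_le_sq' (by linarith [abs_le.1 hx]) (abs_le.1 hx).2
    have h2 : (b n x * w x - b₀ x * w x) ^ 2 = w x ^ 2 * (b n x - b₀ x) ^ 2 := by ring
    show (b n x * w x - b₀ x * w x) ^ 2 ≤ B ^ 2 * (b n x - b₀ x) ^ 2
    rw [h2]
    exact mul_le_mul_of_nonneg_right h1 (sq_nonneg _)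
  have h := (wr_tendsto_toLp ha ha₀ hla).inner (𝕜 := ℝ) (wr_tendsto_toLp hbw hbw₀ hlbw)
  simp only [wr_inner_toLp] at h
  simpa only [mul_assoc] using h

/-- (α) `|D g n| → |Dg|` in `L²`: `(|D g n| - |Dg|)² ≤ |D(g n - g)|²` a.e. (`gc_wg_abs_sub_le`), squeeze. -/
theorem wr_ext_conv_wg (hS : Std m K N) {gs : ℕ → X → ℝ} {g : X → ℝ} (hgs : ∀ n, Sobolev m (gs n))
    (hg : Sobolev m g) (hE : Tendsto (fun n => energy m (fun x => gs n x - g x)) atTop (𝓝 0)) :
    Tendsto (fun n => ∫ x, (weakGradient m (gs n) x - weakGradient m g x) ^ 2 ∂m) atTop (𝓝 0) := by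
  refine squeeze_zero (fun n => integral_nonneg fun x => sq_nonneg _) (fun n => ?_) hE
  unfold energy
  refine integral_mono_of_nonneg (Eventually.of_forall fun x => sq_nonneg _)
    (gc_wg_sq_integrable (gc_sob_sub hS.finite (hgs n) hg)) ?_
  filter_upwards [gc_wg_abs_sub_le hS.finite (gc_ls_of_sob (hgs n)) (gc_ls_of_sob hg)] with x hx
  rw [← sq_abs]
  exact pow_le_pow_left₀ (abs_nonneg _) hx 2

/-- (γ) `Γ(η, g n) → Γ(η,g)` in `L²`: `Γ(η,g n) - Γ(η,g) = Γ(η, g n - g)` (`gc_gamma_sub_right`), `|Γ(η,v)| ≤ L |Dv|` (`wr_gamma_lip_abs_le`), squeeze. -/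
theorem wr_ext_conv_gamma (hS : Std m K N) {η : X → ℝ} (hη : LipB η) {gs : ℕ → X → ℝ} {g : X → ℝ}
    (hgs : ∀ n, Sobolev m (gs n)) (hg : Sobolev m g)
    (hE : Tendsto (fun n => energy m (fun x => gs n x - g x)) atTop (𝓝 0)) :
    Tendsto (fun n => ∫ x, (gamma m η (gs n) x - gamma m η g x) ^ 2 ∂m) atTop (𝓝 0) := by
  obtain ⟨L, hL⟩ := hη.1
  have hE' : Tendsto (fun n => (L : ℝ) ^ 2 * energy m (fun x => gs n x - g x)) atTop (𝓝 0) := by
    simpa using hE.const_mul ((L : ℝ) ^ 2)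
  refine squeeze_zero (fun n => integral_nonneg fun x => sq_nonneg _) (fun n => ?_) hE'
  unfold energy
  rw [← integral_const_mul]
  have hsub := gc_sob_sub hS.finite (hgs n) hg
  refine integral_mono_of_nonneg (Eventually.of_forall fun x => sq_nonneg _)
    ((gc_wg_sq_integrable hsub).const_mul _) ?_
  filter_upwards [gc_gamma_sub_right hS (gc_ls_of_lipLoc hS.finite (gc_lipLoc_of_lip hη.1))
      (gc_ls_of_sob (hgs n)) (gc_ls_of_sob hg),
    wr_gamma_lip_abs_le hS hη hL (gc_ls_of_sob hsub)] with x h1 h2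
  rw [← h1, ← sq_abs, ← mul_pow]
  exact pow_le_pow_left₀ (abs_nonneg _) h2 2

/-- (β) `L g n → L g` in `L²`: `(L g n - L g)² ≤ 2ε²(Δ g n - Δ g)² + 2(Γ(F,g n) - Γ(F,g))²`, `wr_ext_conv_gamma` with `η = F`, squeeze. -/
theorem wr_ext_conv_opL (hS : Std m K N) (hF : LipB F) (ε : ℝ) {gs : ℕ → X → ℝ} {g : X → ℝ}
    (hgs : ∀ n, InLaplacianDomain m (gs n)) (hg : InLaplacianDomain m g)
    (hE : Tendsto (fun n => energy m (fun x => gs n x - g x)) atTop (𝓝 0))
    (hL : Tendsto (fun n => ∫ x, (laplacian m (gs n) x - laplacian m g x) ^ 2 ∂m) atTop (𝓝 0)) :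
    Tendsto (fun n => ∫ x, (opL m F ε (gs n) x - opL m F ε g x) ^ 2 ∂m) atTop (𝓝 0) := by
  have hΓ := wr_ext_conv_gamma hS hF (fun n => wr_dom_sobolev (hgs n)) (wr_dom_sobolev hg) hE
  have hlim : Tendsto (fun n => 2 * ε ^ 2 * ∫ x, (laplacian m (gs n) x - laplacian m g x) ^ 2 ∂m
      + 2 * ∫ x, (gamma m F (gs n) x - gamma m F g x) ^ 2 ∂m) atTop (𝓝 0) := by
    have := (hL.const_mul (2 * ε ^ 2)).add (hΓ.const_mul 2)
    simpa using this
  refine tendsto_of_tendsto_of_tendsto_of_le_of_le tendsto_const_nhds hlim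
    (fun n => integral_nonneg fun x => sq_nonneg _) (fun n => ?_)
  have i1 : Integrable (fun x => (laplacian m (gs n) x - laplacian m g x) ^ 2) m :=
    ((wr_laplacian_memLp (hgs n)).sub (wr_laplacian_memLp hg)).integrable_sq
  have i2 : Integrable (fun x => (gamma m F (gs n) x - gamma m F g x) ^ 2) m :=
    ((wr_gamma_lip_memLp hS hF (wr_dom_sobolev (hgs n))).sub
      (wr_gamma_lip_memLp hS hF (wr_dom_sobolev hg))).integrable_sq
  have i3 : Integrable (fun x => (opL m F ε (gs n) x - opL m F ε g x) ^ 2) m :=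
    ((wr_opL_memLp hS hF ε (hgs n)).sub (wr_opL_memLp hS hF ε hg)).integrable_sq
  simp only
  rw [← integral_const_mul, ← integral_const_mul, ← integral_add (i1.const_mul _) (i2.const_mul _)]
  refine integral_mono i3 ((i1.const_mul _).add (i2.const_mul _)) (fun x => ?_)
  simp only [opL]
  nlinarith [sq_nonneg (ε * (laplacian m (gs n) x - laplacian m g x)
    - (gamma m F (gs n) x - gamma m F g x))]

/-- continuity of `wr_Phi` in `g`: four applications of `wr_tendsto_int_mul_mul`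
(`a = b = |D·|`, `w = (Lη)e`;  `a = b = L·`, `w = ηe`;  `a = Γ(η,·)`, `b = L·`, `w = e`;  `a = b = |D·|`, `w = (εK - G)ηe`),
after rewriting the integrands by `ring`. -/
theorem wr_Phi_tendsto (hS : Std m K N) (hF : LipB F) (hG : BoundedFunction G) (hGc : Continuous G) (hε : 0 < ε)
    {η : X → ℝ} {M' : ℝ} (hη : LipB η) (hηd : InLaplacianDomain m η) (hηL : AEBdd m (opL m F ε η) M')
    {gs : ℕ → X → ℝ} {g : X → ℝ} (hgs : ∀ n, InLaplacianDomain m (gs n)) (hg : InLaplacianDomain m g)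
    (hE : Tendsto (fun n => energy m (fun x => gs n x - g x)) atTop (𝓝 0))
    (hL : Tendsto (fun n => ∫ x, (laplacian m (gs n) x - laplacian m g x) ^ 2 ∂m) atTop (𝓝 0)) :
    Tendsto (fun n => wr_Phi m K F G ε η (gs n)) atTop (𝓝 (wr_Phi m K F G ε η g)) := by
  obtain ⟨B, hB⟩ := hF.2
  obtain ⟨Bη, hBη⟩ := hη.2
  obtain ⟨BG, hBG⟩ := hG
  have hFc : Continuous F := wr_lipB_continuous hF
  have hηc : Continuous η := wr_lipB_continuous hη
  have hec : Continuous (wt F ε) := wr_wt_continuous hFc ε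
  have he0 : ∀ x, 0 < wt F ε x := wr_wt_pos F ε
  have heE : ∀ x, wt F ε x ≤ Real.exp (B / ε) := wr_wt_le hB hε
  have heabs : ∀ x, |wt F ε x| ≤ Real.exp (B / ε) := fun x => by
    rw [abs_of_pos (he0 x)]; exact heE x
  have hgsS : ∀ n, Sobolev m (gs n) := fun n => wr_dom_sobolev (hgs n)
  have hgS : Sobolev m g := wr_dom_sobolev hg
  have cW := wr_ext_conv_wg hS hgsS hgS hE
  have cG := wr_ext_conv_gamma hS hη hgsS hgS hE
  have cL := wr_ext_conv_opL hS hF ε hgs hg hE hL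
  have mW : ∀ n, MemLp (weakGradient m (gs n)) 2 m := fun n => wr_wg_memLp (hgsS n)
  have mW0 : MemLp (weakGradient m g) 2 m := wr_wg_memLp hgS
  have mL : ∀ n, MemLp (opL m F ε (gs n)) 2 m := fun n => wr_opL_memLp hS hF ε (hgs n)
  have mL0 : MemLp (opL m F ε g) 2 m := wr_opL_memLp hS hF ε hg
  have mG : ∀ n, MemLp (gamma m η (gs n)) 2 m := fun n => wr_gamma_lip_memLp hS hη (hgsS n)
  have mG0 : MemLp (gamma m η g) 2 m := wr_gamma_lip_memLp hS hη hgS
  -- the four limits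
  have T1 := wr_tendsto_int_mul_mul (w := fun x => opL m F ε η x * wt F ε x) (B := M' * Real.exp (B / ε))
    mW mW mW0 mW0 ((wr_opL_memLp hS hF ε hηd).1.mul hec.aestronglyMeasurable)
    (by
      filter_upwards [hηL] with x hx
      rw [abs_mul]
      exact mul_le_mul hx (heabs x) (abs_nonneg _) ((abs_nonneg _).trans hx)) cW cW
  have T2 := wr_tendsto_int_mul_mul (w := fun x => η x * wt F ε x) (B := Bη * Real.exp (B / ε))
    mL mL mL0 mL0 (hηc.mul hec).aestronglyMeasurable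
    (Eventually.of_forall fun x => by
      rw [abs_mul]
      exact mul_le_mul (hBη x) (heabs x) (abs_nonneg _) ((abs_nonneg _).trans (hBη x))) cL cL
  have T3 := wr_tendsto_int_mul_mul (w := wt F ε) (B := Real.exp (B / ε))
    mG mL mG0 mL0 hec.aestronglyMeasurable (Eventually.of_forall heabs) cG cL
  have T4 := wr_tendsto_int_mul_mul (w := fun x => (ε * K - G x) * η x * wt F ε x)
    (B := (|ε * K| + BG) * Bη * Real.exp (B / ε))
    mW mW mW0 mW0 (((continuous_const.sub hGc).mul hηc).mul hec).aestronglyMeasurable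
    (Eventually.of_forall fun x => by
      have h1 : |ε * K - G x| ≤ |ε * K| + BG := (abs_sub _ _).trans (by gcongr; exact hBG x)
      rw [abs_mul, abs_mul]
      have h0 : 0 ≤ |ε * K| + BG := (abs_nonneg _).trans h1
      have h2 : 0 ≤ Bη := (abs_nonneg _).trans (hBη x)
      exact mul_le_mul (mul_le_mul h1 (hBη x) (abs_nonneg _) h0) (heabs x) (abs_nonneg _)
        (mul_nonneg h0 h2)) cW cW
  have e : ∀ u : X → ℝ, wr_Phi m K F G ε η u =
      ε / 2 * (∫ x, weakGradient m u x * weakGradient m u x * (opL m F ε η x * wt F ε x) ∂m)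
        + (∫ x, opL m F ε u x * opL m F ε u x * (η x * wt F ε x) ∂m)
        + ε * (∫ x, gamma m η u x * opL m F ε u x * wt F ε x ∂m)
        - ε * (∫ x, weakGradient m u x * weakGradient m u x * ((ε * K - G x) * η x * wt F ε x) ∂m) := by
    intro u
    unfold wr_Phi
    congr 1
    · congr 1
      congr 1
      · congr 1
        refine integral_congr_ae (Eventually.of_forall fun x => ?_)
        ring
      · refine integral_congr_ae (Eventually.of_forall fun x => ?_)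
        ring
    · congr 1
      refine integral_congr_ae (Eventually.of_forall fun x => ?_)
      ring
  simp only [e]
  exact (((T1.const_mul (ε / 2)).add T2).add (T3.const_mul ε)).sub (T4.const_mul ε)

/-- **WR6**. -/
theorem wr_ext_Phi (hS : Std m K N) (hF : LipB F) (hG : BoundedFunction G) (hGc : Continuous G)
    (hH : WeakHessianUpperBound m F G) (hε : 0 < ε) {η g : X → ℝ} {M' : ℝ} (hη : LipB η) (hη0 : ∀ x, 0 ≤ η x)
    (hηd : InLaplacianDomain m η) (hηL : AEBdd m (opL m F ε η) M') (hg : InLaplacianDomain m g) :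
    0 ≤ wr_Phi m K F G ε η g := by
  obtain ⟨gs, h1, -, h3, h4⟩ := tf_density hS hg
  have hlim := wr_Phi_tendsto (K := K) hS hF hG hGc hε hη hηd hηL (fun n => (h1 n).1.1) hg h3 h4
  exact ge_of_tendsto' hlim (fun n => wr_ext_testC hS hF hG hGc hH hε hη hη0 hηd (h1 n))

/-- **WR6**, written out. -/
theorem wr_ext (hS : Std m K N) (hF : LipB F) (hG : BoundedFunction G) (hGc : Continuous G)
    (hH : WeakHessianUpperBound m F G) (hε : 0 < ε) {η g : X → ℝ} {M' : ℝ} (hη : LipB η) (hη0 : ∀ x, 0 ≤ η x)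
    (hηd : InLaplacianDomain m η) (hηL : AEBdd m (opL m F ε η) M') (hg : InLaplacianDomain m g) :
    ε * ∫ x, (ε * K - G x) * weakGradient m g x ^ 2 * η x * wt F ε x ∂m ≤
      ε / 2 * ∫ x, weakGradient m g x ^ 2 * opL m F ε η x * wt F ε x ∂m +
        ∫ x, η x * opL m F ε g x ^ 2 * wt F ε x ∂m +
        ε * ∫ x, gamma m η g x * opL m F ε g x * wt F ε x ∂m := by
  have := wr_ext_Phi hS hF hG hGc hH hε hη hη0 hηd hηL hg
  unfold wr_Phi at this
  linarith

end Claimed.Agent.R210.WR.Ext
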