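/-
Row 210, layer WR, block WR1 (sub-architect helper898): `QW m F ε` is a closed quadratic form on `L²(m_ε)`
and `bil (QW m F ε) u v = ε ∫ Γ(u,v) e^{F/ε} dm`.
Contract: `git show origin/helper928:docs/R210_partZ.md`, section WR.
-/
import Claimed.Agent.R210.WR.Calc
import Claimed.Agent.R210.HS.Ifc

set_option autoImplicit false

open Claims.C0366 Claims.C0366.WeakHessian
open Set Filter MeasureTheory
open scoped ENNReal NNReal Topology RealInnerProductSpace
open Claimed.Agent.R210.Defs Claimed.Agent.R210.Defs2 Claimed.Agent.R210.HS.Defs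
open Claimed.Agent.R210.WR.Needs Claimed.Agent.R210.WR.Wt Claimed.Agent.R210.WR.Calc

namespace Claimed.Agent.R210.WR.Form

variable {X : Type*} [MetricSpace X] [MeasurableSpace X] [BorelSpace X] [CompleteSpace X]
  [TopologicalSpace.SeparableSpace X] [ProperSpace X] {m : Measure X} {K N : ℝ}
  {F : X → ℝ} {ε : ℝ}

/-- the weighted energy `∫ |Du|² e^{F/ε} dm`. -/
noncomputable def wr_en (m : Measure X) (F : X → ℝ) (ε : ℝ) (u : X → ℝ) : ℝ :=
  ∫ x, weakGradient m u x ^ 2 * wt F ε x ∂m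

/-- the weighted form `∫ Γ(u,v) e^{F/ε} dm`. -/
noncomputable def wr_fm (m : Measure X) (F : X → ℝ) (ε : ℝ) (u v : X → ℝ) : ℝ :=
  ∫ x, gamma m u v x * wt F ε x ∂m

/-! ### the weighted energy of functions -/

theorem wr_en_nonneg (m : Measure X) (F : X → ℝ) (ε : ℝ) (u : X → ℝ) : 0 ≤ wr_en m F ε u := by
  unfold wr_en
  exact integral_nonneg fun x => mul_nonneg (sq_nonneg _) (wr_wt_pos F ε x).le

theorem wr_en_congr (F : X → ℝ) (ε : ℝ) {u v : X → ℝ} (h : u =ᵐ[m] v) :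
    wr_en m F ε u = wr_en m F ε v := by
  unfold wr_en
  rw [wr_n_wg_congr h]

theorem wr_fm_congr (F : X → ℝ) (ε : ℝ) {u u' v v' : X → ℝ} (h : u =ᵐ[m] u') (h' : v =ᵐ[m] v') :
    wr_fm m F ε u v = wr_fm m F ε u' v' := by
  unfold wr_fm
  rw [wr_gamma_congr h h']

theorem wr_en_integrable (hF : LipB F) (hε : 0 < ε) {u : X → ℝ} (hu : Sobolev m u) :
    Integrable (fun x => weakGradient m u x ^ 2 * wt F ε x) m := by
  exact wr_integrable_mul_wt hF hε (wr_wg_sq_integrable hu)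

theorem wr_fm_integrable (hS : Std m K N) (hF : LipB F) (hε : 0 < ε) {u v : X → ℝ}
    (hu : Sobolev m u) (hv : Sobolev m v) :
    Integrable (fun x => gamma m u v x * wt F ε x) m := by
  exact wr_integrable_mul_wt hF hε (wr_gamma_integrable hS hu hv)

/-- `e^{-B/ε} ∫|Du|² ≤ ∫|Du|² e^{F/ε}`. -/
theorem wr_energy_le_en {B : ℝ} (hF : LipB F) (hB : ∀ x, |F x| ≤ B) (hε : 0 < ε) {u : X → ℝ}
    (hu : Sobolev m u) : Real.exp (-(B / ε)) * energy m u ≤ wr_en m F ε u := by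
  unfold wr_en energy
  rw [← integral_const_mul]
  refine integral_mono ((wr_wg_sq_integrable hu).const_mul _) (wr_en_integrable hF hε hu) ?_
  intro x
  show Real.exp (-(B / ε)) * weakGradient m u x ^ 2 ≤ weakGradient m u x ^ 2 * wt F ε x
  rw [mul_comm]
  exact mul_le_mul_of_nonneg_left (wr_wt_ge hB hε x) (sq_nonneg _)

/-- `∫|Du|² e^{F/ε} ≤ e^{B/ε} ∫|Du|²`. -/
theorem wr_en_le_energy {B : ℝ} (hF : LipB F) (hB : ∀ x, |F x| ≤ B) (hε : 0 < ε) {u : X → ℝ}
    (hu : Sobolev m u) : wr_en m F ε u ≤ Real.exp (B / ε) * energy m u := by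
  unfold wr_en energy
  rw [← integral_const_mul]
  refine integral_mono (wr_en_integrable hF hε hu) ((wr_wg_sq_integrable hu).const_mul _) ?_
  intro x
  show weakGradient m u x ^ 2 * wt F ε x ≤ Real.exp (B / ε) * weakGradient m u x ^ 2
  rw [mul_comm (Real.exp (B / ε))]
  exact mul_le_mul_of_nonneg_left (wr_wt_le hB hε x) (sq_nonneg _)

theorem wr_fm_self (hS : Std m K N) (F : X → ℝ) (ε : ℝ) {u : X → ℝ} (hu : Sobolev m u) :
    wr_fm m F ε u u = wr_en m F ε u := by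
  unfold wr_fm wr_en
  refine integral_congr_ae ?_
  filter_upwards [wr_n_gamma_self hS (wr_sobolev_local hu)] with x hx
  rw [hx]

/-- integrate `wr_n_par` against the weight. -/
theorem wr_en_par (hS : Std m K N) (hF : LipB F) (hε : 0 < ε) {u v : X → ℝ} (hu : Sobolev m u)
    (hv : Sobolev m v) :
    wr_en m F ε (fun x => u x + v x) + wr_en m F ε (fun x => u x - v x) =
      2 * wr_en m F ε u + 2 * wr_en m F ε v := by
  have h1 := wr_en_integrable (m := m) hF hε (wr_n_sobolev_add hS hu hv)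
  have h2 := wr_en_integrable (m := m) hF hε (wr_n_sobolev_sub hS hu hv)
  have h3 := wr_en_integrable (m := m) hF hε hu
  have h4 := wr_en_integrable (m := m) hF hε hv
  unfold wr_en
  rw [← integral_add h1 h2, ← integral_const_mul, ← integral_const_mul,
    ← integral_add (h3.const_mul 2) (h4.const_mul 2)]
  refine integral_congr_ae ?_
  filter_upwards [wr_n_par hS (wr_sobolev_local hu) (wr_sobolev_local hv)] with x hx
  have : (weakGradient m (fun y => u y + v y) x ^ 2 + weakGradient m (fun y => u y - v y) x ^ 2)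
      * wt F ε x = (2 * weakGradient m u x ^ 2 + 2 * weakGradient m v x ^ 2) * wt F ε x := by
    rw [hx]
  linarith

/-- integrate the definition of `gamma` against the weight. -/
theorem wr_fm_eq (hS : Std m K N) (hF : LipB F) (hε : 0 < ε) {u v : X → ℝ} (hu : Sobolev m u)
    (hv : Sobolev m v) :
    wr_fm m F ε u v = (wr_en m F ε (fun x => u x + v x) - wr_en m F ε (fun x => u x - v x)) / 4 := by
  have h1 := wr_en_integrable (m := m) hF hε (wr_n_sobolev_add hS hu hv)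
  have h2 := wr_en_integrable (m := m) hF hε (wr_n_sobolev_sub hS hu hv)
  unfold wr_en wr_fm
  rw [← integral_sub h1 h2, ← integral_div]
  refine integral_congr_ae (Filter.Eventually.of_forall fun x => ?_)
  simp only [gamma]
  ring

theorem wr_en_smul (hS : Std m K N) (F : X → ℝ) (ε : ℝ) (c : ℝ) {u : X → ℝ} (hu : Sobolev m u) :
    wr_en m F ε (fun x => c * u x) = c ^ 2 * wr_en m F ε u := by
  unfold wr_en
  rw [← integral_const_mul]
  refine integral_congr_ae ?_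
  filter_upwards [wr_n_wg_smul hS c (wr_sobolev_local hu)] with x hx
  rw [hx, mul_pow, sq_abs]
  ring

theorem wr_en_zero (hS : Std m K N) (F : X → ℝ) (ε : ℝ) : wr_en m F ε (fun _ => (0 : ℝ)) = 0 := by
  unfold wr_en
  refine (integral_congr_ae ?_).trans (integral_zero X ℝ (μ := m))
  have hL : LipschitzWith 0 (fun _ : X => (0 : ℝ)) := LipschitzWith.const 0
  filter_upwards [wr_n_wg_le_lip (m := m) hS hL, wr_n_wg_nonneg (m := m) (fun _ : X => (0 : ℝ))]
    with x hx hx'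
  have h0 : weakGradient m (fun _ : X => (0 : ℝ)) x = 0 :=
    le_antisymm (by simpa using hx) hx'
  rw [h0]
  simp

theorem wr_sobolev_zero (hS : Std m K N) : Sobolev m (fun _ : X => (0 : ℝ)) := by
  refine wr_n_lipC_sobolev hS ⟨⟨0, LipschitzWith.const 0⟩, ?_⟩
  exact HasCompactSupport.zero

/-- integrate `wr_wg_sub_sq` against the weight. -/
theorem wr_en_sub (hS : Std m K N) (hF : LipB F) (hε : 0 < ε) {u v : X → ℝ} (hu : Sobolev m u)
    (hv : Sobolev m v) :
    wr_en m F ε (fun x => u x - v x) = wr_en m F ε u - 2 * wr_fm m F ε u v + wr_en m F ε v := by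
  have h1 := wr_en_par (m := m) hS hF hε hu hv
  have h2 := wr_fm_eq (m := m) hS hF hε hu hv
  linarith

/-- **lower semicontinuity, function level.**  `fs n → f` in `L²(m)`, `wr_en (fs n) ≤ A` ⟹ `f` Sobolev and
`wr_en f ≤ A`.
Proof: `energy (fs n) ≤ e^{B/ε} A` (`wr_energy_le_en`), so `f` is Sobolev (`wr_n_closure`) and
`wr_fm (fs n) f → wr_fm f f = wr_en f` (`wr_n_weak_cont` with `v = f`, `h = wt F ε`).  By `wr_en_sub` and
`wr_en_nonneg`: `2 wr_fm (fs n) f - wr_en f ≤ wr_en (fs n) ≤ A`; pass to the limit. -/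
theorem wr_en_lsc (hS : Std m K N) (hF : LipB F) (hε : 0 < ε) {fs : ℕ → X → ℝ} {f : X → ℝ} {A : ℝ}
    (hfs : ∀ n, Sobolev m (fs n)) (hA : ∀ n, wr_en m F ε (fs n) ≤ A) (hf : MemLp f 2 m)
    (hlim : Tendsto (fun n => eLpNorm (fun x => fs n x - f x) 2 m) atTop (𝓝 0)) :
    Sobolev m f ∧ wr_en m F ε f ≤ A := by
  obtain ⟨B, hB⟩ := hF.2
  have hE : ∀ n, energy m (fs n) ≤ Real.exp (B / ε) * A := by
    intro n
    have h1 := (wr_energy_le_en hF hB hε (hfs n)).trans (hA n)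
    have h2 := mul_le_mul_of_nonneg_left h1 (Real.exp_pos (B / ε)).le
    rwa [← mul_assoc, ← Real.exp_add, add_neg_cancel, Real.exp_zero, one_mul] at h2
  have hS' : Sobolev m f := wr_n_closure hS hfs hE hf hlim
  refine ⟨hS', ?_⟩
  have hw : ∀ᵐ x ∂m, |wt F ε x| ≤ Real.exp (B / ε) :=
    Eventually.of_forall fun x => by
      rw [abs_of_pos (wr_wt_pos F ε x)]
      exact wr_wt_le hB hε x
  have hlim2 : Tendsto (fun n => wr_fm m F ε (fs n) f) atTop (𝓝 (wr_fm m F ε f f)) :=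
    wr_n_weak_cont hS hfs hE hf hlim hS'
      (wr_wt_measurable (wr_lipB_continuous hF) ε).aestronglyMeasurable hw
  rw [wr_fm_self hS F ε hS'] at hlim2
  have hb : ∀ n, 2 * wr_fm m F ε (fs n) f - wr_en m F ε f ≤ A := by
    intro n
    have h1 := wr_en_sub hS hF hε (hfs n) hS'
    have h2 := wr_en_nonneg m F ε (fun x => fs n x - f x)
    have h3 := hA n
    linarith
  have hlim3 : Tendsto (fun n => 2 * wr_fm m F ε (fs n) f - wr_en m F ε f) atTop
      (𝓝 (2 * wr_en m F ε f - wr_en m F ε f)) := (hlim2.const_mul 2).sub_const _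
  have := le_of_tendsto' hlim3 hb
  linarith

/-! ### the functional `QW` -/

theorem wr_QW_lt_top_iff (u : Lp ℝ 2 (mW m F ε)) :
    QW m F ε u < ∞ ↔ Sobolev m (u : X → ℝ) := by
  unfold QW
  split_ifs with h
  · exact ⟨fun _ => h, fun _ => ENNReal.ofReal_lt_top⟩
  · exact ⟨fun h' => absurd h' (lt_irrefl _), fun h' => absurd h' h⟩

theorem wr_QW_eq {u : Lp ℝ 2 (mW m F ε)} (hu : Sobolev m (u : X → ℝ)) :
    QW m F ε u = ENNReal.ofReal (ε / 2 * wr_en m F ε u) := by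
  unfold QW wr_en
  rw [if_pos hu]

theorem wr_QW_toReal (hε : 0 < ε) {u : Lp ℝ 2 (mW m F ε)} (hu : Sobolev m (u : X → ℝ)) :
    (QW m F ε u).toReal = ε / 2 * wr_en m F ε u := by
  rw [wr_QW_eq hu, ENNReal.toReal_ofReal (mul_nonneg (by positivity) (wr_en_nonneg m F ε _))]

theorem wr_form_zero (hS : Std m K N) (hF : LipB F) : QW m F ε 0 = 0 := by
  have h0 : ((0 : Lp ℝ 2 (mW m F ε)) : X → ℝ) =ᵐ[m] fun _ => (0 : ℝ) := wr_coe_zero hF
  have hs : Sobolev m ((0 : Lp ℝ 2 (mW m F ε)) : X → ℝ) :=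
    (wr_sobolev_congr h0).2 (wr_sobolev_zero hS)
  rw [wr_QW_eq hs, wr_en_congr F ε h0, wr_en_zero hS, mul_zero, ENNReal.ofReal_zero]

theorem wr_form_par (hS : Std m K N) (hF : LipB F) (hε : 0 < ε) (u v : Lp ℝ 2 (mW m F ε))
    (hu : QW m F ε u < ∞) (hv : QW m F ε v < ∞) :
    QW m F ε (u + v) + QW m F ε (u - v) = 2 * QW m F ε u + 2 * QW m F ε v := by
  have hu' : Sobolev m (u : X → ℝ) := (wr_QW_lt_top_iff u).1 hu
  have hv' : Sobolev m (v : X → ℝ) := (wr_QW_lt_top_iff v).1 hv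
  have ha : ((u + v : Lp ℝ 2 (mW m F ε)) : X → ℝ) =ᵐ[m] fun x => u x + v x := wr_coe_add hF u v
  have hb : ((u - v : Lp ℝ 2 (mW m F ε)) : X → ℝ) =ᵐ[m] fun x => u x - v x := wr_coe_sub hF u v
  have hsa : Sobolev m ((u + v : Lp ℝ 2 (mW m F ε)) : X → ℝ) :=
    (wr_sobolev_congr ha).2 (wr_n_sobolev_add hS hu' hv')
  have hsb : Sobolev m ((u - v : Lp ℝ 2 (mW m F ε)) : X → ℝ) :=
    (wr_sobolev_congr hb).2 (wr_n_sobolev_sub hS hu' hv')
  have hε2 : 0 ≤ ε / 2 := by positivity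
  rw [wr_QW_eq hsa, wr_QW_eq hsb, wr_QW_eq hu', wr_QW_eq hv', wr_en_congr F ε ha,
    wr_en_congr F ε hb, two_mul, two_mul,
    ← ENNReal.ofReal_add (mul_nonneg hε2 (wr_en_nonneg m F ε _))
      (mul_nonneg hε2 (wr_en_nonneg m F ε _)),
    ← ENNReal.ofReal_add (mul_nonneg hε2 (wr_en_nonneg m F ε _))
      (mul_nonneg hε2 (wr_en_nonneg m F ε _)),
    ← ENNReal.ofReal_add (mul_nonneg hε2 (wr_en_nonneg m F ε _))
      (mul_nonneg hε2 (wr_en_nonneg m F ε _)),
    ← ENNReal.ofReal_add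
      (add_nonneg (mul_nonneg hε2 (wr_en_nonneg m F ε _)) (mul_nonneg hε2 (wr_en_nonneg m F ε _)))
      (add_nonneg (mul_nonneg hε2 (wr_en_nonneg m F ε _)) (mul_nonneg hε2 (wr_en_nonneg m F ε _)))]
  congr 1
  have hp := wr_en_par hS hF hε hu' hv'
  calc ε / 2 * wr_en m F ε (fun x => u x + v x) + ε / 2 * wr_en m F ε (fun x => u x - v x)
      = ε / 2 * (wr_en m F ε (fun x => u x + v x) + wr_en m F ε (fun x => u x - v x)) := by ring
    _ = ε / 2 * (2 * wr_en m F ε u + 2 * wr_en m F ε v) := by rw [hp]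
    _ = ε / 2 * wr_en m F ε u + ε / 2 * wr_en m F ε u +
        (ε / 2 * wr_en m F ε v + ε / 2 * wr_en m F ε v) := by ring

theorem wr_form_homog (hS : Std m K N) (hF : LipB F) (hε : 0 < ε) (c : ℝ) (u : Lp ℝ 2 (mW m F ε))
    (hu : QW m F ε u < ∞) : QW m F ε (c • u) = ENNReal.ofReal (c ^ 2) * QW m F ε u := by
  have hu' : Sobolev m (u : X → ℝ) := (wr_QW_lt_top_iff u).1 hu
  have ha : ((c • u : Lp ℝ 2 (mW m F ε)) : X → ℝ) =ᵐ[m] fun x => c * u x := wr_coe_smul hF c u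
  have hsa : Sobolev m ((c • u : Lp ℝ 2 (mW m F ε)) : X → ℝ) :=
    (wr_sobolev_congr ha).2 (wr_n_sobolev_smul hS c hu')
  rw [wr_QW_eq hsa, wr_QW_eq hu', wr_en_congr F ε ha, wr_en_smul hS F ε c hu',
    ← ENNReal.ofReal_mul (sq_nonneg c)]
  congr 1
  ring

/-- sequential closedness of the sublevel sets (wrapper of `wr_en_lsc`; `c = ∞` is trivial). -/
theorem wr_form_closed (hS : Std m K N) (hF : LipB F) (hε : 0 < ε) {us : ℕ → Lp ℝ 2 (mW m F ε)}
    {u : Lp ℝ 2 (mW m F ε)} {c : ℝ≥0∞} (hlim : Tendsto us atTop (𝓝 u))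
    (hc : ∀ n, QW m F ε (us n) ≤ c) : QW m F ε u ≤ c := by
  by_cases hct : c = ∞
  · rw [hct]
    exact le_top
  have hSob : ∀ n, Sobolev m (us n : X → ℝ) := fun n =>
    (wr_QW_lt_top_iff (us n)).1 (lt_of_le_of_lt (hc n) (lt_top_iff_ne_top.2 hct))
  have hA : ∀ n, wr_en m F ε (us n) ≤ 2 * c.toReal / ε := by
    intro n
    have h1 := hc n
    rw [wr_QW_eq (hSob n)] at h1
    have h2 : ε / 2 * wr_en m F ε (us n) ≤ c.toReal := (ENNReal.ofReal_le_iff_le_toReal hct).1 h1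
    rw [le_div_iff₀ hε]
    linarith
  have h3 := wr_en_lsc hS hF hε hSob hA (wr_coe_memLp hF hε u) ((wr_tendsto_iff hF hε).1 hlim)
  rw [wr_QW_eq h3.1, ENNReal.ofReal_le_iff_le_toReal hct]
  have h4 := h3.2
  rw [le_div_iff₀ hε] at h4
  linarith

/-- `lowerSemicontinuous_iff_isClosed_preimage` + sequential closedness in a metric space. -/
theorem wr_form_lsc (hS : Std m K N) (hF : LipB F) (hε : 0 < ε) :
    LowerSemicontinuous (QW m F ε) := by
  rw [lowerSemicontinuous_iff_isClosed_preimage]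
  intro c
  apply IsSeqClosed.isClosed
  intro us u hus hlim
  exact wr_form_closed hS hF hε hlim hus

/-- `LipC ⊂ Sobolev` is dense in `L²(m)` (`wr_n_lipC_dense`), hence in `L²(m_ε)` (`wr_eLpNorm_mW_le`). -/
theorem wr_form_dense (hS : Std m K N) (hF : LipB F) (hε : 0 < ε) :
    Dense {u : Lp ℝ 2 (mW m F ε) | QW m F ε u < ∞} := by
  obtain ⟨B, hB⟩ := hF.2
  rw [Metric.dense_iff]
  intro u r hr
  set c : ℝ := Real.exp (B / (2 * ε)) with hc
  have hcpos : 0 < c := Real.exp_pos _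
  have hη : 0 < r / (2 * c) := by positivity
  obtain ⟨g, hg, hgu⟩ := wr_n_lipC_dense hS (wr_coe_memLp hF hε u) hη
  have hgS : Sobolev m g := wr_n_lipC_sobolev hS hg
  have hgm : MemLp g 2 m := hgS.1
  refine ⟨wr_toLp hF hε hgm, ?_, ?_⟩
  · rw [Metric.mem_ball, dist_comm, Lp.dist_def]
    have h1 : eLpNorm ((u : X → ℝ) - (wr_toLp hF hε hgm : X → ℝ)) 2 (mW m F ε)
        = eLpNorm (fun x => u x - g x) 2 (mW m F ε) := by
      apply eLpNorm_congr_ae
      have h2 : (wr_toLp hF hε hgm : X → ℝ) =ᵐ[mW m F ε] g :=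
        MemLp.coeFn_toLp ((wr_memLp_iff hF hε).2 hgm)
      filter_upwards [h2] with x hx
      simp [hx]
    have h3 : eLpNorm (fun x => u x - g x) 2 (mW m F ε) ≤ ENNReal.ofReal (r / 2) := by
      calc eLpNorm (fun x => u x - g x) 2 (mW m F ε)
          ≤ ENNReal.ofReal c * eLpNorm (fun x => u x - g x) 2 m := wr_eLpNorm_mW_le hB hε _
        _ ≤ ENNReal.ofReal c * ENNReal.ofReal (r / (2 * c)) := by gcongr
        _ = ENNReal.ofReal (r / 2) := by
            rw [← ENNReal.ofReal_mul hcpos.le]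
            congr 1
            field_simp
    rw [h1]
    calc (eLpNorm (fun x => u x - g x) 2 (mW m F ε)).toReal
        ≤ (ENNReal.ofReal (r / 2)).toReal := ENNReal.toReal_mono ENNReal.ofReal_ne_top h3
      _ = r / 2 := ENNReal.toReal_ofReal (by positivity)
      _ < r := by linarith
  · exact (wr_QW_lt_top_iff _).2 ((wr_sobolev_congr (wr_coe_toLp hF hε hgm)).2 hgS)

/-- **WR1**. -/
theorem wr_qform (hS : Std m K N) (hF : LipB F) (hε : 0 < ε) : QForm (QW m F ε) where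
  zero := wr_form_zero hS hF
  par := wr_form_par hS hF hε
  homog := wr_form_homog hS hF hε
  lsc := wr_form_lsc hS hF hε
  dense := wr_form_dense hS hF hε

/-- **WR1**: `bil (QW) u v = ε ∫ Γ(u,v) e^{F/ε} dm`. -/
theorem wr_bil (hS : Std m K N) (hF : LipB F) (hε : 0 < ε) {u v : Lp ℝ 2 (mW m F ε)}
    (hu : Sobolev m (u : X → ℝ)) (hv : Sobolev m (v : X → ℝ)) :
    bil (QW m F ε) u v = ε * wr_fm m F ε u v := by
  have ha : ((u + v : Lp ℝ 2 (mW m F ε)) : X → ℝ) =ᵐ[m] fun x => u x + v x := wr_coe_add hF u v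
  have hb : ((u - v : Lp ℝ 2 (mW m F ε)) : X → ℝ) =ᵐ[m] fun x => u x - v x := wr_coe_sub hF u v
  have hsa : Sobolev m ((u + v : Lp ℝ 2 (mW m F ε)) : X → ℝ) :=
    (wr_sobolev_congr ha).2 (wr_n_sobolev_add hS hu hv)
  have hsb : Sobolev m ((u - v : Lp ℝ 2 (mW m F ε)) : X → ℝ) :=
    (wr_sobolev_congr hb).2 (wr_n_sobolev_sub hS hu hv)
  unfold bil
  rw [wr_QW_toReal hε hsa, wr_QW_toReal hε hsb, wr_en_congr F ε ha, wr_en_congr F ε hb,
    wr_fm_eq hS hF hε hu hv]
  ring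

end Claimed.Agent.R210.WR.Form
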