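/-
Row 210, layer WR, block WR2 (sub-architect helper898): the generator of `QW m F ε` is `L = ε Δ + Γ(F,·)`.
Contract: `git show origin/helper928:docs/R210_partZ.md`, section WR.
-/
import Claimed.Agent.R210.WR.Form

set_option autoImplicit false

open Claims.C0366 Claims.C0366.WeakHessian
open Set Filter MeasureTheory
open scoped ENNReal NNReal Topology RealInnerProductSpace
open Claimed.Agent.R210.Defs Claimed.Agent.R210.Defs2 Claimed.Agent.R210.HS.Defs
open Claimed.Agent.R210.WR.Needs Claimed.Agent.R210.WR.Wt Claimed.Agent.R210.WR.Calc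
open Claimed.Agent.R210.WR.Form

namespace Claimed.Agent.R210.WR.Gen

variable {X : Type*} [MetricSpace X] [MeasurableSpace X] [BorelSpace X] [CompleteSpace X]
  [TopologicalSpace.SeparableSpace X] [ProperSpace X] {m : Measure X} {K N : ℝ}
  {F : X → ℝ} {ε : ℝ}

/-- **weighted integration by parts** `ε ∫ Γ(u,v) e = - ∫ (L u) v e` for `u ∈ D(Δ)`, `v` Sobolev.
Proof: `v e` is Sobolev (`wr_sobolev_mul_wt`), so `∫ Γ(u, v e) = - ∫ Δu · v e` (`wr_laplacian_spec`);
`Γ(u, v e) = e Γ(u,v) + (v e/ε) Γ(u,F)` (`wr_gamma_mul_wt`), `Γ(u,F) = Γ(F,u)` (`wr_n_gamma_comm`).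
Integrability: `wr_fm_integrable`, `wr_integrable_mul_mul_wt` with `wr_gamma_lip_memLp`. -/
theorem wr_ibp (hS : Std m K N) (hF : LipB F) (hε : 0 < ε) {u v : X → ℝ}
    (hu : InLaplacianDomain m u) (hv : Sobolev m v) :
    ε * wr_fm m F ε u v = -∫ x, opL m F ε u x * v x * wt F ε x ∂m := by
  have hus : Sobolev m u := wr_dom_sobolev hu
  have hve : Sobolev m (fun y => v y * wt F ε y) := wr_sobolev_mul_wt hS hε hv hF
  have h1 := (wr_laplacian_spec hu).2.2 _ hve
  have h2 := wr_gamma_mul_wt hS hε (wr_sobolev_local hus) (wr_sobolev_local hv) hF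
  have h3 := wr_n_gamma_comm hS (wr_sobolev_local hus) (wr_n_lipB_local hS hF)
  have I1 : Integrable (fun x => gamma m u v x * wt F ε x) m := wr_fm_integrable hS hF hε hus hv
  have I2 : Integrable (fun x => gamma m F u x * v x * wt F ε x) m :=
    wr_integrable_mul_mul_wt hF hε (wr_gamma_lip_memLp hS hF hus) (wr_sobolev_memLp hv)
  have I3 : Integrable (fun x => laplacian m u x * v x * wt F ε x) m :=
    wr_integrable_mul_mul_wt hF hε (wr_laplacian_memLp hu) (wr_sobolev_memLp hv)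
  have e1 : ∫ x, gamma m u (fun y => v y * wt F ε y) x ∂m
      = wr_fm m F ε u v + ε⁻¹ * ∫ x, gamma m F u x * v x * wt F ε x ∂m := by
    unfold wr_fm
    rw [← integral_const_mul, ← integral_add I1 (I2.const_mul _)]
    refine integral_congr_ae ?_
    filter_upwards [h2, h3] with x hx2 hx3
    rw [hx2, hx3]
    ring
  have e2 : ∫ x, laplacian m u x * (v x * wt F ε x) ∂m
      = ∫ x, laplacian m u x * v x * wt F ε x ∂m := by
    refine integral_congr_ae (Eventually.of_forall fun x => ?_)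
    simp only
    ring
  have e3 : ∫ x, opL m F ε u x * v x * wt F ε x ∂m
      = ε * ∫ x, laplacian m u x * v x * wt F ε x ∂m + ∫ x, gamma m F u x * v x * wt F ε x ∂m := by
    rw [← integral_const_mul, ← integral_add (I3.const_mul _) I2]
    refine integral_congr_ae (Eventually.of_forall fun x => ?_)
    simp only [opL]
    ring
  rw [e1, e2] at h1
  rw [e3]
  have h4 : ε * (wr_fm m F ε u v + ε⁻¹ * ∫ x, gamma m F u x * v x * wt F ε x ∂m)
      = ε * -∫ x, laplacian m u x * v x * wt F ε x ∂m := by rw [h1]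
  rw [mul_add, ← mul_assoc, mul_inv_cancel₀ hε.ne', one_mul] at h4
  linarith

/-- converse: if `ε ∫ Γ(u,v) e = - ∫ w v e` for all Sobolev `v` then `Δ u = (w - Γ(F,u))/ε`.
Proof: test with `v / e = v * wt (-F) ε` (Sobolev), use `wr_gamma_mul_wt_neg`, `wr_wt_mul_neg`. -/
theorem wr_lap_of_weak (hS : Std m K N) (hF : LipB F) (hε : 0 < ε) {u w : X → ℝ}
    (hu : Sobolev m u) (hw : MemLp w 2 m)
    (h : ∀ v : X → ℝ, Sobolev m v → ε * wr_fm m F ε u v = -∫ x, w x * v x * wt F ε x ∂m) :
    IsLaplacian m u (fun x => (w x - gamma m F u x) / ε) := by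
  have hFl : LocalSobolev m F := wr_n_lipB_local hS hF
  have hγ : MemLp (gamma m F u) 2 m := wr_gamma_lip_memLp hS hF hu
  have hγ' : MemLp (gamma m u F) 2 m := wr_gamma_lip_memLp' hS hF hu
  refine ⟨hu, ?_, fun v hv => ?_⟩
  · have h1 := (hw.sub hγ).const_mul ε⁻¹
    have e : (fun x => (w x - gamma m F u x) / ε) = fun x => ε⁻¹ * (w - gamma m F u) x := by
      funext x
      simp [div_eq_inv_mul]
    rw [e]
    exact h1
  · have hv' : Sobolev m (fun y => v y * wt (fun z => -F z) ε y) :=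
      wr_sobolev_mul_wt hS hε hv (wr_neg_lipB hF)
    have h1 := h _ hv'
    have e1 : wr_fm m F ε u (fun y => v y * wt (fun z => -F z) ε y)
        = ∫ x, (gamma m u v x - v x / ε * gamma m u F x) ∂m := by
      unfold wr_fm
      exact integral_congr_ae (wr_gamma_mul_wt_neg hS hε hu.2.1 hv.2.1 hF)
    have e2 : (∫ x, w x * (v x * wt (fun z => -F z) ε x) * wt F ε x ∂m) = ∫ x, w x * v x ∂m := by
      refine integral_congr_ae (Eventually.of_forall fun x => ?_)
      have h2 := wr_wt_mul_neg F ε x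
      show w x * (v x * wt (fun z => -F z) ε x) * wt F ε x = w x * v x
      calc w x * (v x * wt (fun z => -F z) ε x) * wt F ε x
          = w x * v x * (wt F ε x * wt (fun y => -F y) ε x) := by ring
        _ = w x * v x := by rw [h2, mul_one]
    have i1 : Integrable (gamma m u v) m := wr_gamma_integrable hS hu hv
    have i2 : Integrable (fun x => v x * gamma m u F x) m := hv.1.integrable_mul hγ'
    have i3 : Integrable (fun x => w x * v x) m := hw.integrable_mul hv.1
    have e3 : (∫ x, (gamma m u v x - v x / ε * gamma m u F x) ∂m)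
        = (∫ x, gamma m u v x ∂m) - ε⁻¹ * ∫ x, v x * gamma m u F x ∂m := by
      rw [← integral_const_mul, ← integral_sub i1 (i2.const_mul _)]
      refine integral_congr_ae (Eventually.of_forall fun x => ?_)
      show gamma m u v x - v x / ε * gamma m u F x = gamma m u v x - ε⁻¹ * (v x * gamma m u F x)
      ring
    have e4 : (∫ x, (w x - gamma m F u x) / ε * v x ∂m)
        = ε⁻¹ * ((∫ x, w x * v x ∂m) - ∫ x, v x * gamma m u F x ∂m) := by
      rw [← integral_sub i3 i2, ← integral_const_mul]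
      refine integral_congr_ae ?_
      filter_upwards [wr_n_gamma_comm hS hFl hu.2.1] with x hx
      rw [hx]
      ring
    rw [e1, e2, e3] at h1
    rw [e4]
    have hε' : ε ≠ 0 := hε.ne'
    have h3 : ε * ((∫ x, gamma m u v x ∂m) - ε⁻¹ * ∫ x, v x * gamma m u F x ∂m)
        = ε * (∫ x, gamma m u v x ∂m) - ∫ x, v x * gamma m u F x ∂m := by
      field_simp
    rw [h3] at h1
    have h4 : (∫ x, gamma m u v x ∂m)
        = ε⁻¹ * (ε * (∫ x, gamma m u v x ∂m)) := by field_simp
    rw [h4]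
    have h5 : ε * (∫ x, gamma m u v x ∂m)
        = -((∫ x, w x * v x ∂m) - ∫ x, v x * gamma m u F x ∂m) := by linarith
    rw [h5]
    ring

/-- `IsGen` in terms of functions: unfold `IsGen`, use `wr_QW_lt_top_iff`, `wr_bil`, `wr_inner`; every Sobolev
function `v` is a.e. equal to the class `wr_toLp .. v` (`wr_coe_toLp`, `wr_sobolev_congr`, `wr_fm_congr`). -/
theorem wr_isGen_iff_weak (hS : Std m K N) (hF : LipB F) (hε : 0 < ε) (u w : Lp ℝ 2 (mW m F ε)) :
    IsGen (QW m F ε) u w ↔ Sobolev m (u : X → ℝ) ∧ ∀ v : X → ℝ, Sobolev m v →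
      ε * wr_fm m F ε u v = -∫ x, w x * v x * wt F ε x ∂m := by
  constructor
  · rintro ⟨h1, h2⟩
    have hu : Sobolev m (u : X → ℝ) := (wr_QW_lt_top_iff u).1 h1
    refine ⟨hu, fun v hv => ?_⟩
    have hv' : (wr_toLp hF hε hv.1 : X → ℝ) =ᵐ[m] v := wr_coe_toLp hF hε hv.1
    have hs' : Sobolev m (wr_toLp hF hε hv.1 : X → ℝ) := (wr_sobolev_congr hv').2 hv
    have h3 := h2 (wr_toLp hF hε hv.1) ((wr_QW_lt_top_iff _).2 hs')
    rw [wr_bil hS hF hε hu hs', wr_inner hF,
      wr_fm_congr F ε (EventuallyEq.refl _ (u : X → ℝ)) hv'] at h3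
    rw [h3]
    congr 1
    refine integral_congr_ae ?_
    filter_upwards [hv'] with x hx
    rw [hx]
  · rintro ⟨hu, h⟩
    refine ⟨(wr_QW_lt_top_iff u).2 hu, fun v hv => ?_⟩
    have hs : Sobolev m (v : X → ℝ) := (wr_QW_lt_top_iff v).1 hv
    rw [wr_bil hS hF hε hu hs, wr_inner hF, h v hs]

/-- **WR2**. -/
theorem wr_isGen_iff (hS : Std m K N) (hF : LipB F) (hε : 0 < ε) (u w : Lp ℝ 2 (mW m F ε)) :
    IsGen (QW m F ε) u w ↔
      InLaplacianDomain m (u : X → ℝ) ∧ (w : X → ℝ) =ᵐ[m] opL m F ε (u : X → ℝ) := by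
  rw [wr_isGen_iff_weak hS hF hε]
  constructor
  · rintro ⟨hu, h⟩
    have hl := wr_lap_of_weak hS hF hε hu (wr_coe_memLp hF hε w) h
    refine ⟨⟨_, hl⟩, ?_⟩
    filter_upwards [wr_laplacian_eq hS hl] with x hx
    unfold opL
    rw [hx]
    field_simp
    ring
  · rintro ⟨hdom, hw⟩
    refine ⟨wr_dom_sobolev hdom, fun v hv => ?_⟩
    rw [wr_ibp hS hF hε hdom hv]
    congr 1
    refine integral_congr_ae ?_
    filter_upwards [hw] with x hx
    rw [hx]

end Claimed.Agent.R210.WR.Gen
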