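/-
Row 210 (S0432), layer WR, architect helper424.   File `Step` (WR7): the ONE STEP gradient inequality
  `∫|D Ju|² h e ≤ ∫|Du|² (Jh) e + 2δ∫(G - εK)|D Ju|² (Jh) e`      (`J = resW m F ε δ`, `u` Sobolev, `h ∈ L²`, `0 ≤ h ≤ M`),
for `δ` such that `J` is regularising (`wr_Reg m F ε δ A`, true for `δ ≤ c₀ ε` by `wr_reg`).
Proof: `g = Ju`, `η` = Lipschitz representative of `Jh`, `w = (g - u)/δ = Lg` (Sobolev), `Lη = (η - h)/δ` (bounded).
 (s1) `∫η(Lg)²e + ε∫Γ(η,g)(Lg)e = -ε∫ηΓ(g,w)e`     (`wr_ibp` with the test function `w η`, Leibniz);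
 WR6/ε: `∫(εK - G)|Dg|²ηe ≤ ½∫|Dg|²(Lη)e - ∫ηΓ(g,w)e`;
 (s2) `|Du|² = |D(g - δw)|² ≥ |Dg|² - 2δΓ(g,w)`;   (s4) `δ∫|Dg|²(Lη)e = ∫|Dg|²ηe - ∫|Dg|²he`.
Toolbox: `GC/Ifc` (`gc_*`), `WR/Base` (`wr_*`), `WR/Ext`.  All black boxes.
-/
import Claimed.Agent.R210.WR.Ext

set_option autoImplicit false
set_option linter.unusedSectionVars false

open Claims.C0366 Claims.C0366.WeakHessian
open Claimed.Agent.R210.Defs Claimed.Agent.R210.Defs2
open Claimed.Agent.R210.GC.Defs Claimed.Agent.R210.GC.WG Claimed.Agent.R210.GC.Gam Claimed.Agent.R210.GC.Conv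
open Claimed.Agent.R210.GC.Lap Claimed.Agent.R210.TF.Ifc Claimed.Agent.R210.WR.Base Claimed.Agent.R210.WR.G2
open Claimed.Agent.R210.WR.Ext
open Set Filter MeasureTheory
open scoped ENNReal NNReal Topology

namespace Claimed.Agent.R210.WR.Step

variable {X : Type*} [MetricSpace X] [MeasurableSpace X] [BorelSpace X] [CompleteSpace X]
  [TopologicalSpace.SeparableSpace X] [ProperSpace X] {m : Measure X} {K N : ℝ} {F G : X → ℝ} {ε δ : ℝ}

/-! ### integrability -/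

/-- `|Dg|² w e ∈ L¹` for `g` Sobolev and `w` a.e. bounded (`wr_en_integrable`, `Integrable.mul_bdd`-type lemma / `Integrable.mono'`). -/
theorem wr_step_int_wg (hF : LipB F) (hε : 0 < ε) {g w : X → ℝ} {B : ℝ} (hg : Sobolev m g)
    (hw : AEStronglyMeasurable w m) (hB : AEBdd m w B) :
    Integrable (fun x => weakGradient m g x ^ 2 * w x * wt F ε x) m := by
  have h := (wr_en_integrable hF hε hg).mul_bdd (c := B) hw
    (hB.mono fun x hx => by rwa [Real.norm_eq_abs])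
  refine h.congr (Eventually.of_forall fun x => ?_)
  simp only []
  ring

/-- `η Γ(g,w) e ∈ L¹` for `g, w` Sobolev and `η` bounded Lipschitz (`wr_fm_integrable`). -/
theorem wr_step_int_gamma (hS : Std m K N) (hF : LipB F) (hε : 0 < ε) {g w η : X → ℝ} (hg : Sobolev m g)
    (hw : Sobolev m w) (hη : LipB η) :
    Integrable (fun x => η x * gamma m g w x * wt F ε x) m := by
  obtain ⟨B, hB⟩ := hη.2
  have h := (wr_fm_integrable hS hF hε hg hw).mul_bdd (c := B)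
    (wr_lipB_continuous hη).aestronglyMeasurable
    (Eventually.of_forall fun x => by rw [Real.norm_eq_abs]; exact hB x)
  refine h.congr (Eventually.of_forall fun x => ?_)
  simp only []
  ring

/-! ### the steps -/

/-- (s1).  `wr_ibp` with `u := g`, `v := fun x => w x * η x` (Sobolev: `gc_sob_mul_lipB`):  `ε∫Γ(g, wη)e = -∫(Lg)(wη)e`.
`gc_gamma_mul_right`: `Γ(g, wη) = wΓ(g,η) + ηΓ(g,w)`; `gc_gamma_comm`: `Γ(g,η) = Γ(η,g)`; `Lg = w` a.e. -/
theorem wr_step_ibp (hS : Std m K N) (hF : LipB F) (hε : 0 < ε) {g w η : X → ℝ} (hg : InLaplacianDomain m g)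
    (hw : Sobolev m w) (hLg : opL m F ε g =ᵐ[m] w) (hη : LipB η) :
    ∫ x, η x * opL m F ε g x ^ 2 * wt F ε x ∂m + ε * ∫ x, gamma m η g x * opL m F ε g x * wt F ε x ∂m =
      -(ε * ∫ x, η x * gamma m g w x * wt F ε x ∂m) := by
  have hgS : Sobolev m g := wr_dom_sobolev hg
  have hv : Sobolev m (fun x => w x * η x) := gc_sob_mul_lipB hS.finite hw hη
  have hηL : LocalSobolev m η := gc_ls_of_lipLoc hS.finite (gc_lipLoc_of_lip hη.1)
  have e0 := wr_ibp hS hF hε hg hv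
  have I1 : Integrable (fun x => gamma m η g x * opL m F ε g x * wt F ε x) m :=
    wr_integrable_mul_mul_wt hF hε (wr_gamma_lip_memLp hS hη hgS) (wr_opL_memLp hS hF ε hg)
  have I2 := wr_step_int_gamma hS hF hε hgS hw hη
  have e1 : wr_fm m F ε g (fun x => w x * η x) =
      ∫ x, gamma m η g x * opL m F ε g x * wt F ε x ∂m + ∫ x, η x * gamma m g w x * wt F ε x ∂m := by
    rw [← integral_add I1 I2]
    unfold wr_fm
    refine integral_congr_ae ?_
    filter_upwards [gc_gamma_mul_right hS (gc_ls_of_sob hw) hηL (gc_ls_of_sob hv) (gc_ls_of_sob hgS),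
      gc_gamma_comm hS.finite (gc_ls_of_sob hgS) hηL, hLg] with x h1 h2 h3
    rw [h1, h2, h3]
    ring
  have e2 : ∫ x, opL m F ε g x * (w x * η x) * wt F ε x ∂m = ∫ x, η x * opL m F ε g x ^ 2 * wt F ε x ∂m := by
    refine integral_congr_ae ?_
    filter_upwards [hLg] with x h3
    rw [h3]
    ring
  rw [e1, e2] at e0
  linarith

/-- (s2).  `u = g - δ w` ⟹ `|Dg|² - 2δΓ(g,w) ≤ |Du|²` a.e.  (`gc_wg_sub_sq` for `g` and `δ w`, `gc_gamma_const_mul_right`, `sq_nonneg`). -/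
theorem wr_step_sq (hS : Std m K N) (δ : ℝ) {g w : X → ℝ} (hg : LocalSobolev m g) (hw : LocalSobolev m w) :
    ∀ᵐ x ∂m, weakGradient m g x ^ 2 - 2 * δ * gamma m g w x ≤
      weakGradient m (fun y => g y - δ * w y) x ^ 2 := by
  filter_upwards [gc_wg_sub_sq hS hg (gc_ls_const_mul hS.finite δ hw),
    gc_gamma_const_mul_right hS δ hg hw] with x h1 h2
  rw [h1, h2]
  nlinarith [sq_nonneg (weakGradient m (fun y => δ * w y) x)]

/-- (s3) integrated form of (s2) against the weight `η e ≥ 0`. -/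
theorem wr_step_mono (hS : Std m K N) (hF : LipB F) (hε : 0 < ε) (δ : ℝ) {g w η : X → ℝ} (hg : Sobolev m g)
    (hw : Sobolev m w) (hη : LipB η) (hη0 : ∀ x, 0 ≤ η x) :
    ∫ x, weakGradient m g x ^ 2 * η x * wt F ε x ∂m - 2 * δ * ∫ x, η x * gamma m g w x * wt F ε x ∂m ≤
      ∫ x, weakGradient m (fun y => g y - δ * w y) x ^ 2 * η x * wt F ε x ∂m := by
  obtain ⟨B, hB⟩ := hη.2
  obtain ⟨L, hL⟩ := hη.1
  have hηm : AEStronglyMeasurable η m := hL.continuous.aestronglyMeasurable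
  have hηB : AEBdd m η B := Eventually.of_forall hB
  have hu : Sobolev m (fun y => g y - δ * w y) := gc_sob_sub hS.finite hg (gc_sob_const_mul hS.finite δ hw)
  have i1 := wr_step_int_wg hF hε hg hηm hηB
  have i2 := wr_step_int_gamma hS hF hε hg hw hη
  have i3 := wr_step_int_wg hF hε hu hηm hηB
  rw [← integral_const_mul, ← integral_sub i1 (i2.const_mul _)]
  refine integral_mono_ae (i1.sub (i2.const_mul _)) i3 ?_
  filter_upwards [wr_step_sq hS δ hg.2.1 hw.2.1] with x hx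
  have hp : 0 ≤ η x * wt F ε x := mul_nonneg (hη0 x) (wr_wt_pos F ε x).le
  have := mul_le_mul_of_nonneg_right hx hp
  calc weakGradient m g x ^ 2 * η x * wt F ε x - 2 * δ * (η x * gamma m g w x * wt F ε x)
      = (weakGradient m g x ^ 2 - 2 * δ * gamma m g w x) * (η x * wt F ε x) := by ring
    _ ≤ weakGradient m (fun y => g y - δ * w y) x ^ 2 * (η x * wt F ε x) := this
    _ = weakGradient m (fun y => g y - δ * w y) x ^ 2 * η x * wt F ε x := by ring

/-- (s4).  `Lη = (η - h)/δ` a.e. ⟹ `δ∫|Dg|²(Lη)e = ∫|Dg|²ηe - ∫|Dg|²he`. -/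
theorem wr_step_split (hF : LipB F) (hε : 0 < ε) (hδ : 0 < δ) {g η h : X → ℝ} {B : ℝ} (hg : Sobolev m g)
    (hη : LipB η) (hh : AEStronglyMeasurable h m) (hB : AEBdd m h B)
    (hLη : ∀ᵐ x ∂m, opL m F ε η x = (η x - h x) / δ) :
    δ * ∫ x, weakGradient m g x ^ 2 * opL m F ε η x * wt F ε x ∂m =
      ∫ x, weakGradient m g x ^ 2 * η x * wt F ε x ∂m - ∫ x, weakGradient m g x ^ 2 * h x * wt F ε x ∂m := by
  obtain ⟨⟨L, hL⟩, ⟨Bη, hBη⟩⟩ := hη
  have i1 : Integrable (fun x => weakGradient m g x ^ 2 * η x * wt F ε x) m :=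
    wr_step_int_wg hF hε hg hL.continuous.aestronglyMeasurable (B := Bη)
      (Filter.Eventually.of_forall hBη)
  have i2 : Integrable (fun x => weakGradient m g x ^ 2 * h x * wt F ε x) m :=
    wr_step_int_wg hF hε hg hh hB
  rw [← integral_sub i1 i2, ← integral_const_mul]
  refine integral_congr_ae ?_
  filter_upwards [hLη] with x hx
  rw [hx]
  field_simp

/-- sign. -/
theorem wr_step_neg (K : ℝ) (F G : X → ℝ) (ε : ℝ) (g η : X → ℝ) :
    ∫ x, (G x - ε * K) * weakGradient m g x ^ 2 * η x * wt F ε x ∂m =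
      -∫ x, (ε * K - G x) * weakGradient m g x ^ 2 * η x * wt F ε x ∂m := by
  rw [← integral_neg]
  congr 1
  funext x
  ring

/-- **core of WR7**, no resolvent: `g ∈ D(Δ)`, `w` Sobolev, `Lg = w`; `η` bounded Lipschitz `≥ 0` in `D(Δ)`, `Lη = (η - h)/δ` bounded. -/
theorem wr_step_core (hS : Std m K N) (hF : LipB F) (hG : BoundedFunction G) (hGc : Continuous G)
    (hH : WeakHessianUpperBound m F G) (hε : 0 < ε) (hδ : 0 < δ) {g w η h : X → ℝ} {B M' : ℝ}
    (hg : InLaplacianDomain m g) (hw : Sobolev m w) (hLg : opL m F ε g =ᵐ[m] w)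
    (hη : LipB η) (hη0 : ∀ x, 0 ≤ η x) (hηd : InLaplacianDomain m η)
    (hh : AEStronglyMeasurable h m) (hB : AEBdd m h B)
    (hLη : ∀ᵐ x ∂m, opL m F ε η x = (η x - h x) / δ) (hηL : AEBdd m (opL m F ε η) M') :
    ∫ x, weakGradient m g x ^ 2 * h x * wt F ε x ∂m ≤
      ∫ x, weakGradient m (fun y => g y - δ * w y) x ^ 2 * η x * wt F ε x ∂m +
        2 * δ * ∫ x, (G x - ε * K) * weakGradient m g x ^ 2 * η x * wt F ε x ∂m := by
  have hgS : Sobolev m g := wr_dom_sobolev hg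
  have e6 := wr_ext hS hF hG hGc hH hε hη hη0 hηd hηL hg
  have e1 := wr_step_ibp hS hF hε hg hw hLg hη
  have e3 := wr_step_mono hS hF hε δ hgS hw hη hη0
  have e4 := wr_step_split hF hε hδ hgS hη hh hB hLη
  rw [wr_step_neg]
  set A := ∫ x, (ε * K - G x) * weakGradient m g x ^ 2 * η x * wt F ε x ∂m
  set P := ∫ x, weakGradient m g x ^ 2 * opL m F ε η x * wt F ε x ∂m
  set C := ∫ x, η x * gamma m g w x * wt F ε x ∂m
  have e7 : ε * A ≤ ε * (P / 2 - C) := by linarith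
  have e8 : A ≤ P / 2 - C := le_of_mul_le_mul_left e7 hε
  have e9 : δ * A ≤ δ * (P / 2 - C) := mul_le_mul_of_nonneg_left e8 hδ.le
  linarith

/-- **WR7**, the one step inequality. -/
theorem wr_one_step (hS : Std m K N) (hF : LipB F) (hG : BoundedFunction G) (hGc : Continuous G)
    (hH : WeakHessianUpperBound m F G) (hε : 0 < ε) (hδ : 0 < δ) {A : ℝ≥0} (hreg : wr_Reg m F ε δ A)
    {u h : X → ℝ} {M : ℝ} (hu : Sobolev m u) (hh : MemLp h 2 m) (h0 : ∀ᵐ x ∂m, 0 ≤ h x)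
    (hM : ∀ᵐ x ∂m, h x ≤ M) :
    ∫ x, weakGradient m (resW m F ε δ u) x ^ 2 * h x * wt F ε x ∂m ≤
      ∫ x, weakGradient m u x ^ 2 * resW m F ε δ h x * wt F ε x ∂m +
        2 * δ * ∫ x, (G x - ε * K) * weakGradient m (resW m F ε δ u) x ^ 2 * resW m F ε δ h x * wt F ε x ∂m := by
  have habs : ∀ᵐ x ∂m, |h x| ≤ ((Real.toNNReal M : ℝ≥0) : ℝ) := by
    filter_upwards [h0, hM] with x a b
    rw [abs_of_nonneg a]
    exact b.trans (Real.le_coe_toNNReal M)
  obtain ⟨η, hηlip, hηM, hηae, hηnn⟩ := hreg h (Real.toNNReal M) hh habs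
  have hη0 := hηnn h0
  have hηB : LipB η := ⟨⟨_, hηlip⟩, ⟨_, hηM⟩⟩
  have hg : InLaplacianDomain m (resW m F ε δ u) := wr_res_dom hS hF hε hδ hu.1
  have hw : Sobolev m (fun x => (resW m F ε δ u x - u x) / δ) := by
    have h1 := gc_sob_const_mul hS.finite (1 / δ) (gc_sob_sub hS.finite (wr_dom_sobolev hg) hu)
    have h2 : (fun x => 1 / δ * (resW m F ε δ u x - u x)) = fun x => (resW m F ε δ u x - u x) / δ := by
      funext x
      ring
    rwa [h2] at h1
  have hLg : opL m F ε (resW m F ε δ u) =ᵐ[m] fun x => (resW m F ε δ u x - u x) / δ :=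
    wr_res_opL hS hF hε hδ hu.1
  have hηd : InLaplacianDomain m η :=
    (wr_inLaplacianDomain_congr hηae).2 (wr_res_dom hS hF hε hδ hh)
  have hopL : opL m F ε η = opL m F ε (resW m F ε δ h) := wr_opL_congr F ε hηae
  have hLη : ∀ᵐ x ∂m, opL m F ε η x = (η x - h x) / δ := by
    rw [hopL]
    filter_upwards [wr_res_opL hS hF hε hδ hh, hηae] with x a b
    rw [a, b]
  have hηL : AEBdd m (opL m F ε η) (2 * ((Real.toNNReal M : ℝ≥0) : ℝ) / δ) := by
    filter_upwards [hLη, habs] with x a b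
    rw [a, abs_div, abs_of_pos hδ]
    have h3 : |η x - h x| ≤ |η x| + |h x| := abs_sub _ _
    have h4 := hηM x
    gcongr
    linarith
  have core := wr_step_core hS hF hG hGc hH hε hδ hg hw hLg hηB hη0 hηd hh.1 habs hLη hηL
  have hu' : (fun y => resW m F ε δ u y - δ * ((resW m F ε δ u y - u y) / δ)) = u := by
    funext y
    field_simp
    ring
  rw [hu'] at core
  have c1 : ∫ x, weakGradient m u x ^ 2 * η x * wt F ε x ∂m =
      ∫ x, weakGradient m u x ^ 2 * resW m F ε δ h x * wt F ε x ∂m :=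
    integral_congr_ae (by filter_upwards [hηae] with x a; rw [a])
  have c2 : ∫ x, (G x - ε * K) * weakGradient m (resW m F ε δ u) x ^ 2 * η x * wt F ε x ∂m =
      ∫ x, (G x - ε * K) * weakGradient m (resW m F ε δ u) x ^ 2 * resW m F ε δ h x * wt F ε x ∂m :=
    integral_congr_ae (by filter_upwards [hηae] with x a; rw [a])
  rw [c1, c2] at core
  exact core

/-- **WR7** for all small `δ`: there is `c₀ > 0` depending only on `m, K, N, F`. -/
theorem wr_one_step_small (hS : Std m K N) (hF : LipB F) (hG : BoundedFunction G) (hGc : Continuous G)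
    (hH : WeakHessianUpperBound m F G) : ∃ c₀ : ℝ, 0 < c₀ ∧ ∀ ε δ : ℝ, 0 < ε → ε ≤ 1 → 0 < δ → δ ≤ c₀ * ε →
    ∀ (u h : X → ℝ) (M : ℝ), Sobolev m u → MemLp h 2 m → (∀ᵐ x ∂m, 0 ≤ h x) → (∀ᵐ x ∂m, h x ≤ M) →
    ∫ x, weakGradient m (resW m F ε δ u) x ^ 2 * h x * wt F ε x ∂m ≤
      ∫ x, weakGradient m u x ^ 2 * resW m F ε δ h x * wt F ε x ∂m +
        2 * δ * ∫ x, (G x - ε * K) * weakGradient m (resW m F ε δ u) x ^ 2 * resW m F ε δ h x * wt F ε x ∂m := by
  obtain ⟨c₀, hc₀, C, -, hreg⟩ := wr_reg hS hF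
  refine ⟨c₀, hc₀, fun ε δ hε hε1 hδ hδ0 u h M hu hh h0 hM => ?_⟩
  exact wr_one_step hS hF hG hGc hH hε hδ (hreg ε δ hε hε1 hδ hδ0) hu hh h0 hM

end Claimed.Agent.R210.WR.Step
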