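/-
Row 210 (S0432), layer WR, architect helper424.   File `Lim` (WR8): the pure-resolvent parts of the steps (S3), (S4), (S5), (S7) of layer MO
(`git show origin/helper928:docs/R210_partZ.md`, section MO).   `J_δ = resW m F ε δ`, `e = wt F ε`, `|Du| = weakGradient m u`,
`wr_fm m F ε u v = ∫Γ(u,v)e`, `wr_en m F ε u = ∫|Du|²e`.   Limits `δ ↓ 0` are along `𝓝[>] 0`.
Toolbox: `GC/Ifc` (`gc_*`, in particular GC/Conv.lean: `gc_int_mul_gamma_tendsto`, `gc_gamma_L1Lim`, `gc_W12Lim`), `WR/Base` (`wr_*`, map at the top of that file).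
All black boxes.
-/
import Claimed.Agent.R210.WR.Step

set_option autoImplicit false
set_option linter.unusedSectionVars false

open Claims.C0366 Claims.C0366.WeakHessian
open Claimed.Agent.R210.Defs Claimed.Agent.R210.Defs2
open Claimed.Agent.R210.GC.Defs Claimed.Agent.R210.GC.WG Claimed.Agent.R210.GC.Gam Claimed.Agent.R210.GC.Conv
open Claimed.Agent.R210.GC.Lap Claimed.Agent.R210.WR.Base Claimed.Agent.R210.WR.G2
open Claimed.Agent.R210.WR.Ext Claimed.Agent.R210.WR.Step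
open Set Filter MeasureTheory
open scoped ENNReal NNReal Topology

namespace Claimed.Agent.R210.WR.Lim

variable {X : Type*} [MetricSpace X] [MeasurableSpace X] [BorelSpace X] [CompleteSpace X]
  [TopologicalSpace.SeparableSpace X] [ProperSpace X] {m : Measure X} {K N : ℝ} {F : X → ℝ} {ε δ : ℝ}

/-- `J_δ f → f` in `W^{1,2}` as `δ ↓ 0` (`wr_res_tendsto`, `wr_res_tendsto_energy`). -/
theorem wr_lim_W12 (hS : Std m K N) (hF : LipB F) (hε : 0 < ε) {f : X → ℝ} (hf : Sobolev m f) :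
    gc_W12Lim m (𝓝[>] (0 : ℝ)) (fun δ => resW m F ε δ f) f :=
  ⟨wr_res_tendsto hS hF hε hf.1, wr_res_tendsto_energy hS hF hε hf⟩

/-- (S4) identity: `∫(Ju) f e - ∫u f e = -δ ε ∫Γ(Jf,u)e`   (`wr_res_symm`, then `wr_res_weak` with `v = u`). -/
theorem wr_lim_diff (hS : Std m K N) (hF : LipB F) (hε : 0 < ε) (hδ : 0 < δ) {u f : X → ℝ} (hu : Sobolev m u)
    (hf : MemLp f 2 m) :
    ∫ x, resW m F ε δ u x * f x * wt F ε x ∂m - ∫ x, u x * f x * wt F ε x ∂m =
      -(δ * (ε * wr_fm m F ε (resW m F ε δ f) u)) := by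
  have h1 := wr_res_symm hS hF hε hδ hu.1 hf
  have h2 := wr_res_weak hS hF hε hδ hf hu
  have e1 : ∫ x, u x * resW m F ε δ f x * wt F ε x ∂m = ∫ x, resW m F ε δ f x * u x * wt F ε x ∂m := by
    congr 1
    funext x
    ring
  have e2 : ∫ x, u x * f x * wt F ε x ∂m = ∫ x, f x * u x * wt F ε x ∂m := by
    congr 1
    funext x
    ring
  rw [h1, e1, e2]
  linarith

/-- (S4) limit: `∫Γ(J_δ f,u)e → ∫Γ(f,u)e`   (`gc_int_mul_gamma_tendsto` with the weight `e`, `wr_lim_W12`, constant second sequence;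
eventually in `𝓝[>] 0` one has `0 < δ`: `self_mem_nhdsWithin`, so `J_δ f` is Sobolev by `wr_res_sobolev`). -/
theorem wr_lim_fm (hS : Std m K N) (hF : LipB F) (hε : 0 < ε) {u f : X → ℝ} (hu : Sobolev m u)
    (hf : Sobolev m f) :
    Tendsto (fun δ => wr_fm m F ε (resW m F ε δ f) u) (𝓝[>] (0 : ℝ)) (𝓝 (wr_fm m F ε f u)) := by
  obtain ⟨B, hB⟩ := hF.2
  have e : ∀ a b : X → ℝ, wr_fm m F ε a b = ∫ x, wt F ε x * gamma m a b x ∂m := by
    intro a b
    unfold wr_fm
    congr 1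
    funext x
    ring
  have hconst : gc_W12Lim m (𝓝[>] (0 : ℝ)) (fun _ : ℝ => u) u := by
    constructor
    · unfold gc_L2Lim
      simp
    · have h0 : energy m (fun x => u x - u x) = 0 := by
        simp only [sub_self]
        unfold energy
        have : (fun x => weakGradient m (fun _ : X => (0 : ℝ)) x ^ 2) =ᵐ[m] fun _ => (0 : ℝ) := by
          filter_upwards [gc_wg_const hS.finite (0 : ℝ)] with x hx
          rw [hx]
          norm_num
        rw [integral_congr_ae this]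
        simp
      simp only [h0]
      exact tendsto_const_nhds
  have hfs : ∀ᶠ δ in 𝓝[>] (0 : ℝ), Sobolev m (resW m F ε δ f) := by
    filter_upwards [self_mem_nhdsWithin] with δ hδ
    exact wr_res_sobolev hS hF hε hδ hf.1
  have hb : AEBdd m (wt F ε) (Real.exp (B / ε)) := by
    refine Eventually.of_forall fun x => ?_
    rw [abs_of_pos (wr_wt_pos F ε x)]
    exact wr_wt_le hB hε x
  have key := gc_int_mul_gamma_tendsto hS hfs (Eventually.of_forall fun _ => hu) hf hu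
    (wr_lim_W12 hS hF hε hf) hconst
    (wr_wt_continuous (wr_lipB_continuous hF) ε).aestronglyMeasurable hb
  simp only [e]
  exact key

/-- (S4) combined: the derivative at `δ = 0`. -/
theorem wr_lim_quot (hS : Std m K N) (hF : LipB F) (hε : 0 < ε) {u f : X → ℝ} (hu : Sobolev m u)
    (hf : Sobolev m f) :
    Tendsto (fun δ => (∫ x, resW m F ε δ u x * f x * wt F ε x ∂m - ∫ x, u x * f x * wt F ε x ∂m) / δ)
      (𝓝[>] (0 : ℝ)) (𝓝 (-(ε * wr_fm m F ε f u))) := by
  have h1 := ((wr_lim_fm hS hF hε hu hf).const_mul ε).neg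
  refine h1.congr' ?_
  filter_upwards [self_mem_nhdsWithin] with δ hδ
  have hδ' : (0 : ℝ) < δ := hδ
  rw [wr_lim_diff hS hF hε hδ' hu hf.1]
  field_simp

/-- (S3) bound, uniform in `δ`: `|∫ w |D Ju|² (Jf) e| ≤ B M ∫|Du|²e`
(`|Jf| ≤ M` by `wr_res_abs_le`, `|w| ≤ B`, `wr_res_en_le`; `norm_integral_le_of_norm_le` / `integral_mono_ae` with `wr_en_integrable`). -/
theorem wr_lim_beta_bdd (hS : Std m K N) (hF : LipB F) (hε : 0 < ε) (hδ : 0 < δ) {u f w : X → ℝ} {B M : ℝ}
    (hu : Sobolev m u) (hf : MemLp f 2 m) (hM : AEBdd m f M) (hB : AEBdd m w B) :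
    |∫ x, w x * weakGradient m (resW m F ε δ u) x ^ 2 * resW m F ε δ f x * wt F ε x ∂m| ≤
      B * M * wr_en m F ε u := by
  rcases eq_or_ne m 0 with rfl | hm
  · simp [wr_en]
  have hne : (ae m).NeBot := ae_neBot.2 hm
  obtain ⟨x₀, hx1, hx2⟩ := (hB.and hM).exists
  have hB0 : 0 ≤ B := (abs_nonneg _).trans hx1
  have hM0 : 0 ≤ M := (abs_nonneg _).trans hx2
  have hJu := wr_res_sobolev (δ := δ) hS hF hε hδ hu.1
  have h1 : ‖∫ x, w x * weakGradient m (resW m F ε δ u) x ^ 2 * resW m F ε δ f x * wt F ε x ∂m‖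
      ≤ ∫ x, B * M * (weakGradient m (resW m F ε δ u) x ^ 2 * wt F ε x) ∂m := by
    refine norm_integral_le_of_norm_le ((wr_en_integrable hF hε hJu).const_mul (B * M)) ?_
    filter_upwards [hB, wr_res_abs_le (δ := δ) hS hF hε hδ hf hM] with x h2 h3
    rw [Real.norm_eq_abs, abs_mul, abs_mul, abs_mul, abs_of_pos (wr_wt_pos F ε x),
      abs_of_nonneg (sq_nonneg (weakGradient m (resW m F ε δ u) x))]
    calc |w x| * weakGradient m (resW m F ε δ u) x ^ 2 * |resW m F ε δ f x| * wt F ε x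
        = (|w x| * |resW m F ε δ f x|) * (weakGradient m (resW m F ε δ u) x ^ 2 * wt F ε x) := by ring
      _ ≤ B * M * (weakGradient m (resW m F ε δ u) x ^ 2 * wt F ε x) :=
          mul_le_mul_of_nonneg_right (mul_le_mul h2 h3 (abs_nonneg _) hB0)
            (mul_nonneg (sq_nonneg _) (wr_wt_pos F ε x).le)
  rw [Real.norm_eq_abs, integral_const_mul] at h1
  exact h1.trans (mul_le_mul_of_nonneg_left (wr_res_en_le hS hF hε hδ hu) (mul_nonneg hB0 hM0))

/-- `|D J_δ u|² → |Du|²` in `L¹` (`gc_gamma_L1Lim` with `fs = gs = J_δ u`, `gc_gamma_self`; `gc_L1Lim` is stated with `eLpNorm _ 1`;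
`eLpNorm_one_eq_lintegral_enorm`, `integral_norm_eq_lintegral_enorm` / `ofReal_integral_norm_eq_lintegral_enorm`). -/
theorem wr_lim_wg_L1 (hS : Std m K N) (hF : LipB F) (hε : 0 < ε) {u : X → ℝ} (hu : Sobolev m u) :
    Tendsto (fun δ => ∫ x, |weakGradient m (resW m F ε δ u) x ^ 2 - weakGradient m u x ^ 2| ∂m)
      (𝓝[>] (0 : ℝ)) (𝓝 0) := by
  have hev : ∀ᶠ δ in 𝓝[>] (0 : ℝ), Sobolev m (resW m F ε δ u) := by
    filter_upwards [self_mem_nhdsWithin] with δ hδ
    exact wr_res_sobolev hS hF hε hδ hu.1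
  have hW := wr_lim_W12 hS hF hε hu
  have h1 : Tendsto (fun δ => eLpNorm (fun x => gamma m (resW m F ε δ u) (resW m F ε δ u) x
      - gamma m u u x) 1 m) (𝓝[>] (0 : ℝ)) (𝓝 0) := gc_gamma_L1Lim hS hev hev hu hu hW hW
  have h2 := (ENNReal.tendsto_toReal ENNReal.zero_ne_top).comp h1
  rw [ENNReal.toReal_zero] at h2
  refine h2.congr' ?_
  filter_upwards [hev] with δ hδ
  have hi : Integrable (fun x => gamma m (resW m F ε δ u) (resW m F ε δ u) x - gamma m u u x) m :=
    (gc_gamma_integrable hS hδ hδ).sub (gc_gamma_integrable hS hu hu)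
  show (eLpNorm (fun x => gamma m (resW m F ε δ u) (resW m F ε δ u) x - gamma m u u x) 1 m).toReal = _
  rw [eLpNorm_one_eq_lintegral_enorm, ← integral_norm_eq_lintegral_enorm hi.aestronglyMeasurable]
  apply integral_congr_ae
  filter_upwards [gc_gamma_self hS.finite (gc_ls_of_sob hδ), gc_gamma_self hS.finite (gc_ls_of_sob hu)]
    with x h3 h4
  rw [h3, h4, Real.norm_eq_abs]

/-- `∫ ψ (J_δ f) → ∫ ψ f` for `ψ ∈ L²` (`wr_res_tendsto`; Cauchy-Schwarz). -/
theorem wr_lim_L2_pair (hS : Std m K N) (hF : LipB F) (hε : 0 < ε) {f ψ : X → ℝ} (hf : MemLp f 2 m)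
    (hψ : MemLp ψ 2 m) :
    Tendsto (fun δ => ∫ x, ψ x * resW m F ε δ f x ∂m) (𝓝[>] (0 : ℝ)) (𝓝 (∫ x, ψ x * f x ∂m)) := by
  have h := Claimed.Agent.R210.GC.Bridge.gc_L2Lim_integral_mul (l := 𝓝[>] (0 : ℝ))
    (fs := fun δ => resW m F ε δ f) (Filter.Eventually.of_forall fun δ => wr_res_memLp hF hε δ f) hf hψ
    (wr_res_tendsto hS hF hε hf)
  simpa only [mul_comm] using h

/-- (S5): `∫ w |D J_δ u|² (J_δ f) e → ∫ w |Du|² f e` as `δ ↓ 0`, for `w` bounded, `u` Sobolev with `|Du| ≤ L` a.e., `f ∈ L²` bounded.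
`∫w|DJu|²(Jf)e - ∫w|Du|²f e = ∫w(|DJu|² - |Du|²)(Jf)e + ∫(w|Du|²e)(Jf - f)`; the first is `≤ B M sup e · ‖|DJu|² - |Du|²‖₁ → 0`
(`wr_lim_wg_L1`, `wr_res_abs_le`), the second `→ 0` by `wr_lim_L2_pair` with `ψ = w|Du|²e ∈ L²` (`|Du|² ≤ L|Du|`). -/
theorem wr_lim_beta (hS : Std m K N) (hF : LipB F) (hε : 0 < ε) {u f w : X → ℝ} {B M L : ℝ}
    (hu : Sobolev m u) (hL : ∀ᵐ x ∂m, weakGradient m u x ≤ L) (hf : MemLp f 2 m) (hM : AEBdd m f M)
    (hw : AEStronglyMeasurable w m) (hB : AEBdd m w B) :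
    Tendsto (fun δ => ∫ x, w x * weakGradient m (resW m F ε δ u) x ^ 2 * resW m F ε δ f x * wt F ε x ∂m)
      (𝓝[>] (0 : ℝ)) (𝓝 (∫ x, w x * weakGradient m u x ^ 2 * f x * wt F ε x ∂m)) := by
  obtain ⟨BF, hBF⟩ := hF.2
  set E : ℝ := Real.exp (BF / ε) with hE
  have hwtE : ∀ x, wt F ε x ≤ E := fun x => wr_wt_le hBF hε x
  have hwt0 : ∀ x, 0 < wt F ε x := fun x => wr_wt_pos F ε x
  have hwtm : AEStronglyMeasurable (wt F ε) m :=
    (wr_wt_continuous (wr_lipB_continuous hF) ε).aestronglyMeasurable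
  have hgu : MemLp (weakGradient m u) 2 m := wr_wg_memLp hu
  -- the `L²` function `ψ`
  have hψm : AEStronglyMeasurable (fun x => w x * weakGradient m u x ^ 2 * wt F ε x) m :=
    (hw.mul (hgu.1.pow 2)).mul hwtm
  have hψ : MemLp (fun x => w x * weakGradient m u x ^ 2 * wt F ε x) 2 m := by
    refine MemLp.mono (hgu.const_mul (B * L * E)) hψm ?_
    filter_upwards [hB, hL, gc_wg_nonneg (m := m) u] with x h1 h2 h3
    have hB0 : 0 ≤ B := (abs_nonneg _).trans h1
    have hL0 : 0 ≤ L := h3.trans h2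
    have hE0 : 0 ≤ E := (hwt0 x).le.trans (hwtE x)
    rw [Real.norm_eq_abs, Real.norm_eq_abs, abs_mul, abs_mul, abs_mul, abs_mul, abs_mul,
      abs_of_pos (hwt0 x), abs_of_nonneg (sq_nonneg (weakGradient m u x)), abs_of_nonneg hB0, abs_of_nonneg hL0,
      abs_of_nonneg hE0, abs_of_nonneg h3]
    have e1 : weakGradient m u x ^ 2 ≤ L * weakGradient m u x := by nlinarith
    calc |w x| * weakGradient m u x ^ 2 * wt F ε x
        ≤ B * (L * weakGradient m u x) * E := by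
          apply mul_le_mul (mul_le_mul h1 e1 (sq_nonneg _) hB0) (hwtE x) (hwt0 x).le
          exact mul_nonneg hB0 (mul_nonneg hL0 h3)
      _ = B * L * E * weakGradient m u x := by ring
  have h2 := wr_lim_L2_pair hS hF hε hf hψ
  have h1 := (wr_lim_wg_L1 hS hF hε hu).const_mul (B * M * E)
  rw [mul_zero] at h1
  -- the first term
  have hT1 : Tendsto (fun δ => ∫ x, w x * (weakGradient m (resW m F ε δ u) x ^ 2 - weakGradient m u x ^ 2)
      * resW m F ε δ f x * wt F ε x ∂m) (𝓝[>] (0 : ℝ)) (𝓝 0) := by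
    refine squeeze_zero_norm' ?_ h1
    filter_upwards [self_mem_nhdsWithin] with δ hδ
    have hδ' : (0 : ℝ) < δ := hδ
    have hJu : Sobolev m (resW m F ε δ u) := wr_res_sobolev hS hF hε hδ' hu.1
    have hd : Integrable (fun x => weakGradient m (resW m F ε δ u) x ^ 2 - weakGradient m u x ^ 2) m :=
      (wr_wg_sq_integrable hJu).sub (wr_wg_sq_integrable hu)
    rw [← integral_const_mul]
    refine norm_integral_le_of_norm_le (hd.abs.const_mul _) ?_
    filter_upwards [hB, wr_res_abs_le hS hF hε hδ' hf hM] with x a1 a2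
    have hB0 : 0 ≤ B := (abs_nonneg _).trans a1
    have hM0 : 0 ≤ M := (abs_nonneg _).trans a2
    rw [Real.norm_eq_abs, abs_mul, abs_mul, abs_mul, abs_of_pos (hwt0 x)]
    calc |w x| * |weakGradient m (resW m F ε δ u) x ^ 2 - weakGradient m u x ^ 2| * |resW m F ε δ f x| * wt F ε x
        ≤ B * |weakGradient m (resW m F ε δ u) x ^ 2 - weakGradient m u x ^ 2| * M * E := by
          apply mul_le_mul _ (hwtE x) (hwt0 x).le
          · exact mul_nonneg (mul_nonneg hB0 (abs_nonneg _)) hM0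
          · apply mul_le_mul _ a2 (abs_nonneg _) (mul_nonneg hB0 (abs_nonneg _))
            exact mul_le_mul_of_nonneg_right a1 (abs_nonneg _)
      _ = B * M * E * |weakGradient m (resW m F ε δ u) x ^ 2 - weakGradient m u x ^ 2| := by ring
  have hsum := hT1.add h2
  rw [zero_add] at hsum
  have hlim : ∫ x, w x * weakGradient m u x ^ 2 * wt F ε x * f x ∂m
      = ∫ x, w x * weakGradient m u x ^ 2 * f x * wt F ε x ∂m := by
    refine integral_congr_ae (Eventually.of_forall fun x => ?_)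
    show _ = _
    ring
  rw [hlim] at hsum
  refine hsum.congr' ?_
  filter_upwards [self_mem_nhdsWithin] with δ hδ
  have hδ' : (0 : ℝ) < δ := hδ
  have hJu : Sobolev m (resW m F ε δ u) := wr_res_sobolev hS hF hε hδ' hu.1
  have hJf : MemLp (resW m F ε δ f) 2 m := wr_res_memLp hF hε δ f
  have hd : Integrable (fun x => weakGradient m (resW m F ε δ u) x ^ 2 - weakGradient m u x ^ 2) m :=
    (wr_wg_sq_integrable hJu).sub (wr_wg_sq_integrable hu)
  have hi2 : Integrable (fun x => w x * weakGradient m u x ^ 2 * wt F ε x * resW m F ε δ f x) m :=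
    hψ.integrable_mul hJf
  have hi1 : Integrable (fun x => w x * (weakGradient m (resW m F ε δ u) x ^ 2 - weakGradient m u x ^ 2)
      * resW m F ε δ f x * wt F ε x) m := by
    refine Integrable.mono' (hd.abs.const_mul (B * M * E)) ?_ ?_
    · exact ((hw.mul hd.1).mul hJf.1).mul hwtm
    · filter_upwards [hB, wr_res_abs_le hS hF hε hδ' hf hM] with x a1 a2
      have hB0 : 0 ≤ B := (abs_nonneg _).trans a1
      have hM0 : 0 ≤ M := (abs_nonneg _).trans a2
      rw [Real.norm_eq_abs, abs_mul, abs_mul, abs_mul, abs_of_pos (hwt0 x)]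
      calc |w x| * |weakGradient m (resW m F ε δ u) x ^ 2 - weakGradient m u x ^ 2| * |resW m F ε δ f x| * wt F ε x
          ≤ B * |weakGradient m (resW m F ε δ u) x ^ 2 - weakGradient m u x ^ 2| * M * E := by
            apply mul_le_mul _ (hwtE x) (hwt0 x).le
            · exact mul_nonneg (mul_nonneg hB0 (abs_nonneg _)) hM0
            · apply mul_le_mul _ a2 (abs_nonneg _) (mul_nonneg hB0 (abs_nonneg _))
              exact mul_le_mul_of_nonneg_right a1 (abs_nonneg _)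
        _ = B * M * E * |weakGradient m (resW m F ε δ u) x ^ 2 - weakGradient m u x ^ 2| := by ring
  rw [← integral_add hi1 hi2]
  refine integral_congr_ae (Eventually.of_forall fun x => ?_)
  show _ = _
  ring

/-- (S3) `J : L² → W^{1,2}` is continuous: `δ ε energy-type bound`.  `J u' - J u = J (u' - u)` a.e. (`wr_res_sub`, `wr_en_congr`), `wr_res_en_bound`. -/
theorem wr_lim_en_sub_le (hS : Std m K N) (hF : LipB F) (hε : 0 < ε) (hδ : 0 < δ) {u u' : X → ℝ}
    (hu : MemLp u 2 m) (hu' : MemLp u' 2 m) :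
    δ * ε * wr_en m F ε (fun x => resW m F ε δ u' x - resW m F ε δ u x) ≤
      ∫ x, (u' x - u x) ^ 2 * wt F ε x ∂m := by
  rw [← wr_en_congr F ε (wr_res_sub hS hF hε hδ hu' hu)]
  exact wr_res_en_bound hS hF hε hδ (hu'.sub hu)

/-- the `L²` seminorm of an `L²` function is the square root of the integral of the square. -/
theorem wr_lim_eLpNorm_two_eq {g : X → ℝ} (hg : MemLp g 2 m) :
    eLpNorm g 2 m = ENNReal.ofReal (Real.sqrt (∫ x, g x ^ 2 ∂m)) := by
  rw [hg.eLpNorm_eq_integral_rpow_norm (by norm_num) (by norm_num)]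
  congr 1
  rw [Real.sqrt_eq_rpow]
  congr 1
  · apply integral_congr_ae
    filter_upwards with x
    simp
  · norm_num

/-- `∫ g² e ≤ e^{B/ε} ∫ g²`. -/
theorem wr_lim_int_wt_le {B : ℝ} (hF : LipB F) (hB : ∀ x, |F x| ≤ B) (hε : 0 < ε) {g : X → ℝ}
    (hg : MemLp g 2 m) : ∫ x, g x ^ 2 * wt F ε x ∂m ≤ Real.exp (B / ε) * ∫ x, g x ^ 2 ∂m := by
  rw [← integral_const_mul]
  refine integral_mono (wr_integrable_mul_wt hF hε hg.integrable_sq) (hg.integrable_sq.const_mul _) ?_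
  intro x
  show g x ^ 2 * wt F ε x ≤ Real.exp (B / ε) * g x ^ 2
  rw [mul_comm]
  exact mul_le_mul_of_nonneg_right (wr_wt_le hB hε x) (sq_nonneg _)

/-- `e^{-B/ε} ∫ g² ≤ ∫ g² e`. -/
theorem wr_lim_int_le_wt {B : ℝ} (hF : LipB F) (hB : ∀ x, |F x| ≤ B) (hε : 0 < ε) {g : X → ℝ}
    (hg : MemLp g 2 m) : Real.exp (-(B / ε)) * ∫ x, g x ^ 2 ∂m ≤ ∫ x, g x ^ 2 * wt F ε x ∂m := by
  rw [← integral_const_mul]
  refine integral_mono (hg.integrable_sq.const_mul _) (wr_integrable_mul_wt hF hε hg.integrable_sq) ?_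
  intro x
  show Real.exp (-(B / ε)) * g x ^ 2 ≤ g x ^ 2 * wt F ε x
  rw [mul_comm]
  exact mul_le_mul_of_nonneg_left (wr_wt_ge hB hε x) (sq_nonneg _)

/-- (S3) consequence along a filter: `u i → u` in `L²` ⟹ `J u i → J u` in `W^{1,2}`
(`wr_lim_en_sub_le`, `wr_energy_le_en`, `wr_res_norm_le` for the `L²` part; `gc_L2Lim` is stated with `eLpNorm _ 2`). -/
theorem wr_lim_W12_cont (hS : Std m K N) (hF : LipB F) (hε : 0 < ε) (hδ : 0 < δ) {ι : Type*} {l : Filter ι}
    {us : ι → X → ℝ} {u : X → ℝ} (hus : ∀ᶠ i in l, MemLp (us i) 2 m) (hu : MemLp u 2 m)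
    (hlim : gc_L2Lim m l us u) :
    gc_W12Lim m l (fun i => resW m F ε δ (us i)) (resW m F ε δ u) := by
  obtain ⟨B, hB⟩ := hF.2
  -- the real sequence `A i = ∫ (us i - u)²` tends to `0`
  have hA : Tendsto (fun i => ∫ x, (us i x - u x) ^ 2 ∂m) l (𝓝 0) := by
    have h1 : Tendsto (fun i => (eLpNorm (fun x => us i x - u x) 2 m).toReal ^ 2) l (𝓝 0) := by
      have h2 := (ENNReal.tendsto_toReal ENNReal.zero_ne_top).comp hlim
      have h3 := h2.pow 2
      simpa using h3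
    refine h1.congr' ?_
    filter_upwards [hus] with i hi
    have e0 : eLpNorm (fun x => us i x - u x) 2 m
        = ENNReal.ofReal (Real.sqrt (∫ x, (us i x - u x) ^ 2 ∂m)) :=
      wr_lim_eLpNorm_two_eq (hi.sub hu)
    rw [e0, ENNReal.toReal_ofReal (Real.sqrt_nonneg _),
      Real.sq_sqrt (integral_nonneg fun x => sq_nonneg _)]
  have hJ : ∀ f : X → ℝ, MemLp (resW m F ε δ f) 2 m := fun f => wr_res_memLp hF hε δ f
  have hexp : Real.exp (B / ε) * Real.exp (-(B / ε)) = 1 := by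
    rw [← Real.exp_add]; simp
  constructor
  · -- the `L²` part
    have hD : Tendsto (fun i => ∫ x, (resW m F ε δ (us i) x - resW m F ε δ u x) ^ 2 ∂m) l (𝓝 0) := by
      have hup : Tendsto (fun i => Real.exp (B / ε) * (Real.exp (B / ε) * ∫ x, (us i x - u x) ^ 2 ∂m))
          l (𝓝 0) := by
        simpa using (hA.const_mul (Real.exp (B / ε))).const_mul (Real.exp (B / ε))
      refine tendsto_of_tendsto_of_tendsto_of_le_of_le' tendsto_const_nhds hup
        (Eventually.of_forall fun i => integral_nonneg fun x => sq_nonneg _) ?_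
      filter_upwards [hus] with i hi
      have h1 := wr_lim_int_le_wt hF hB hε ((hJ (us i)).sub (hJ u))
      have h2 : ∫ x, (resW m F ε δ (us i) x - resW m F ε δ u x) ^ 2 * wt F ε x ∂m
          = ∫ x, resW m F ε δ (fun x => us i x - u x) x ^ 2 * wt F ε x ∂m := by
        refine integral_congr_ae ?_
        filter_upwards [wr_res_sub hS hF hε hδ hi hu] with x hx
        rw [hx]
      have h3 := wr_res_norm_le hS hF hε hδ (hi.sub hu)
      have h4 := wr_lim_int_wt_le hF hB hε (hi.sub hu)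
      have h5 : Real.exp (-(B / ε)) * ∫ x, (resW m F ε δ (us i) x - resW m F ε δ u x) ^ 2 ∂m
          ≤ Real.exp (B / ε) * ∫ x, (us i x - u x) ^ 2 ∂m := by
        refine h1.trans ?_
        show ∫ x, (resW m F ε δ (us i) x - resW m F ε δ u x) ^ 2 * wt F ε x ∂m ≤ _
        rw [h2]
        exact h3.trans h4
      have h6 := mul_le_mul_of_nonneg_left h5 (Real.exp_pos (B / ε)).le
      rw [← mul_assoc, hexp, one_mul] at h6
      exact h6
    have hE : Tendsto (fun i => ENNReal.ofReal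
        (Real.sqrt (∫ x, (resW m F ε δ (us i) x - resW m F ε δ u x) ^ 2 ∂m))) l (𝓝 0) := by
      have h1 := (Real.continuous_sqrt.tendsto 0).comp hD
      rw [Real.sqrt_zero] at h1
      have h2 := (ENNReal.continuous_ofReal.tendsto 0).comp h1
      rw [ENNReal.ofReal_zero] at h2
      exact h2
    unfold gc_L2Lim
    refine hE.congr fun i => ?_
    exact (wr_lim_eLpNorm_two_eq ((hJ (us i)).sub (hJ u))).symm
  · -- the energy part
    have hup : Tendsto (fun i => Real.exp (B / ε) * ((δ * ε)⁻¹ *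
        (Real.exp (B / ε) * ∫ x, (us i x - u x) ^ 2 ∂m))) l (𝓝 0) := by
      simpa using ((hA.const_mul (Real.exp (B / ε))).const_mul ((δ * ε)⁻¹)).const_mul
        (Real.exp (B / ε))
    refine tendsto_of_tendsto_of_tendsto_of_le_of_le' tendsto_const_nhds hup
      (Eventually.of_forall fun i => integral_nonneg fun x => sq_nonneg _) ?_
    filter_upwards [hus] with i hi
    have hs : Sobolev m (fun x => resW m F ε δ (us i) x - resW m F ε δ u x) :=
      gc_sob_sub hS.finite (wr_res_sobolev hS hF hε hδ hi) (wr_res_sobolev hS hF hε hδ hu)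
    have h1 := wr_energy_le_en hF hB hε hs
    have h2 := wr_lim_en_sub_le hS hF hε hδ hu hi
    have h3 := wr_lim_int_wt_le hF hB hε (hi.sub hu)
    have hδε : 0 < δ * ε := mul_pos hδ hε
    have h4 : wr_en m F ε (fun x => resW m F ε δ (us i) x - resW m F ε δ u x)
        ≤ (δ * ε)⁻¹ * (Real.exp (B / ε) * ∫ x, (us i x - u x) ^ 2 ∂m) := by
      rw [inv_mul_eq_div, le_div_iff₀ hδε, mul_comm]
      exact h2.trans h3
    have h5 := mul_le_mul_of_nonneg_left (h1.trans h4) (Real.exp_pos (B / ε)).le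
    rw [← mul_assoc, hexp, one_mul] at h5
    exact h5

/-- (S3) `|D J u i|² → |D J u|²` in `L²` if moreover `|D J u i| ≤ A'`, `|D J u| ≤ A'` a.e.:
`(a² - b²)² ≤ (2A')² (a - b)²`, `|a - b| ≤ |D(J u i - J u)|` (`gc_wg_abs_sub_le`). -/
theorem wr_lim_wg_sq_L2 (hS : Std m K N) {ι : Type*} {l : Filter ι} {vs : ι → X → ℝ} {v : X → ℝ} {A' : ℝ}
    (hvs : ∀ᶠ i in l, Sobolev m (vs i)) (hv : Sobolev m v)
    (hA : ∀ᶠ i in l, ∀ᵐ x ∂m, weakGradient m (vs i) x ≤ A') (hA' : ∀ᵐ x ∂m, weakGradient m v x ≤ A')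
    (hE : Tendsto (fun i => energy m (fun x => vs i x - v x)) l (𝓝 0)) :
    Tendsto (fun i => ∫ x, (weakGradient m (vs i) x ^ 2 - weakGradient m v x ^ 2) ^ 2 ∂m) l (𝓝 0) := by
  have hlim : Tendsto (fun i => (2 * A') ^ 2 * energy m (fun x => vs i x - v x)) l (𝓝 0) := by
    simpa using hE.const_mul ((2 * A') ^ 2)
  refine squeeze_zero' (Eventually.of_forall fun i => integral_nonneg fun x => sq_nonneg _) ?_ hlim
  filter_upwards [hvs, hA] with i hi hAi
  have hsub : Sobolev m (fun x => vs i x - v x) := gc_sob_sub hS.finite hi hv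
  have hint : Integrable (fun x => (2 * A') ^ 2 * weakGradient m (fun x => vs i x - v x) x ^ 2) m :=
    ((memLp_two_iff_integrable_sq hsub.2.2.1).1 hsub.2.2).const_mul _
  unfold energy
  rw [← integral_const_mul]
  refine integral_mono_of_nonneg (Eventually.of_forall fun x => sq_nonneg _) hint ?_
  filter_upwards [hAi, hA', gc_wg_nonneg (m := m) (vs i), gc_wg_nonneg (m := m) v,
    gc_wg_abs_sub_le hS.finite (gc_ls_of_sob hi) (gc_ls_of_sob hv)] with x h1 h2 h3 h4 h5
  have e : (weakGradient m (vs i) x ^ 2 - weakGradient m v x ^ 2) ^ 2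
      = (weakGradient m (vs i) x + weakGradient m v x) ^ 2 * |weakGradient m (vs i) x - weakGradient m v x| ^ 2 := by
    rw [sq_abs]; ring
  show (weakGradient m (vs i) x ^ 2 - weakGradient m v x ^ 2) ^ 2
    ≤ (2 * A') ^ 2 * weakGradient m (fun x => vs i x - v x) x ^ 2
  rw [e]
  exact mul_le_mul (pow_le_pow_left₀ (by linarith) (by linarith) 2)
    (pow_le_pow_left₀ (abs_nonneg _) h5 2) (sq_nonneg _) (sq_nonneg _)

/-- (S7): `ε∫Γ(u, ρ/e)e = ε∫Γ(u,ρ) - ∫ρΓ(u,F)`   (`wr_gamma_mul_wt_neg`; integrability: `gc_gamma_integrable`, `wr_gamma_lip_memLp'`). -/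
theorem wr_lim_s7 (hS : Std m K N) (hF : LipB F) (hε : 0 < ε) {u ρ : X → ℝ} (hu : Sobolev m u) (hρ : Sobolev m ρ) :
    ε * wr_fm m F ε u (fun y => ρ y * wt (fun z => -F z) ε y) =
      ε * ∫ x, gamma m u ρ x ∂m - ∫ x, ρ x * gamma m u F x ∂m := by
  have h1 : Integrable (gamma m u ρ) m := gc_gamma_integrable hS hu hρ
  have h2 : Integrable (fun x => ρ x * gamma m u F x) m := hρ.1.integrable_mul (wr_gamma_lip_memLp' hS hF hu)
  have h3 : Integrable (fun x => ε⁻¹ * (ρ x * gamma m u F x)) m := h2.const_mul _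
  have e : wr_fm m F ε u (fun y => ρ y * wt (fun z => -F z) ε y)
      = ∫ x, (gamma m u ρ x - ε⁻¹ * (ρ x * gamma m u F x)) ∂m := by
    unfold wr_fm
    refine integral_congr_ae ?_
    filter_upwards [wr_gamma_mul_wt_neg hS hε (gc_ls_of_sob hu) (gc_ls_of_sob hρ) hF] with x hx
    rw [hx]
    ring
  rw [e, integral_sub h1 h3, integral_const_mul, mul_sub, ← mul_assoc, mul_inv_cancel₀ hε.ne', one_mul]

/-- `ρ/e` is Sobolev, resp. in `L²`, bounded, nonnegative. -/
theorem wr_lim_div_sobolev (hS : Std m K N) (hF : LipB F) (hε : 0 < ε) {ρ : X → ℝ} (hρ : Sobolev m ρ) :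
    Sobolev m (fun y => ρ y * wt (fun z => -F z) ε y) :=
  wr_sobolev_mul_wt hS hε hρ (wr_neg_lipB hF)

/-- `(ρ/e) e = ρ`. -/
theorem wr_lim_div_mul (F : X → ℝ) (ε : ℝ) (ρ : X → ℝ) (x : X) :
    ρ x * wt (fun z => -F z) ε x * wt F ε x = ρ x := by
  rw [mul_assoc, mul_comm (wt (fun z => -F z) ε x), wr_wt_mul_neg, mul_one]

end Claimed.Agent.R210.WR.Lim
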