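/-
Row 210, layer WR, block WR3 (sub-architect helper898): the weighted resolvent `J = resW m F ε δ = (1 - δ L)⁻¹` at the
level of functions: translation of HS2 (`HS/Ifc.lean`) through WR0-WR2, and the sub-Markov property.
Contract: `git show origin/helper928:docs/R210_partZ.md`, section WR.
-/
import Claimed.Agent.R210.WR.Gen

set_option autoImplicit false

open Claims.C0366 Claims.C0366.WeakHessian
open Set Filter MeasureTheory
open scoped ENNReal NNReal Topology RealInnerProductSpace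
open Claimed.Agent.R210.Defs Claimed.Agent.R210.Defs2 Claimed.Agent.R210.HS.Defs
open Claimed.Agent.R210.WR.Needs Claimed.Agent.R210.WR.Wt Claimed.Agent.R210.WR.Calc
open Claimed.Agent.R210.WR.Form Claimed.Agent.R210.WR.Gen

namespace Claimed.Agent.R210.WR.Res

variable {X : Type*} [MetricSpace X] [MeasurableSpace X] [BorelSpace X] [CompleteSpace X]
  [TopologicalSpace.SeparableSpace X] [ProperSpace X] {m : Measure X} {K N : ℝ}
  {F : X → ℝ} {ε δ : ℝ}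

/-- (also for `f ∉ L²`, where `resW = 0`). -/
theorem wr_res_memLp (hF : LipB F) (hε : 0 < ε) (δ : ℝ) (f : X → ℝ) :
    MemLp (resW m F ε δ f) 2 m := by
  by_cases hf : MemLp f 2 m
  · rw [wr_resW_eq hF hε δ hf]
    exact wr_coe_memLp hF hε _
  · have hf' : ¬ MemLp f 2 (mW m F ε) := fun h => hf ((wr_memLp_iff hF hε).1 h)
    unfold resW
    rw [dif_neg hf']
    exact MemLp.zero

/-- equality of FUNCTIONS. -/
theorem wr_res_congr (hF : LipB F) (ε δ : ℝ) {f g : X → ℝ} (h : f =ᵐ[m] g) :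
    resW m F ε δ f = resW m F ε δ g := by
  have h' : f =ᵐ[mW m F ε] g := (wr_mW_ac m F ε).ae_eq h
  unfold resW
  by_cases hf : MemLp f 2 (mW m F ε)
  · have hg : MemLp g 2 (mW m F ε) := (memLp_congr_ae h').1 hf
    rw [dif_pos hf, dif_pos hg, MemLp.toLp_congr hf hg h']
  · have hg : ¬ MemLp g 2 (mW m F ε) := fun hg => hf ((memLp_congr_ae h').2 hg)
    rw [dif_neg hf, dif_neg hg]

/-- `hs_prox_isGen` + `wr_isGen_iff`. -/
theorem wr_res_dom (hS : Std m K N) (hF : LipB F) (hε : 0 < ε) (hδ : 0 < δ) {f : X → ℝ}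
    (hf : MemLp f 2 m) : InLaplacianDomain m (resW m F ε δ f) := by
  rw [wr_resW_eq hF hε δ hf]
  exact ((wr_isGen_iff hS hF hε _ _).1 (Claimed.Agent.R210.HS.Ifc.hs_prox_isGen (wr_qform hS hF hε) hδ _)).1

theorem wr_res_sobolev (hS : Std m K N) (hF : LipB F) (hε : 0 < ε) (hδ : 0 < δ) {f : X → ℝ}
    (hf : MemLp f 2 m) : Sobolev m (resW m F ε δ f) := by
  exact wr_dom_sobolev (wr_res_dom hS hF hε hδ hf)

/-- **WR3**: `u - δ L u = f` for `u = J f`. -/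
theorem wr_res_eq (hS : Std m K N) (hF : LipB F) (hε : 0 < ε) (hδ : 0 < δ) {f : X → ℝ}
    (hf : MemLp f 2 m) :
    ∀ᵐ x ∂m, resW m F ε δ f x - δ * opL m F ε (resW m F ε δ f) x = f x := by
  rw [wr_resW_eq hF hε δ hf]
  have h1 := ((wr_isGen_iff hS hF hε _ _).1
    (Claimed.Agent.R210.HS.Ifc.hs_prox_isGen (wr_qform hS hF hε) hδ (wr_toLp hF hε hf))).2
  filter_upwards [h1, wr_coe_smul hF δ⁻¹ (prox (QW m F ε) δ (wr_toLp hF hε hf) - wr_toLp hF hε hf),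
    wr_coe_sub hF (prox (QW m F ε) δ (wr_toLp hF hε hf)) (wr_toLp hF hε hf),
    wr_coe_toLp hF hε hf] with x h1 h2 h3 h4
  rw [← h1, h2, h3, h4]
  field_simp
  ring

/-- the same, solved for `L (J f)`. -/
theorem wr_res_opL (hS : Std m K N) (hF : LipB F) (hε : 0 < ε) (hδ : 0 < δ) {f : X → ℝ}
    (hf : MemLp f 2 m) :
    ∀ᵐ x ∂m, opL m F ε (resW m F ε δ f) x = (resW m F ε δ f x - f x) / δ := by
  filter_upwards [wr_res_eq hS hF hε hδ hf] with x hx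
  rw [← hx]
  field_simp
  ring

/-- **WR3**: uniqueness (`hs_eq_prox_iff` + `wr_isGen_iff`). -/
theorem wr_res_unique (hS : Std m K N) (hF : LipB F) (hε : 0 < ε) (hδ : 0 < δ) {f u : X → ℝ}
    (hu : InLaplacianDomain m u) (h : ∀ᵐ x ∂m, u x - δ * opL m F ε u x = f x) :
    u =ᵐ[m] resW m F ε δ f := by
  have hu2 : MemLp u 2 m := wr_sobolev_memLp (wr_dom_sobolev hu)
  have hL2 : MemLp (opL m F ε u) 2 m := wr_opL_memLp hS hF ε hu
  have hf : MemLp f 2 m := by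
    have h1 : MemLp (fun x => u x - δ * opL m F ε u x) 2 m := hu2.sub (hL2.const_mul δ)
    exact (memLp_congr_ae h).1 h1
  have hU : (wr_toLp hF hε hu2 : X → ℝ) =ᵐ[m] u := wr_coe_toLp hF hε hu2
  have key : wr_toLp hF hε hu2 = prox (QW m F ε) δ (wr_toLp hF hε hf) := by
    rw [Claimed.Agent.R210.HS.Ifc.hs_eq_prox_iff (wr_qform hS hF hε) hδ, wr_isGen_iff hS hF hε]
    refine ⟨(wr_inLaplacianDomain_congr hU).2 hu, ?_⟩
    rw [wr_opL_congr F ε hU]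
    filter_upwards [h, hU, wr_coe_smul hF δ⁻¹ (wr_toLp hF hε hu2 - wr_toLp hF hε hf),
      wr_coe_sub hF (wr_toLp hF hε hu2) (wr_toLp hF hε hf), wr_coe_toLp hF hε hf] with x h1 h2 h3 h4 h5
    rw [h3, h4, h5, h2, ← h1]
    field_simp
    ring
  rw [wr_resW_eq hF hε δ hf, ← key]
  exact hU.symm

theorem wr_res_add (hS : Std m K N) (hF : LipB F) (hε : 0 < ε) (hδ : 0 < δ) {f g : X → ℝ}
    (hf : MemLp f 2 m) (hg : MemLp g 2 m) :
    resW m F ε δ (fun x => f x + g x) =ᵐ[m] fun x => resW m F ε δ f x + resW m F ε δ g x := by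
  have hfg : MemLp (fun x => f x + g x) 2 m := hf.add hg
  rw [wr_resW_eq hF hε δ hfg, wr_resW_eq hF hε δ hf, wr_resW_eq hF hε δ hg,
    wr_toLp_add hF hε hf hg hfg, HS.Ifc.hs_prox_add (wr_qform hS hF hε) hδ]
  exact wr_coe_add hF _ _

theorem wr_res_sub (hS : Std m K N) (hF : LipB F) (hε : 0 < ε) (hδ : 0 < δ) {f g : X → ℝ}
    (hf : MemLp f 2 m) (hg : MemLp g 2 m) :
    resW m F ε δ (fun x => f x - g x) =ᵐ[m] fun x => resW m F ε δ f x - resW m F ε δ g x := by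
  have hfg : MemLp (fun x => f x - g x) 2 m := hf.sub hg
  rw [wr_resW_eq hF hε δ hfg, wr_resW_eq hF hε δ hf, wr_resW_eq hF hε δ hg,
    wr_toLp_sub hF hε hf hg hfg, HS.Ifc.hs_prox_sub (wr_qform hS hF hε) hδ]
  exact wr_coe_sub hF _ _

theorem wr_res_smul (hS : Std m K N) (hF : LipB F) (hε : 0 < ε) (hδ : 0 < δ) (c : ℝ) {f : X → ℝ}
    (hf : MemLp f 2 m) :
    resW m F ε δ (fun x => c * f x) =ᵐ[m] fun x => c * resW m F ε δ f x := by
  have hcf : MemLp (fun x => c * f x) 2 m := hf.const_mul c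
  rw [wr_resW_eq hF hε δ hcf, wr_resW_eq hF hε δ hf,
    wr_toLp_smul hF hε c hf hcf, HS.Ifc.hs_prox_smul (wr_qform hS hF hε) hδ]
  exact wr_coe_smul hF _ _

/-- **WR3**: symmetry in `L²(m_ε)` (`hs_prox_symm`, `wr_inner`). -/
theorem wr_res_symm (hS : Std m K N) (hF : LipB F) (hε : 0 < ε) (hδ : 0 < δ) {f g : X → ℝ}
    (hf : MemLp f 2 m) (hg : MemLp g 2 m) :
    ∫ x, resW m F ε δ f x * g x * wt F ε x ∂m = ∫ x, f x * resW m F ε δ g x * wt F ε x ∂m := by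
  have h := HS.Ifc.hs_prox_symm (wr_qform hS hF hε) hδ (wr_toLp hF hε hf) (wr_toLp hF hε hg)
  rw [wr_inner hF, wr_inner hF] at h
  rw [wr_resW_eq hF hε δ hf, wr_resW_eq hF hε δ hg]
  have e1 : ∫ x, (prox (QW m F ε) δ (wr_toLp hF hε hf) : Lp ℝ 2 (mW m F ε)) x * g x * wt F ε x ∂m
      = ∫ x, (prox (QW m F ε) δ (wr_toLp hF hε hf) : Lp ℝ 2 (mW m F ε)) x *
          (wr_toLp hF hε hg : Lp ℝ 2 (mW m F ε)) x * wt F ε x ∂m := by
    refine integral_congr_ae ?_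
    filter_upwards [wr_coe_toLp hF hε hg] with x hx
    rw [hx]
  have e2 : ∫ x, f x * (prox (QW m F ε) δ (wr_toLp hF hε hg) : Lp ℝ 2 (mW m F ε)) x * wt F ε x ∂m
      = ∫ x, (wr_toLp hF hε hf : Lp ℝ 2 (mW m F ε)) x *
          (prox (QW m F ε) δ (wr_toLp hF hε hg) : Lp ℝ 2 (mW m F ε)) x * wt F ε x ∂m := by
    refine integral_congr_ae ?_
    filter_upwards [wr_coe_toLp hF hε hf] with x hx
    rw [hx]
  rw [e1, e2, h]

/-- **WR3**: contraction in `L²(m_ε)` (`hs_prox_norm_le`, `wr_norm_sq`). -/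
theorem wr_res_norm_le (hS : Std m K N) (hF : LipB F) (hε : 0 < ε) (hδ : 0 < δ) {f : X → ℝ}
    (hf : MemLp f 2 m) :
    ∫ x, resW m F ε δ f x ^ 2 * wt F ε x ∂m ≤ ∫ x, f x ^ 2 * wt F ε x ∂m := by
  have h := HS.Ifc.hs_prox_norm_le (wr_qform hS hF hε) hδ (wr_toLp hF hε hf)
  have h2 : ‖prox (QW m F ε) δ (wr_toLp hF hε hf)‖ ^ 2 ≤ ‖wr_toLp hF hε hf‖ ^ 2 :=
    pow_le_pow_left₀ (norm_nonneg _) h 2
  rw [wr_norm_sq hF, wr_norm_sq hF] at h2
  rw [wr_resW_eq hF hε δ hf]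
  have e2 : ∫ x, f x ^ 2 * wt F ε x ∂m
      = ∫ x, (wr_toLp hF hε hf : Lp ℝ 2 (mW m F ε)) x ^ 2 * wt F ε x ∂m := by
    refine integral_congr_ae ?_
    filter_upwards [wr_coe_toLp hF hε hf] with x hx
    rw [hx]
  rw [e2]
  exact h2

/-- weak form of the resolvent equation (`hs_prox_weak`). -/
theorem wr_res_weak (hS : Std m K N) (hF : LipB F) (hε : 0 < ε) (hδ : 0 < δ) {f v : X → ℝ}
    (hf : MemLp f 2 m) (hv : Sobolev m v) :
    ∫ x, resW m F ε δ f x * v x * wt F ε x ∂m + δ * (ε * wr_fm m F ε (resW m F ε δ f) v) =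
      ∫ x, f x * v x * wt F ε x ∂m := by
  have hQ := wr_qform hS hF hε
  have hv2 : MemLp v 2 m := hv.1
  have hvc := wr_coe_toLp hF hε hv2
  have hvS : Sobolev m (wr_toLp hF hε hv2 : X → ℝ) := (wr_sobolev_congr hvc).2 hv
  have hvQ : QW m F ε (wr_toLp hF hε hv2) < ∞ := (wr_QW_lt_top_iff _).2 hvS
  have h := HS.Ifc.hs_prox_weak hQ hδ (wr_toLp hF hε hf) hvQ
  have huS : Sobolev m ((prox (QW m F ε) δ (wr_toLp hF hε hf) : Lp ℝ 2 (mW m F ε)) : X → ℝ) :=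
    (wr_QW_lt_top_iff _).1 (HS.Ifc.hs_prox_dom hQ hδ _)
  rw [wr_inner hF, wr_inner hF, wr_bil hS hF hε huS hvS] at h
  rw [wr_resW_eq hF hε δ hf]
  rw [wr_fm_congr F ε (EventuallyEq.refl _ _) hvc.symm]
  have e1 : ∫ x, (prox (QW m F ε) δ (wr_toLp hF hε hf) : Lp ℝ 2 (mW m F ε)) x * v x * wt F ε x ∂m
      = ∫ x, (prox (QW m F ε) δ (wr_toLp hF hε hf) : Lp ℝ 2 (mW m F ε)) x *
          (wr_toLp hF hε hv2 : Lp ℝ 2 (mW m F ε)) x * wt F ε x ∂m := by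
    refine integral_congr_ae ?_
    filter_upwards [hvc] with x hx
    rw [hx]
  have e2 : ∫ x, f x * v x * wt F ε x ∂m
      = ∫ x, (wr_toLp hF hε hf : Lp ℝ 2 (mW m F ε)) x *
          (wr_toLp hF hε hv2 : Lp ℝ 2 (mW m F ε)) x * wt F ε x ∂m := by
    refine integral_congr_ae ?_
    filter_upwards [hvc, wr_coe_toLp hF hε hf] with x hx hx'
    rw [hx, hx']
  rw [e1, e2, h]

/-- **WR3**: `∫ Γ(Jf) e ≤ ∫ Γ(f) e` (`hs_Q_prox_le`). -/
theorem wr_res_en_le (hS : Std m K N) (hF : LipB F) (hε : 0 < ε) (hδ : 0 < δ) {f : X → ℝ}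
    (hf : Sobolev m f) : wr_en m F ε (resW m F ε δ f) ≤ wr_en m F ε f := by
  have hQ := wr_qform hS hF hε
  have hs0 : Sobolev m (wr_toLp hF hε hf.1 : X → ℝ) :=
    (wr_sobolev_congr (wr_coe_toLp hF hε hf.1)).2 hf
  have hsP : Sobolev m ((prox (QW m F ε) δ (wr_toLp hF hε hf.1) : Lp ℝ 2 (mW m F ε)) : X → ℝ) :=
    (wr_QW_lt_top_iff _).1 (HS.Ifc.hs_prox_dom hQ hδ _)
  have h := HS.Ifc.hs_Q_prox_le hQ hδ (wr_toLp hF hε hf.1)
  rw [wr_QW_eq hsP, wr_QW_eq hs0,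
    ENNReal.ofReal_le_ofReal_iff (mul_nonneg (by positivity) (wr_en_nonneg m F ε _))] at h
  rw [wr_resW_eq hF hε δ hf.1, ← wr_en_congr F ε (wr_coe_toLp hF hε hf.1)]
  exact le_of_mul_le_mul_left h (by positivity)

/-- **WR3**: `δ ε ∫ Γ(Jf) e ≤ ‖f‖²` (`hs_prox_energy`, Cauchy-Schwarz, `hs_prox_norm_le`). -/
theorem wr_res_en_bound (hS : Std m K N) (hF : LipB F) (hε : 0 < ε) (hδ : 0 < δ) {f : X → ℝ}
    (hf : MemLp f 2 m) :
    δ * ε * wr_en m F ε (resW m F ε δ f) ≤ ∫ x, f x ^ 2 * wt F ε x ∂m := by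
  have hQ := wr_qform hS hF hε
  have hsP : Sobolev m ((prox (QW m F ε) δ (wr_toLp hF hε hf) : Lp ℝ 2 (mW m F ε)) : X → ℝ) :=
    (wr_QW_lt_top_iff _).1 (HS.Ifc.hs_prox_dom hQ hδ _)
  have h1 := HS.Ifc.hs_prox_energy hQ hδ (wr_toLp hF hε hf)
  have h2 := HS.Ifc.hs_prox_norm_le hQ hδ (wr_toLp hF hε hf)
  have h3 : ⟪wr_toLp hF hε hf, prox (QW m F ε) δ (wr_toLp hF hε hf)⟫
      ≤ ‖wr_toLp hF hε hf‖ * ‖prox (QW m F ε) δ (wr_toLp hF hε hf)‖ := real_inner_le_norm _ _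
  rw [HS.Ifc.hs_bil_self hQ, wr_QW_toReal hε hsP] at h1
  have h4 : ‖wr_toLp hF hε hf‖ ^ 2 = ∫ x, f x ^ 2 * wt F ε x ∂m := by
    rw [wr_norm_sq hF]
    refine integral_congr_ae ?_
    filter_upwards [wr_coe_toLp hF hε hf] with x hx
    rw [hx]
  rw [wr_resW_eq hF hε δ hf, ← h4]
  have h5 := norm_nonneg (wr_toLp hF hε hf)
  have h6 := norm_nonneg (prox (QW m F ε) δ (wr_toLp hF hε hf))
  nlinarith

/-- **WR3**: `J_δ f → f` in `L²` as `δ ↓ 0` (`hs_prox_tendsto`, `wr_tendsto_iff`). -/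
theorem wr_res_tendsto (hS : Std m K N) (hF : LipB F) (hε : 0 < ε) {f : X → ℝ} (hf : MemLp f 2 m) :
    Tendsto (fun δ => eLpNorm (fun x => resW m F ε δ f x - f x) 2 m) (𝓝[>] 0) (𝓝 0) := by
  have hQ := wr_qform hS hF hε
  have h := (wr_tendsto_iff hF hε).1 (HS.Ifc.hs_prox_tendsto hQ (wr_toLp hF hε hf))
  refine h.congr fun δ => ?_
  refine eLpNorm_congr_ae ?_
  filter_upwards [wr_coe_toLp hF hε hf] with x hx
  rw [wr_resW_eq hF hε δ hf, hx]

/-- **WR3**: `energy (J_δ f - f) → 0` as `δ ↓ 0` for Sobolev `f` (`hs_Q_prox_sub_tendsto`, `wr_energy_le_en`). -/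
theorem wr_res_tendsto_energy (hS : Std m K N) (hF : LipB F) (hε : 0 < ε) {f : X → ℝ}
    (hf : Sobolev m f) :
    Tendsto (fun δ => energy m (fun x => resW m F ε δ f x - f x)) (𝓝[>] 0) (𝓝 0) := by
  have hQ := wr_qform hS hF hε
  obtain ⟨B, hB⟩ := hF.2
  have hs0 : Sobolev m (wr_toLp hF hε hf.1 : X → ℝ) :=
    (wr_sobolev_congr (wr_coe_toLp hF hε hf.1)).2 hf
  have h := HS.Ifc.hs_Q_prox_sub_tendsto hQ ((wr_QW_lt_top_iff _).2 hs0)
  have hfin : ∀ᶠ δ in 𝓝[>] (0 : ℝ),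
      QW m F ε (prox (QW m F ε) δ (wr_toLp hF hε hf.1) - wr_toLp hF hε hf.1) < ∞ :=
    h.eventually_lt_const ENNReal.zero_lt_top
  have hreal : Tendsto (fun δ => Real.exp (B / ε) * (2 / ε *
      (QW m F ε (prox (QW m F ε) δ (wr_toLp hF hε hf.1) - wr_toLp hF hε hf.1)).toReal)) (𝓝[>] 0) (𝓝 0) := by
    have h1 := (ENNReal.tendsto_toReal ENNReal.zero_ne_top).comp h
    have h2 := (h1.const_mul (2 / ε)).const_mul (Real.exp (B / ε))
    simpa using h2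
  refine tendsto_of_tendsto_of_tendsto_of_le_of_le' tendsto_const_nhds hreal
    (Eventually.of_forall fun δ => integral_nonneg fun x => sq_nonneg _) ?_
  filter_upwards [hfin] with δ hδfin
  have hsw := (wr_QW_lt_top_iff _).1 hδfin
  have hae : (fun x => resW m F ε δ f x - f x)
      =ᵐ[m] ((prox (QW m F ε) δ (wr_toLp hF hε hf.1) - wr_toLp hF hε hf.1 : Lp ℝ 2 (mW m F ε)) : X → ℝ) := by
    filter_upwards [wr_coe_sub hF (prox (QW m F ε) δ (wr_toLp hF hε hf.1)) (wr_toLp hF hε hf.1),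
      wr_coe_toLp hF hε hf.1] with x hx1 hx2
    rw [hx1, wr_resW_eq hF hε δ hf.1, hx2]
  have hen : energy m (fun x => resW m F ε δ f x - f x)
      = energy m ((prox (QW m F ε) δ (wr_toLp hF hε hf.1) - wr_toLp hF hε hf.1 : Lp ℝ 2 (mW m F ε)) : X → ℝ) := by
    show ∫ x, (weakGradient m _ x) ^ 2 ∂m = ∫ x, (weakGradient m _ x) ^ 2 ∂m
    rw [wr_n_wg_congr hae]
  rw [hen, wr_QW_toReal hε hsw]
  have h1 := wr_energy_le_en hF hB hε hsw
  have h2 : Real.exp (B / ε) * Real.exp (-(B / ε)) = 1 := by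
    rw [← Real.exp_add]
    simp
  have h3 : 2 / ε * (ε / 2 * wr_en m F ε
      ((prox (QW m F ε) δ (wr_toLp hF hε hf.1) - wr_toLp hF hε hf.1 : Lp ℝ 2 (mW m F ε)) : X → ℝ))
      = wr_en m F ε ((prox (QW m F ε) δ (wr_toLp hF hε hf.1) - wr_toLp hF hε hf.1 : Lp ℝ 2 (mW m F ε)) : X → ℝ) := by
    field_simp
  rw [h3]
  calc energy m ((prox (QW m F ε) δ (wr_toLp hF hε hf.1) - wr_toLp hF hε hf.1 : Lp ℝ 2 (mW m F ε)) : X → ℝ)
      = Real.exp (B / ε) * (Real.exp (-(B / ε)) * energy m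
        ((prox (QW m F ε) δ (wr_toLp hF hε hf.1) - wr_toLp hF hε hf.1 : Lp ℝ 2 (mW m F ε)) : X → ℝ)) := by
        rw [← mul_assoc, h2, one_mul]
    _ ≤ _ := mul_le_mul_of_nonneg_left h1 (Real.exp_pos _).le

/-! ### sub-Markov property -/

/-- abstract principle: a map that decreases both `Q` and the distance to `f` fixes the minimiser
(`hs_isProx_prox`, `hs_isProx_unique`). -/
theorem wr_prox_fixed {H : Type*} [NormedAddCommGroup H] [InnerProductSpace ℝ H] [CompleteSpace H]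
    {Q : H → ℝ≥0∞} (hQ : QForm Q) {δ : ℝ} (hδ : 0 < δ) {f v : H}
    (h1 : Q v ≤ Q (prox Q δ f)) (h2 : ‖v - f‖ ≤ ‖prox Q δ f - f‖) : v = prox Q δ f := by
  have hp := HS.Ifc.hs_isProx_prox hQ hδ f
  have hv : IsProx Q δ f v := by
    intro w
    refine le_trans ?_ (hp w)
    have h3 : ‖v - f‖ ^ 2 / (2 * δ) ≤ ‖prox Q δ f - f‖ ^ 2 / (2 * δ) := by
      have h4 : ‖v - f‖ ^ 2 ≤ ‖prox Q δ f - f‖ ^ 2 := pow_le_pow_left₀ (norm_nonneg _) h2 2
      have h5 : (0 : ℝ) < 2 * δ := by positivity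
      exact div_le_div_of_nonneg_right h4 h5.le
    exact add_le_add h1 (ENNReal.ofReal_le_ofReal h3)
  exact HS.Ifc.hs_isProx_unique hQ hδ hv hp

/-- normal contractions that fix `f` fix `J f`.
Proof: `u = J f`, `v = ψ ∘ u`: Sobolev with `|Dv| ≤ |Du|` (`wr_n_contraction`) so `QW [v] ≤ QW [u]`;
`|ψ(u) - f| = |ψ(u) - ψ(f)| ≤ |u - f|` a.e. so `‖[v] - [f]‖ ≤ ‖[u] - [f]‖` (`wr_norm_sq`); `wr_prox_fixed`. -/
theorem wr_res_fixed (hS : Std m K N) (hF : LipB F) (hε : 0 < ε) (hδ : 0 < δ) {f : X → ℝ}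
    (hf : MemLp f 2 m) {ψ : ℝ → ℝ} (hψ : LipschitzWith 1 ψ) (hψ0 : ψ 0 = 0)
    (hfix : ∀ᵐ x ∂m, ψ (f x) = f x) :
    ∀ᵐ x ∂m, ψ (resW m F ε δ f x) = resW m F ε δ f x := by
  have hQ := wr_qform (m := m) (ε := ε) hS hF hε
  set fL : Lp ℝ 2 (mW m F ε) := wr_toLp hF hε hf with hfL
  set U : Lp ℝ 2 (mW m F ε) := prox (QW m F ε) δ fL with hU
  have hres : resW m F ε δ f = (U : X → ℝ) := wr_resW_eq hF hε δ hf
  have huS : Sobolev m (U : X → ℝ) := (wr_QW_lt_top_iff U).1 (HS.Ifc.hs_prox_dom hQ hδ fL)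
  obtain ⟨hvS, hvle⟩ := wr_n_contraction hS huS hψ hψ0
  set V : Lp ℝ 2 (mW m F ε) := wr_toLp hF hε hvS.1 with hV
  have hVv : (V : X → ℝ) =ᵐ[m] fun x => ψ (U x) := wr_coe_toLp hF hε hvS.1
  have hVS : Sobolev m (V : X → ℝ) := (wr_sobolev_congr hVv).2 hvS
  have hfLf : (fL : X → ℝ) =ᵐ[m] f := wr_coe_toLp hF hε hf
  -- the form decreases
  have h1 : QW m F ε V ≤ QW m F ε U := by
    rw [wr_QW_eq hVS, wr_QW_eq huS, wr_en_congr F ε hVv]
    apply ENNReal.ofReal_le_ofReal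
    have hen : wr_en m F ε (fun x => ψ (U x)) ≤ wr_en m F ε (U : X → ℝ) := by
      unfold wr_en
      refine integral_mono_ae (wr_en_integrable hF hε hvS) (wr_en_integrable hF hε huS) ?_
      filter_upwards [hvle, wr_n_wg_nonneg (m := m) (fun x => ψ (U x))] with x hx h0
      exact mul_le_mul_of_nonneg_right (pow_le_pow_left₀ h0 hx 2) (wr_wt_pos F ε x).le
    have : 0 ≤ ε / 2 := by positivity
    exact mul_le_mul_of_nonneg_left hen this
  -- the distance decreases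
  have h2 : ‖V - fL‖ ≤ ‖U - fL‖ := by
    have hsq : ‖V - fL‖ ^ 2 ≤ ‖U - fL‖ ^ 2 := by
      rw [wr_norm_sq hF, wr_norm_sq hF]
      have hint : Integrable (fun x => (U - fL : Lp ℝ 2 (mW m F ε)) x ^ 2 * wt F ε x) m := by
        have := wr_integrable_mul_mul_wt (m := m) hF hε (wr_coe_memLp hF hε (U - fL))
          (wr_coe_memLp hF hε (U - fL))
        simpa [sq] using this
      refine integral_mono_of_nonneg ?_ hint ?_
      · exact Eventually.of_forall (fun x => mul_nonneg (sq_nonneg _) (wr_wt_pos F ε x).le)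
      · filter_upwards [wr_coe_sub hF V fL, wr_coe_sub hF U fL, hVv, hfLf, hfix] with x a1 a2 a3 a4 a5
        simp only [a1, a2, a3, a4]
        refine mul_le_mul_of_nonneg_right ?_ (wr_wt_pos F ε x).le
        have hl := hψ.dist_le_mul (U x) (f x)
        rw [a5] at hl
        simp only [NNReal.coe_one, one_mul, Real.dist_eq] at hl
        exact sq_le_sq.2 hl
    exact (pow_le_pow_iff_left₀ (norm_nonneg _) (norm_nonneg _) two_ne_zero).1 hsq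
  have hVU : V = U := wr_prox_fixed hQ hδ h1 h2
  have hae : (V : X → ℝ) =ᵐ[m] (U : X → ℝ) := (wr_ext_iff hF V U).1 hVU
  rw [hres]
  filter_upwards [hae, hVv] with x a1 a2
  rw [← a2, a1]

/-- `ψ = min · M`. -/
theorem wr_res_le (hS : Std m K N) (hF : LipB F) (hε : 0 < ε) (hδ : 0 < δ) {f : X → ℝ}
    (hf : MemLp f 2 m) {M : ℝ} (hM : 0 ≤ M) (h : ∀ᵐ x ∂m, f x ≤ M) :
    ∀ᵐ x ∂m, resW m F ε δ f x ≤ M := by
  have hψ : LipschitzWith 1 (fun t : ℝ => min t M) := LipschitzWith.id.min_const M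
  have h1 := wr_res_fixed (δ := δ) hS hF hε hδ hf hψ (min_eq_left hM)
    (h.mono fun x hx => min_eq_left hx)
  filter_upwards [h1] with x hx
  rw [← hx]
  exact min_le_right _ _

/-- `ψ = max · 0`. -/
theorem wr_res_nonneg (hS : Std m K N) (hF : LipB F) (hε : 0 < ε) (hδ : 0 < δ) {f : X → ℝ}
    (hf : MemLp f 2 m) (h : ∀ᵐ x ∂m, 0 ≤ f x) : ∀ᵐ x ∂m, 0 ≤ resW m F ε δ f x := by
  have hψ : LipschitzWith 1 (fun t : ℝ => max t 0) := LipschitzWith.id.max_const 0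
  have h1 := wr_res_fixed (δ := δ) hS hF hε hδ hf hψ (max_self 0)
    (h.mono fun x hx => max_eq_left hx)
  filter_upwards [h1] with x hx
  rw [← hx]
  exact le_max_right _ _

theorem wr_res_abs_le (hS : Std m K N) (hF : LipB F) (hε : 0 < ε) (hδ : 0 < δ) {f : X → ℝ}
    (hf : MemLp f 2 m) {M : ℝ} (h : ∀ᵐ x ∂m, |f x| ≤ M) :
    ∀ᵐ x ∂m, |resW m F ε δ f x| ≤ M := by
  by_cases hM : 0 ≤ M
  · have h1 := wr_res_le (δ := δ) hS hF hε hδ hf hM (h.mono fun x hx => (abs_le.1 hx).2)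
    have hf' : MemLp (fun x => (-1 : ℝ) * f x) 2 m := hf.const_mul (-1)
    have h2 := wr_res_le (δ := δ) hS hF hε hδ hf' hM
      (h.mono fun x hx => by linarith [(abs_le.1 hx).1])
    have h3 := wr_res_smul (δ := δ) hS hF hε hδ (-1) hf
    filter_upwards [h1, h2, h3] with x hx1 hx2 hx3
    rw [hx3] at hx2
    exact abs_le.2 ⟨by linarith, hx1⟩
  · filter_upwards [h] with x hx
    exact absurd ((abs_nonneg _).trans hx) hM

theorem wr_res_mono (hS : Std m K N) (hF : LipB F) (hε : 0 < ε) (hδ : 0 < δ) {f g : X → ℝ}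
    (hf : MemLp f 2 m) (hg : MemLp g 2 m) (h : ∀ᵐ x ∂m, f x ≤ g x) :
    ∀ᵐ x ∂m, resW m F ε δ f x ≤ resW m F ε δ g x := by
  have h1 := wr_res_nonneg (δ := δ) hS hF hε hδ (hg.sub hf)
    (h.mono fun x hx => by simpa using hx)
  have h2 := wr_res_sub (δ := δ) hS hF hε hδ hg hf
  filter_upwards [h1, h2] with x hx1 hx2
  have e : (g - f) = fun x => g x - f x := rfl
  rw [e, hx2] at hx1
  linarith

end Claimed.Agent.R210.WR.Res
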