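/-
Row 210, layer WR, block WR4 (sub-architect helper898): Lipschitz regularity of `J f = resW m F ε δ f` for bounded `f`
and small `δ/ε`.
Contract: `git show origin/helper928:docs/R210_partZ.md`, section WR (WR4).

PROOF (variant of partZ: the Neumann series is run on the RIGHT HAND SIDE `g`, in `L²(m)`, not on `u`).
`λ = δ ε`, `R = resF m λ`, `S g := δ Γ(F, R g)` (linear in `g` up to null sets).
`u = J f  ⟺  u = R g` with `g = f + S g`.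
 * `‖S g‖₂ ≤ L √(δ/ε) ‖g‖₂`      (`λ energy(R g) ≤ ‖g‖²`, `|Γ(F,v)| ≤ L |Dv|`),
 * `|g| ≤ B` a.e. `⟹ |S g| ≤ δ L C B/√λ = L C √(δ/ε) B` a.e.      (BE5).
If `L C √(δ/ε) ≤ 1/2` (`C ≥ 1`) then `Φ g = f + S g` is a `1/2`-contraction of `L²(m)` which maps the closed set
`{|g| ≤ 2M}` into itself (`|f| ≤ M`); its fixed point `g` satisfies `|g| ≤ 2M`, and BE5 gives `|D R g| ≤ 2 C M/√λ`.
-/
import Claimed.Agent.R210.WR.Res

set_option autoImplicit false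

open Claims.C0366 Claims.C0366.WeakHessian
open Set Filter MeasureTheory
open scoped ENNReal NNReal Topology RealInnerProductSpace
open Claimed.Agent.R210.Defs Claimed.Agent.R210.Defs2 Claimed.Agent.R210.HS.Defs
open Claimed.Agent.R210.WR.Needs Claimed.Agent.R210.WR.Wt Claimed.Agent.R210.WR.Calc
open Claimed.Agent.R210.WR.Form Claimed.Agent.R210.WR.Gen Claimed.Agent.R210.WR.Res

namespace Claimed.Agent.R210.WR.Lip

variable {X : Type*} [MetricSpace X] [MeasurableSpace X] [BorelSpace X] [CompleteSpace X]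
  [TopologicalSpace.SeparableSpace X] [ProperSpace X] {m : Measure X} {K N : ℝ}
  {F : X → ℝ} {ε δ : ℝ}

/-- the property BE5 with constant `C`. -/
def wr_BE5 (m : Measure X) (C : ℝ) : Prop :=
  ∀ (lam : ℝ), 0 < lam → lam ≤ 1 → ∀ (g : X → ℝ) (B : ℝ), MemLp g 2 m → (∀ᵐ x ∂m, |g x| ≤ B) →
    ∀ᵐ x ∂m, weakGradient m (resF m lam g) x ≤ C * B / Real.sqrt lam

/-- `S g = δ Γ(F, R_{δε} g)`. -/
noncomputable def wr_S (m : Measure X) (F : X → ℝ) (ε δ : ℝ) (g : X → ℝ) : X → ℝ :=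
  fun x => δ * gamma m F (resF m (δ * ε) g) x

theorem wr_resF_sobolev (hS : Std m K N) {lam : ℝ} (hlam : 0 < lam) {g : X → ℝ} (hg : MemLp g 2 m) :
    Sobolev m (resF m lam g) := (wr_n_resF_spec hS hlam hg).1

theorem wr_S_memLp (hS : Std m K N) (hF : LipB F) (hε : 0 < ε) (hδ : 0 < δ) {g : X → ℝ}
    (hg : MemLp g 2 m) : MemLp (wr_S m F ε δ g) 2 m :=
  (wr_gamma_lip_memLp hS hF (wr_resF_sobolev hS (mul_pos hδ hε) hg)).const_mul δ

/-- equality of functions (`resF` only depends on the class: unfold `resF`, `MemLp.toLp_congr`). -/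
theorem wr_S_congr (F : X → ℝ) (ε δ : ℝ) {g g' : X → ℝ} (h : g =ᵐ[m] g') :
    wr_S m F ε δ g = wr_S m F ε δ g' := by
  have e : resF m (δ * ε) g = resF m (δ * ε) g' := by
    unfold resF
    by_cases hg : MemLp g 2 m
    · have hg' : MemLp g' 2 m := (memLp_congr_ae h).1 hg
      rw [dif_pos hg, dif_pos hg', MemLp.toLp_congr hg hg' h]
    · have hg' : ¬ MemLp g' 2 m := fun h' => hg ((memLp_congr_ae h).2 h')
      rw [dif_neg hg, dif_neg hg']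
  unfold wr_S
  rw [e]

/-- `wr_n_resF_sub`, `wr_gamma_congr`, `wr_gamma_sub_right`. -/
theorem wr_S_sub (hS : Std m K N) (hF : LipB F) (hε : 0 < ε) (hδ : 0 < δ) {g g' : X → ℝ}
    (hg : MemLp g 2 m) (hg' : MemLp g' 2 m) :
    wr_S m F ε δ (fun x => g x - g' x) =ᵐ[m] fun x => wr_S m F ε δ g x - wr_S m F ε δ g' x := by
  have hlam : 0 < δ * ε := mul_pos hδ hε
  have e : gamma m F (resF m (δ * ε) (fun x => g x - g' x))
      = gamma m F (fun x => resF m (δ * ε) g x - resF m (δ * ε) g' x) :=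
    wr_gamma_congr (EventuallyEq.refl _ F) (wr_n_resF_sub hS hlam hg hg')
  filter_upwards [wr_gamma_sub_right hS (wr_n_lipB_local hS hF) (wr_resF_sobolev hS hlam hg).2.1
    (wr_resF_sobolev hS hlam hg').2.1] with x hx
  unfold wr_S
  rw [e, hx]
  ring

/-- `∫ (S g)² ≤ δ² L² energy(R g) ≤ δ² L² ∫ g²/(δ ε)` (`wr_gamma_lip_abs_le`, `wr_n_resF_energy`). -/
theorem wr_S_norm_le (hS : Std m K N) (hF : LipB F) {L : ℝ≥0} (hL : LipschitzWith L F) (hε : 0 < ε)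
    (hδ : 0 < δ) {g : X → ℝ} (hg : MemLp g 2 m) :
    ∫ x, wr_S m F ε δ g x ^ 2 ∂m ≤ (L : ℝ) ^ 2 * (δ / ε) * ∫ x, g x ^ 2 ∂m := by
  have hlam : 0 < δ * ε := mul_pos hδ hε
  have hR := wr_resF_sobolev hS hlam hg
  have h1 : ∫ x, wr_S m F ε δ g x ^ 2 ∂m
      ≤ ∫ x, (δ ^ 2 * (L : ℝ) ^ 2) * weakGradient m (resF m (δ * ε) g) x ^ 2 ∂m := by
    refine integral_mono_ae (wr_S_memLp hS hF hε hδ hg).integrable_sq ((wr_wg_sq_integrable hR).const_mul _) ?_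
    filter_upwards [wr_gamma_lip_abs_le hS hF hL hR.2.1] with x hx
    show (δ * gamma m F (resF m (δ * ε) g) x) ^ 2 ≤ _
    have h2 : gamma m F (resF m (δ * ε) g) x ^ 2 ≤ ((L : ℝ) * weakGradient m (resF m (δ * ε) g) x) ^ 2 := by
      rw [← sq_abs]
      exact pow_le_pow_left₀ (abs_nonneg _) hx 2
    have h3 : (0 : ℝ) ≤ δ ^ 2 := sq_nonneg _
    calc (δ * gamma m F (resF m (δ * ε) g) x) ^ 2 = δ ^ 2 * gamma m F (resF m (δ * ε) g) x ^ 2 := by ring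
      _ ≤ δ ^ 2 * ((L : ℝ) * weakGradient m (resF m (δ * ε) g) x) ^ 2 := mul_le_mul_of_nonneg_left h2 h3
      _ = _ := by ring
  rw [integral_const_mul] at h1
  have h4 := wr_n_resF_energy hS hlam hg
  unfold energy at h4
  set E := ∫ x, weakGradient m (resF m (δ * ε) g) x ^ 2 ∂m
  set G := ∫ x, g x ^ 2 ∂m
  have h5 : δ ^ 2 * (L : ℝ) ^ 2 * E ≤ (L : ℝ) ^ 2 * (δ / ε) * G := by
    have e1 : δ ^ 2 * (L : ℝ) ^ 2 * E = (L : ℝ) ^ 2 * (δ / ε) * (δ * ε * E) := by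
      field_simp
    rw [e1]
    exact mul_le_mul_of_nonneg_left h4 (by positivity)
  exact h1.trans h5

/-- `|S g| ≤ δ L C B/√(δ ε)` a.e. -/
theorem wr_S_bdd (hS : Std m K N) (hF : LipB F) {L : ℝ≥0} (hL : LipschitzWith L F) {C : ℝ}
    (hC : wr_BE5 m C) (hε : 0 < ε) (hδ : 0 < δ) (hlam : δ * ε ≤ 1) {g : X → ℝ} {B : ℝ}
    (hg : MemLp g 2 m) (hB : ∀ᵐ x ∂m, |g x| ≤ B) :
    ∀ᵐ x ∂m, |wr_S m F ε δ g x| ≤ δ * (L * (C * B / Real.sqrt (δ * ε))) := by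
  have hlam0 : 0 < δ * ε := mul_pos hδ hε
  have hR := wr_resF_sobolev hS hlam0 hg
  filter_upwards [wr_gamma_lip_abs_le hS hF hL hR.2.1, hC (δ * ε) hlam0 hlam g B hg hB] with x hx hx2
  show |δ * gamma m F (resF m (δ * ε) g) x| ≤ _
  rw [abs_mul, abs_of_pos hδ]
  refine mul_le_mul_of_nonneg_left (hx.trans ?_) hδ.le
  exact mul_le_mul_of_nonneg_left hx2 L.coe_nonneg

/-- arithmetic of the smallness condition `δ ≤ ε/(4 C² (L+1)²)`, `C ≥ 1`, `ε ≤ 1`. -/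
theorem wr_small_arith {L : ℝ≥0} {C : ℝ} (hC1 : 1 ≤ C) (hε : 0 < ε) (hε1 : ε ≤ 1) (hδ : 0 < δ)
    (hδ0 : δ ≤ ε / (4 * C ^ 2 * ((L : ℝ) + 1) ^ 2)) :
    δ * ε ≤ 1 ∧ (L : ℝ) ^ 2 * (δ / ε) ≤ 1 / 4 ∧
      ∀ B : ℝ, 0 ≤ B → δ * (L * (C * B / Real.sqrt (δ * ε))) ≤ B / 2 := by
  have hL0 : (0 : ℝ) ≤ L := L.2
  have hC0 : 0 < C := by linarith
  have hD : 0 < 4 * C ^ 2 * ((L : ℝ) + 1) ^ 2 := by positivity
  have hkey : δ * (4 * C ^ 2 * ((L : ℝ) + 1) ^ 2) ≤ ε := by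
    rwa [le_div_iff₀ hD] at hδ0
  have hC2 : 1 ≤ C ^ 2 := by nlinarith
  have hL2 : (L : ℝ) ^ 2 ≤ ((L : ℝ) + 1) ^ 2 := by nlinarith
  have hL1 : 1 ≤ ((L : ℝ) + 1) ^ 2 := by nlinarith
  have hCL : (L : ℝ) ^ 2 ≤ C ^ 2 * ((L : ℝ) + 1) ^ 2 := by nlinarith
  have hCL1 : 1 ≤ C ^ 2 * ((L : ℝ) + 1) ^ 2 := by nlinarith
  have hCL2 : C ^ 2 * (L : ℝ) ^ 2 ≤ C ^ 2 * ((L : ℝ) + 1) ^ 2 := by nlinarith
  have hδε : δ ≤ ε := by nlinarith
  refine ⟨by nlinarith, ?_, ?_⟩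
  · rw [← mul_div_assoc, div_le_iff₀ hε]
    nlinarith
  · intro B hB
    set s := Real.sqrt (δ * ε) with hs
    have hspos : 0 < s := Real.sqrt_pos.mpr (mul_pos hδ hε)
    have hs2 : s ^ 2 = δ * ε := Real.sq_sqrt (mul_pos hδ hε).le
    have h1 : 2 * δ * L * C ≤ s := by
      apply Real.le_sqrt_of_sq_le
      have : (2 * δ * L * C) ^ 2 = δ * (δ * (4 * (C ^ 2 * (L : ℝ) ^ 2))) := by ring
      rw [this]
      apply mul_le_mul_of_nonneg_left _ hδ.le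
      nlinarith
    have : δ * (L * (C * B / s)) = (2 * δ * L * C) * B / (2 * s) := by
      field_simp
    rw [this, div_le_div_iff₀ (by positivity) (by norm_num)]
    nlinarith [mul_le_mul_of_nonneg_right h1 hB]

/-- the set `{|g| ≤ B a.e.}` is closed in `L²` (a sequence converging in `L²` has an a.e. converging
subsequence: `tendstoInMeasure_of_tendsto_Lp`, `TendstoInMeasure.exists_seq_tendsto_ae`). -/
theorem wr_isClosed_bdd (m : Measure X) (B : ℝ) :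
    IsClosed {g : Lp ℝ 2 m | ∀ᵐ x ∂m, |g x| ≤ B} := by
  apply IsSeqClosed.isClosed
  intro g g₀ hg hlim
  have h1 : TendstoInMeasure m (fun n => (g n : X → ℝ)) atTop (g₀ : X → ℝ) :=
    tendstoInMeasure_of_tendsto_Lp hlim
  obtain ⟨ns, -, hns⟩ := h1.exists_seq_tendsto_ae
  have h2 : ∀ᵐ x ∂m, ∀ n, |g n x| ≤ B := ae_all_iff.2 hg
  show ∀ᵐ x ∂m, |g₀ x| ≤ B
  filter_upwards [hns, h2] with x hx hx2
  exact le_of_tendsto hx.abs (Eventually.of_forall fun n => hx2 (ns n))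

/-- `‖u‖² = ∫ u²` in `L²(m)`. -/
theorem wr_l2_norm_sq (u : Lp ℝ 2 m) : ‖u‖ ^ 2 = ∫ x, u x ^ 2 ∂m := by
  rw [← real_inner_self_eq_norm_sq, L2.inner_def]
  refine integral_congr_ae (Eventually.of_forall (fun x => ?_))
  simp only [real_inner_self_eq_norm_sq, Real.norm_eq_abs, sq_abs]

/-- **fixed point** of `g ↦ f + S g` in `{|g| ≤ 2M}`.
Proof: on `H = Lp ℝ 2 m` put `Φ g = toLp (f + S g)`.  `‖Φ g - Φ g'‖² = ∫ (S (g - g'))² ≤ ‖g - g'‖²/4`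
(`wr_S_sub`, `wr_S_norm_le`, `wr_small_arith`), so `ContractingWith (1/2) Φ`.  The closed set of `wr_isClosed_bdd` with
`B = 2M` is invariant (`wr_S_bdd`, `wr_small_arith`: `|f + S g| ≤ M + (2M)/2`) and contains `0`; the iterates `Φ^[n] 0` converge to
the fixed point (`ContractingWith.tendsto_iterate_fixedPoint`), which therefore lies in it. -/
theorem wr_fix_exists (hS : Std m K N) (hF : LipB F) {L : ℝ≥0} (hL : LipschitzWith L F) {C : ℝ}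
    (hC1 : 1 ≤ C) (hC : wr_BE5 m C) (hε : 0 < ε) (hε1 : ε ≤ 1) (hδ : 0 < δ)
    (hδ0 : δ ≤ ε / (4 * C ^ 2 * ((L : ℝ) + 1) ^ 2)) {f : X → ℝ} {M : ℝ} (hf : MemLp f 2 m)
    (hM : ∀ᵐ x ∂m, |f x| ≤ M) :
    ∃ g : X → ℝ, MemLp g 2 m ∧ (∀ᵐ x ∂m, |g x| ≤ 2 * M) ∧
      ∀ᵐ x ∂m, g x = f x + wr_S m F ε δ g x := by
  rcases lt_or_ge M 0 with hM0 | hM0
  · refine ⟨fun _ => 0, MemLp.zero, ?_, ?_⟩
    · filter_upwards [hM] with x hx
      exact absurd ((abs_nonneg _).trans hx) (not_le.mpr hM0)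
    · filter_upwards [hM] with x hx
      exact absurd ((abs_nonneg _).trans hx) (not_le.mpr hM0)
  obtain ⟨hlam, hquarter, hhalf⟩ := wr_small_arith (L := L) hC1 hε hε1 hδ hδ0
  have hSm : ∀ g : Lp ℝ 2 m, MemLp (wr_S m F ε δ g) 2 m := fun g =>
    wr_S_memLp hS hF hε hδ (Lp.memLp g)
  have hΦm : ∀ g : Lp ℝ 2 m, MemLp (fun x => f x + wr_S m F ε δ g x) 2 m := fun g =>
    hf.add (hSm g)
  set Φ : Lp ℝ 2 m → Lp ℝ 2 m := fun g => (hΦm g).toLp _ with hΦ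
  have hΦae : ∀ g : Lp ℝ 2 m, (Φ g : X → ℝ) =ᵐ[m] fun x => f x + wr_S m F ε δ g x := fun g =>
    (hΦm g).coeFn_toLp
  -- contraction
  have hcontr : ∀ g g' : Lp ℝ 2 m, dist (Φ g) (Φ g') ≤ ((1 / 2 : ℝ≥0) : ℝ) * dist g g' := by
    intro g g'
    have e1 : ‖Φ g - Φ g'‖ ^ 2 = ∫ x, wr_S m F ε δ (fun x => g x - g' x) x ^ 2 ∂m := by
      rw [wr_l2_norm_sq]
      refine integral_congr_ae ?_
      filter_upwards [Lp.coeFn_sub (Φ g) (Φ g'), hΦae g, hΦae g',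
        wr_S_sub hS hF hε hδ (Lp.memLp g) (Lp.memLp g')] with x h1 h2 h3 h4
      rw [h1, h4]
      simp only [Pi.sub_apply]
      rw [h2, h3]
      ring
    have e2 : ‖g - g'‖ ^ 2 = ∫ x, (g x - g' x) ^ 2 ∂m := by
      rw [wr_l2_norm_sq]
      refine integral_congr_ae ?_
      filter_upwards [Lp.coeFn_sub g g'] with x h1
      rw [h1]
      rfl
    have h3 := wr_S_norm_le hS hF hL hε hδ ((Lp.memLp g).sub (Lp.memLp g'))
    have h3' : ∫ x, wr_S m F ε δ (fun x => g x - g' x) x ^ 2 ∂m ≤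
        (L : ℝ) ^ 2 * (δ / ε) * ∫ x, (g x - g' x) ^ 2 ∂m := h3
    rw [← e1, ← e2] at h3'
    have h4 : ‖Φ g - Φ g'‖ ^ 2 ≤ (1 / 2 * ‖g - g'‖) ^ 2 := by
      calc ‖Φ g - Φ g'‖ ^ 2 ≤ (L : ℝ) ^ 2 * (δ / ε) * ‖g - g'‖ ^ 2 := h3'
        _ ≤ 1 / 4 * ‖g - g'‖ ^ 2 := mul_le_mul_of_nonneg_right hquarter (sq_nonneg _)
        _ = (1 / 2 * ‖g - g'‖) ^ 2 := by ring
    have h5 : ‖Φ g - Φ g'‖ ≤ 1 / 2 * ‖g - g'‖ :=
      (pow_le_pow_iff_left₀ (norm_nonneg _) (by positivity) (by norm_num)).mp h4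
    rw [dist_eq_norm, dist_eq_norm]
    have e3 : ((1 / 2 : ℝ≥0) : ℝ) = 1 / 2 := by norm_num
    rw [e3]
    exact h5
  have hCW : ContractingWith (1 / 2 : ℝ≥0) Φ :=
    ⟨by norm_num, LipschitzWith.of_dist_le_mul hcontr⟩
  -- invariant closed set
  have hclosed := wr_isClosed_bdd m (2 * M)
  have hinv : ∀ g : Lp ℝ 2 m, (∀ᵐ x ∂m, |g x| ≤ 2 * M) → ∀ᵐ x ∂m, |Φ g x| ≤ 2 * M := by
    intro g hg
    have hb := wr_S_bdd hS hF hL hC hε hδ hlam (Lp.memLp g) hg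
    have hh := hhalf (2 * M) (by positivity)
    filter_upwards [hΦae g, hb, hM] with x h1 h2 h3
    rw [h1]
    calc |f x + wr_S m F ε δ g x| ≤ |f x| + |wr_S m F ε δ g x| := abs_add_le _ _
      _ ≤ M + 2 * M / 2 := add_le_add h3 (h2.trans hh)
      _ = 2 * M := by ring
  have hiter : ∀ n : ℕ, Φ^[n] 0 ∈ {g : Lp ℝ 2 m | ∀ᵐ x ∂m, |g x| ≤ 2 * M} := by
    intro n
    induction n with
    | zero =>
      show ∀ᵐ x ∂m, |(0 : Lp ℝ 2 m) x| ≤ 2 * M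
      filter_upwards [Lp.coeFn_zero ℝ 2 m] with x hx
      rw [hx]
      simpa using hM0
    | succ n ih =>
      rw [Function.iterate_succ_apply']
      exact hinv _ ih
  have hmem : ContractingWith.fixedPoint Φ hCW ∈ {g : Lp ℝ 2 m | ∀ᵐ x ∂m, |g x| ≤ 2 * M} :=
    hclosed.mem_of_tendsto (hCW.tendsto_iterate_fixedPoint 0) (Eventually.of_forall hiter)
  have hfix : Φ (ContractingWith.fixedPoint Φ hCW) = ContractingWith.fixedPoint Φ hCW :=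
    hCW.fixedPoint_isFixedPt
  refine ⟨(ContractingWith.fixedPoint Φ hCW : Lp ℝ 2 m), Lp.memLp _, hmem, ?_⟩
  have := hΦae (ContractingWith.fixedPoint Φ hCW)
  rw [hfix] at this
  exact this

/-- a fixed point gives the weighted resolvent.
Proof: `u = resF m (δ ε) g`; `Δ u = (u - g)/(δ ε)` a.e. (`wr_n_resF_spec`, `wr_laplacian_eq`), so
`u - δ (ε Δ u + Γ(F,u)) = g - S g = f` a.e.; `wr_res_unique`. -/
theorem wr_fix_res (hS : Std m K N) (hF : LipB F) (hε : 0 < ε) (hδ : 0 < δ) {f g : X → ℝ}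
    (hg : MemLp g 2 m) (h : ∀ᵐ x ∂m, g x = f x + wr_S m F ε δ g x) :
    resF m (δ * ε) g =ᵐ[m] resW m F ε δ f := by
  have hlam : 0 < δ * ε := mul_pos hδ hε
  have hspec := wr_n_resF_spec hS hlam hg
  have hlap := wr_laplacian_eq hS hspec
  refine wr_res_unique hS hF hε hδ ⟨_, hspec⟩ ?_
  filter_upwards [h, hlap] with x hx hl
  unfold opL
  rw [hl]
  unfold wr_S at hx
  have hδ' : δ ≠ 0 := hδ.ne'
  have hε' : ε ≠ 0 := hε.ne'
  have e1 : δ * (ε * ((resF m (δ * ε) g x - g x) / (δ * ε))) = resF m (δ * ε) g x - g x := by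
    field_simp
  have : δ * (ε * ((resF m (δ * ε) g x - g x) / (δ * ε)) + gamma m F (resF m (δ * ε) g) x)
      = (resF m (δ * ε) g x - g x) + δ * gamma m F (resF m (δ * ε) g) x := by
    rw [mul_add, e1]
  rw [this]
  linarith

/-- **WR4**, gradient bound. -/
theorem wr_lip_grad (hS : Std m K N) (hF : LipB F) {L : ℝ≥0} (hL : LipschitzWith L F) {C : ℝ}
    (hC1 : 1 ≤ C) (hC : wr_BE5 m C) (hε : 0 < ε) (hε1 : ε ≤ 1) (hδ : 0 < δ)
    (hδ0 : δ ≤ ε / (4 * C ^ 2 * ((L : ℝ) + 1) ^ 2)) {f : X → ℝ} {M : ℝ} (hf : MemLp f 2 m)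
    (hM : ∀ᵐ x ∂m, |f x| ≤ M) :
    ∀ᵐ x ∂m, weakGradient m (resW m F ε δ f) x ≤ C * (2 * M) / Real.sqrt (δ * ε) := by
  obtain ⟨g, hg, hgM, hfix⟩ := wr_fix_exists hS hF hL hC1 hC hε hε1 hδ hδ0 hf hM
  have h1 := wr_fix_res hS hF hε hδ hg hfix
  have h2 := hC (δ * ε) (mul_pos hδ hε) (wr_small_arith hC1 hε hε1 hδ hδ0).1 g (2 * M) hg hgM
  rw [wr_n_wg_congr h1] at h2
  exact h2

/-- an inequality between continuous functions that holds a.e. holds everywhere (full support). -/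
theorem wr_all_of_ae (hfull : FullSupport m) {η ζ : X → ℝ} (hη : Continuous η) (hζ : Continuous ζ)
    (h : ∀ᵐ x ∂m, η x ≤ ζ x) : ∀ x, η x ≤ ζ x := by
  intro x
  by_contra hx
  rw [not_le] at hx
  have hopen : IsOpen {y | ζ y < η y} := isOpen_lt hζ hη
  have hpos := hfull _ hopen ⟨x, hx⟩
  have hzero : m {y | ζ y < η y} = 0 := by
    have := ae_iff.mp h
    simpa only [not_le] using this
  exact absurd hzero hpos.ne'

/-- **regularity predicate**: for `|f| ≤ M`, `J f` has a representative which is `A·M`-Lipschitz, bounded by `M`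
(and nonnegative if `f` is). -/
def wr_Reg (m : Measure X) (F : X → ℝ) (ε δ : ℝ) (A : ℝ≥0) : Prop :=
  ∀ (f : X → ℝ) (M : ℝ≥0), MemLp f 2 m → (∀ᵐ x ∂m, |f x| ≤ M) →
    ∃ η : X → ℝ, LipschitzWith (A * M) η ∧ (∀ x, |η x| ≤ M) ∧ η =ᵐ[m] resW m F ε δ f ∧
      ((∀ᵐ x ∂m, 0 ≤ f x) → ∀ x, 0 ≤ η x)

/-- from `wr_lip_grad`, `wr_n_be3`, `wr_res_abs_le`, `wr_res_nonneg`, `wr_all_of_ae`. -/
theorem wr_reg_of_small (hS : Std m K N) (hF : LipB F) {L : ℝ≥0} (hL : LipschitzWith L F) {C : ℝ}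
    (hC1 : 1 ≤ C) (hC : wr_BE5 m C) (hε : 0 < ε) (hε1 : ε ≤ 1) (hδ : 0 < δ)
    (hδ0 : δ ≤ ε / (4 * C ^ 2 * ((L : ℝ) + 1) ^ 2)) :
    wr_Reg m F ε δ (Real.toNNReal (2 * C / Real.sqrt (δ * ε))) := by
  intro f M hf hM
  have hsq : 0 < Real.sqrt (δ * ε) := Real.sqrt_pos.2 (mul_pos hδ hε)
  have hA : 0 ≤ 2 * C / Real.sqrt (δ * ε) := by positivity
  have hgrad := wr_lip_grad hS hF hL hC1 hC hε hε1 hδ hδ0 hf hM
  have hgrad' : ∀ᵐ x ∂m, weakGradient m (resW m F ε δ f) x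
      ≤ ((Real.toNNReal (2 * C / Real.sqrt (δ * ε)) * M : ℝ≥0) : ℝ) := by
    filter_upwards [hgrad] with x hx
    rw [NNReal.coe_mul, Real.coe_toNNReal _ hA]
    refine hx.trans (le_of_eq ?_)
    ring
  obtain ⟨η, hηL, hηe⟩ := wr_n_be3 hS (wr_sobolev_local (wr_res_sobolev hS hF hε hδ hf)) hgrad'
  have hηc : Continuous η := hηL.continuous
  have habs := wr_res_abs_le hS hF hε hδ hf hM
  have hup : ∀ x, η x ≤ (M : ℝ) := by
    refine wr_all_of_ae hS.full hηc continuous_const ?_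
    filter_upwards [hηe, habs] with x hx1 hx2
    rw [hx1]
    exact (abs_le.1 hx2).2
  have hlow : ∀ x, -(M : ℝ) ≤ η x := by
    refine wr_all_of_ae hS.full continuous_const hηc ?_
    filter_upwards [hηe, habs] with x hx1 hx2
    rw [hx1]
    exact (abs_le.1 hx2).1
  refine ⟨η, hηL, fun x => abs_le.2 ⟨hlow x, hup x⟩, hηe, fun h0 => ?_⟩
  refine wr_all_of_ae hS.full continuous_const hηc ?_
  filter_upwards [hηe, wr_res_nonneg hS hF hε hδ hf h0] with x hx1 hx2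
  rw [hx1]
  exact hx2

/-- **WR4**: there is `c₀ > 0` (depending only on `m, K, N, F`) such that for `0 < ε ≤ 1`, `0 < δ ≤ c₀ ε` the resolvent
`J = resW m F ε δ` is regularising. -/
theorem wr_reg (hS : Std m K N) (hF : LipB F) : ∃ c₀ : ℝ, 0 < c₀ ∧ ∃ C : ℝ, 0 < C ∧
    ∀ ε δ : ℝ, 0 < ε → ε ≤ 1 → 0 < δ → δ ≤ c₀ * ε →
      wr_Reg m F ε δ (Real.toNNReal (C / Real.sqrt (δ * ε))) := by
  obtain ⟨C, hC1, hC⟩ := wr_n_be5 hS
  obtain ⟨L, hL⟩ := hF.1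
  have hpos : 0 < 4 * C ^ 2 * ((L : ℝ) + 1) ^ 2 := by positivity
  refine ⟨1 / (4 * C ^ 2 * ((L : ℝ) + 1) ^ 2), by positivity, 2 * C, by positivity, ?_⟩
  intro ε δ hε hε1 hδ hδ0
  refine wr_reg_of_small hS hF hL hC1 hC hε hε1 hδ ?_
  calc δ ≤ 1 / (4 * C ^ 2 * ((L : ℝ) + 1) ^ 2) * ε := hδ0
    _ = ε / (4 * C ^ 2 * ((L : ℝ) + 1) ^ 2) := by ring

end Claimed.Agent.R210.WR.Lip
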